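import Vale.Agent.Lib.P067.Defs

namespace Vale.Agent.Lib.P067

open Finset

variable {V : Type*} [DecidableEq V]

omit [DecidableEq V] in
lemma mem_faces {X : Finset (Finset V)} {i : ℕ} {s : Finset V} :
    s ∈ faces X i ↔ s ∈ X ∧ s.card = i + 1 := by
  simp [faces]

omit [DecidableEq V] in
lemma mem_skel {X : Finset (Finset V)} {d : ℕ} {s : Finset V} :
    s ∈ skel X d ↔ s ∈ X ∧ s.card ≤ d + 1 := by
  simp [skel]

omit [DecidableEq V] in
lemma faces_skel {X : Finset (Finset V)} {d i : ℕ} (h : i ≤ d) :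
    faces (skel X d) i = faces X i := by
  ext s
  simp only [mem_faces, mem_skel]
  constructor
  · rintro ⟨⟨h1, _⟩, h2⟩
    exact ⟨h1, h2⟩
  · rintro ⟨h1, h2⟩
    exact ⟨⟨h1, by omega⟩, h2⟩

lemma cobdry_skel {X : Finset (Finset V)} {d i : ℕ} (h : i ≤ d) (f : Finset V → ZMod 2) :
    cobdry (skel X d) i f = cobdry X i f := by
  funext t
  simp [cobdry, faces_skel h]

lemma isCobdry_skel {X : Finset (Finset V)} {d i : ℕ} (h : i ≤ d) (g : Finset V → ZMod 2) :
    IsCobdry (skel X d) i g ↔ IsCobdry X i g := by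
  cases i with
  | zero => simp [IsCobdry, faces_skel h]
  | succ j => simp only [IsCobdry, faces_skel h, cobdry_skel (by omega : j ≤ d)]

lemma updeg_skel {X : Finset (Finset V)} {d : ℕ} (s : Finset V) :
    updeg (skel X d) d s = ((faces X d).filter (fun t => s ⊆ t)).card := by
  simp [updeg, faces_skel (le_refl d)]

/-- Double counting of pairs `ρ ⊆ τ` with `ρ` a `d`-face containing `s` and `τ` a `(d+1)`-face. -/
lemma sum_updeg {X : Finset (Finset V)}
    (hX : ∀ s ∈ X, s.Nonempty ∧ ∀ t, t ⊆ s → t.Nonempty → t ∈ X) (d : ℕ) (s : Finset V) :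
    ∑ ρ ∈ (faces X d).filter (fun ρ => s ⊆ ρ), updeg X (d + 1) ρ
      = (d + 2 - s.card) * updeg X (d + 1) s := by
  have h1 : ∀ ρ, updeg X (d + 1) ρ = ∑ τ ∈ faces X (d + 1), if ρ ⊆ τ then 1 else 0 := by
    intro ρ
    unfold updeg
    rw [card_filter]
  simp_rw [h1]
  rw [sum_comm]
  have h2 : ∀ τ ∈ faces X (d + 1),
      (∑ ρ ∈ (faces X d).filter (fun ρ => s ⊆ ρ), if ρ ⊆ τ then 1 else 0)
        = if s ⊆ τ then (d + 2 - s.card) else 0 := by
    intro τ hτ
    rw [mem_faces] at hτ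
    rw [← card_filter]
    split_ifs with hsτ
    · have : ((faces X d).filter (fun ρ => s ⊆ ρ)).filter (fun ρ => ρ ⊆ τ)
          = (τ \ s).image (fun x => τ.erase x) := by
        ext ρ
        simp only [mem_filter, mem_faces, mem_image, mem_sdiff]
        constructor
        · rintro ⟨⟨⟨hρX, hρc⟩, hsρ⟩, hρτ⟩
          have hcard : (τ \ ρ).card = 1 := by
            rw [card_sdiff_of_subset hρτ]
            omega
          obtain ⟨x, hx⟩ := card_eq_one.mp hcard
          have hxm : x ∈ τ \ ρ := by rw [hx]; exact mem_singleton_self x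
          rw [mem_sdiff] at hxm
          refine ⟨x, ⟨hxm.1, fun hxs => hxm.2 (hsρ hxs)⟩, ?_⟩
          ext y
          simp only [mem_erase]
          constructor
          · rintro ⟨hyx, hyτ⟩
            by_contra hyρ
            have : y ∈ τ \ ρ := mem_sdiff.mpr ⟨hyτ, hyρ⟩
            rw [hx, mem_singleton] at this
            exact hyx this
          · intro hyρ
            exact ⟨fun hyx => hxm.2 (hyx ▸ hyρ), hρτ hyρ⟩
        · rintro ⟨x, ⟨hxτ, hxs⟩, rfl⟩
          refine ⟨⟨⟨?_, ?_⟩, ?_⟩, erase_subset x τ⟩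
          · refine (hX τ hτ.1).2 _ (erase_subset x τ) ?_
            rw [← card_pos, card_erase_of_mem hxτ]
            omega
          · rw [card_erase_of_mem hxτ]
            omega
          · intro y hy
            exact mem_erase.mpr ⟨fun hyx => hxs (hyx ▸ hy), hsτ hy⟩
      rw [this, card_image_of_injOn, card_sdiff_of_subset hsτ, hτ.2]
      intro x hx y hy hxy
      have hx' := mem_sdiff.mp (mem_coe.mp hx)
      have hxy' : τ.erase x = τ.erase y := hxy
      by_contra hne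
      have : x ∈ τ.erase y := mem_erase.mpr ⟨hne, hx'.1⟩
      rw [← hxy'] at this
      exact (notMem_erase x τ) this
    · rw [card_eq_zero, filter_eq_empty_iff]
      intro ρ hρ hρτ
      rw [mem_filter] at hρ
      exact hsτ (hρ.2.trans hρτ)
  rw [sum_congr rfl h2, ← sum_filter, sum_const, smul_eq_mul, ← card_filter, mul_comm]



lemma one_le_updeg {X : Finset (Finset V)} {d : ℕ} (hP : IsPureComplex X d) {ρ : Finset V}
    (hρ : ρ ∈ X) : 1 ≤ updeg X d ρ := by
  obtain ⟨t, ht, hst⟩ := hP.2.2 ρ hρ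
  unfold updeg
  rw [Nat.one_le_iff_ne_zero, ← Nat.pos_iff_ne_zero, card_pos]
  exact ⟨t, mem_filter.mpr ⟨ht, hst⟩⟩

lemma updeg_le_of_subset {X : Finset (Finset V)} {d : ℕ} {s t : Finset V} (h : s ⊆ t) :
    updeg X d t ≤ updeg X d s := by
  unfold updeg
  apply card_le_card
  intro τ hτ
  rw [mem_filter] at hτ ⊢
  exact ⟨hτ.1, h.trans hτ.2⟩

lemma updeg_le_deg {X : Finset (Finset V)} {d D : ℕ} (hD : ∀ v, updeg X d {v} ≤ D)
    {ρ : Finset V} (hρ : ρ.Nonempty) : updeg X d ρ ≤ D := by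
  obtain ⟨v, hv⟩ := hρ
  exact (updeg_le_of_subset (singleton_subset_iff.mpr hv)).trans (hD v)

/-- `b(s) ≤ (d + 2 - |s|) a(s)` -/
lemma skel_updeg_le {X : Finset (Finset V)} {d : ℕ} (hP : IsPureComplex X (d + 1))
    (s : Finset V) :
    updeg (skel X d) d s ≤ (d + 2 - s.card) * updeg X (d + 1) s := by
  rw [updeg_skel, ← sum_updeg hP.2.1 d s, card_eq_sum_ones]
  apply sum_le_sum
  intro ρ hρ
  rw [mem_filter, mem_faces] at hρ
  exact one_le_updeg hP hρ.1.1

/-- `(d + 2 - |s|) a(s) ≤ D b(s)` -/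
lemma le_skel_updeg {X : Finset (Finset V)} {d D : ℕ} (hP : IsPureComplex X (d + 1))
    (hD : ∀ v, updeg X (d + 1) {v} ≤ D) (s : Finset V) :
    (d + 2 - s.card) * updeg X (d + 1) s ≤ D * updeg (skel X d) d s := by
  rw [updeg_skel, ← sum_updeg hP.2.1 d s, mul_comm, ← smul_eq_mul, ← sum_const]
  apply sum_le_sum
  intro ρ hρ
  rw [mem_filter, mem_faces] at hρ
  exact updeg_le_deg hD (hP.2.1 ρ hρ.1.1).1

lemma updeg_empty (X : Finset (Finset V)) (d : ℕ) : updeg X d ∅ = (faces X d).card := by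
  simp [updeg]

omit [DecidableEq V] in
lemma card_faces_pos {X : Finset (Finset V)} {d : ℕ} (hP : IsPureComplex X d) :
    0 < (faces X d).card := by
  obtain ⟨s, hs⟩ := hP.1
  obtain ⟨t, ht, -⟩ := hP.2.2 s hs
  exact card_pos.mpr ⟨t, ht⟩

lemma card_faces_skel_le {X : Finset (Finset V)} {d : ℕ} (hP : IsPureComplex X (d + 1)) :
    (faces X d).card ≤ (d + 2) * (faces X (d + 1)).card := by
  have h := skel_updeg_le hP (∅ : Finset V)
  rw [updeg_empty, updeg_empty, faces_skel (le_refl d)] at h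
  simpa using h

lemma le_card_faces_skel {X : Finset (Finset V)} {d D : ℕ} (hP : IsPureComplex X (d + 1))
    (hD : ∀ v, updeg X (d + 1) {v} ≤ D) :
    (d + 2) * (faces X (d + 1)).card ≤ D * (faces X d).card := by
  have h := le_skel_updeg hP hD (∅ : Finset V)
  rw [updeg_empty, updeg_empty, faces_skel (le_refl d)] at h
  simpa using h



omit [DecidableEq V] in
lemma isPure_aux {X : Finset (Finset V)} {d : ℕ} (hP : IsPureComplex X (d + 1)) :
    IsPureComplex (skel X d) d := by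
  refine ⟨?_, ?_, ?_⟩
  · obtain ⟨s, hs⟩ := hP.1
    obtain ⟨v, hv⟩ := (hP.2.1 s hs).1
    exact ⟨{v}, mem_skel.mpr ⟨(hP.2.1 s hs).2 _ (singleton_subset_iff.mpr hv)
      (singleton_nonempty v), by simp⟩⟩
  · intro s hs
    rw [mem_skel] at hs
    exact ⟨(hP.2.1 s hs.1).1, fun t hts htn =>
      mem_skel.mpr ⟨(hP.2.1 s hs.1).2 t hts htn, (card_le_card hts).trans hs.2⟩⟩
  · intro s hs
    rw [mem_skel] at hs
    obtain ⟨t, ht, hst⟩ := hP.2.2 s hs.1
    rw [mem_faces] at ht
    obtain ⟨ρ, hsρ, hρt, hρc⟩ :=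
      exists_subsuperset_card_eq hst hs.2 (by omega : d + 1 ≤ t.card)
    refine ⟨ρ, ?_, hsρ⟩
    rw [faces_skel (le_refl d), mem_faces]
    refine ⟨(hP.2.1 t ht.1).2 ρ hρt ?_, hρc⟩
    rw [← card_pos]
    omega

/-- The arithmetic behind the comparison of weights. -/
lemma weight_arith {a b A Bt c1 c2 m n2 D : ℝ} (hA : 0 < A) (hBt : 0 < Bt) (hc1 : 0 < c1)
    (hc2 : 0 < c2) (hm : 0 < m) (hn2 : 0 < n2) (ha : 0 ≤ a) (hb : 0 ≤ b) (hD : 0 ≤ D)
    (hb1 : b ≤ m * a) (hb2 : m * a ≤ D * b) (hA1 : Bt ≤ n2 * A) (hA2 : n2 * A ≤ D * Bt)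
    (hc : c1 * n2 = c2 * m) :
    b / (c1 * Bt) ≤ D * (a / (c2 * A)) ∧ a / (c2 * A) ≤ D * (b / (c1 * Bt)) := by
  constructor
  · rw [← mul_div_assoc, div_le_div_iff₀ (by positivity) (by positivity)]
    have h1 : b * (n2 * A) ≤ (m * a) * (D * Bt) :=
      mul_le_mul hb1 hA2 (by positivity) (by positivity)
    have h2 : b * (c2 * A) * n2 = c2 * (b * (n2 * A)) := by ring
    have h3 : D * a * (c1 * Bt) * n2 = c2 * ((m * a) * (D * Bt)) := by
      linear_combination (D * a * Bt) * hc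
    refine le_of_mul_le_mul_right ?_ hn2
    rw [h2, h3]
    exact mul_le_mul_of_nonneg_left h1 hc2.le
  · rw [← mul_div_assoc, div_le_div_iff₀ (by positivity) (by positivity)]
    have h1 : (m * a) * Bt ≤ (D * b) * (n2 * A) :=
      mul_le_mul hb2 hA1 (by positivity) (by positivity)
    have h2 : a * (c1 * Bt) * m = c1 * ((m * a) * Bt) := by ring
    have h3 : D * b * (c2 * A) * m = c1 * ((D * b) * (n2 * A)) := by
      linear_combination (-(D * b * A)) * hc
    refine le_of_mul_le_mul_right ?_ hm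
    rw [h2, h3]
    exact mul_le_mul_of_nonneg_left h1 hc1.le

lemma weight_skel_cmp {X : Finset (Finset V)} {d D i : ℕ} (hP : IsPureComplex X (d + 1))
    (hD : ∀ v, updeg X (d + 1) {v} ≤ D) (hi : i ≤ d) {s : Finset V} (hs : s ∈ faces X i) :
    weight (skel X d) d i s ≤ D * weight X (d + 1) i s ∧
      weight X (d + 1) i s ≤ D * weight (skel X d) d i s := by
  have hcard : s.card = i + 1 := (mem_faces.mp hs).2
  have hb1 := skel_updeg_le hP s
  have hb2 := le_skel_updeg hP hD s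
  have hA1 := card_faces_skel_le hP
  have hA2 := le_card_faces_skel hP hD
  have hc := Nat.choose_mul_succ_eq (d + 1) (i + 1)
  have hm : d + 1 + 1 - (i + 1) = d + 2 - s.card := by omega
  rw [hm] at hc
  have hmpos : 0 < d + 2 - s.card := by omega
  generalize d + 2 - s.card = m at hb1 hb2 hc hmpos
  have hApos := card_faces_pos hP
  have hBpos : 0 < (faces X d).card := by
    have := card_faces_pos (isPure_aux hP)
    rwa [faces_skel (le_refl d)] at this
  have hc1 : 0 < (d + 1).choose (i + 1) := Nat.choose_pos (by omega)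
  have hc2 : 0 < (d + 1 + 1).choose (i + 1) := Nat.choose_pos (by omega)
  unfold weight
  rw [faces_skel (le_refl d)]
  refine weight_arith (m := (m : ℝ)) (n2 := ((d + 1 + 1 : ℕ) : ℝ)) ?_ ?_ ?_ ?_ ?_ ?_ ?_ ?_ ?_
    ?_ ?_ ?_ ?_ ?_
  · exact_mod_cast hApos
  · exact_mod_cast hBpos
  · exact_mod_cast hc1
  · exact_mod_cast hc2
  · exact_mod_cast hmpos
  · positivity
  · positivity
  · positivity
  · positivity
  · exact_mod_cast hb1
  · exact_mod_cast hb2
  · exact_mod_cast hA1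
  · exact_mod_cast hA2
  · exact_mod_cast hc



lemma norm_skel_le {X : Finset (Finset V)} {d D i : ℕ} (hP : IsPureComplex X (d + 1))
    (hD : ∀ v, updeg X (d + 1) {v} ≤ D) (hi : i ≤ d) (f : Finset V → ZMod 2) :
    norm (skel X d) d i f ≤ D * norm X (d + 1) i f := by
  unfold norm
  rw [faces_skel hi, mul_sum]
  apply sum_le_sum
  intro s hs
  exact (weight_skel_cmp hP hD hi (mem_filter.mp hs).1).1

lemma norm_le_skel {X : Finset (Finset V)} {d D i : ℕ} (hP : IsPureComplex X (d + 1))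
    (hD : ∀ v, updeg X (d + 1) {v} ≤ D) (hi : i ≤ d) (f : Finset V → ZMod 2) :
    norm X (d + 1) i f ≤ D * norm (skel X d) d i f := by
  unfold norm
  rw [faces_skel hi, mul_sum]
  apply sum_le_sum
  intro s hs
  exact (weight_skel_cmp hP hD hi (mem_filter.mp hs).1).2

lemma norm_nonneg (X : Finset (Finset V)) (d i : ℕ) (f : Finset V → ZMod 2) :
    0 ≤ norm X d i f := by
  unfold norm
  apply sum_nonneg
  intro s _
  unfold weight
  positivity

lemma one_le_deg {X : Finset (Finset V)} {d D : ℕ} (hP : IsPureComplex X d)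
    (hD : ∀ v, updeg X d {v} ≤ D) : 1 ≤ D := by
  obtain ⟨s, hs⟩ := hP.1
  obtain ⟨v, hv⟩ := (hP.2.1 s hs).1
  have h1 : ({v} : Finset V) ∈ X :=
    (hP.2.1 s hs).2 _ (singleton_subset_iff.mpr hv) (singleton_nonempty v)
  exact (one_le_updeg hP h1).trans (hD v)

/-- The `d`-skeleton of an `ε`-coboundary expander of dimension `d + 1` and degree at most
`D` is an `ε / D ^ 2`-coboundary expander. -/
theorem isCobExp_skel {X : Finset (Finset V)} {d D : ℕ} {ε : ℝ} (hε : 0 ≤ ε)
    (hP : IsPureComplex X (d + 1)) (hD : ∀ v, updeg X (d + 1) {v} ≤ D)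
    (hE : IsCobExp X (d + 1) ε) : IsCobExp (skel X d) d (ε / (D : ℝ) ^ 2) := by
  intro i hi f
  obtain ⟨g, hg, hgε⟩ := hE i (by omega) f
  refine ⟨g, (isCobdry_skel (by omega) g).mpr hg, ?_⟩
  rw [cobdry_skel (by omega)]
  have h1 := norm_skel_le hP hD (by omega : i ≤ d) (f - g)
  have h2 := norm_le_skel hP hD (by omega : i + 1 ≤ d) (cobdry X i f)
  have hD1 : (1 : ℝ) ≤ D := by exact_mod_cast one_le_deg hP hD
  have hDpos : (0 : ℝ) < D := by linarith
  have h0 := norm_nonneg X (d + 1) i (f - g)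
  calc ε / (D : ℝ) ^ 2 * norm (skel X d) d i (f - g)
      ≤ ε / (D : ℝ) ^ 2 * (D * norm X (d + 1) i (f - g)) := by gcongr
    _ = (ε * norm X (d + 1) i (f - g)) / D := by field_simp
    _ ≤ norm X (d + 1) (i + 1) (cobdry X i f) / D := by gcongr
    _ ≤ (D * norm (skel X d) d (i + 1) (cobdry X i f)) / D := by gcongr
    _ = norm (skel X d) d (i + 1) (cobdry X i f) := by field_simp

lemma updeg_skel_singleton_le {X : Finset (Finset V)} {d D : ℕ}
    (hP : IsPureComplex X (d + 1)) (hD : ∀ v, updeg X (d + 1) {v} ≤ D) (v : V) :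
    updeg (skel X d) d {v} ≤ (d + 1) * D := by
  have h := skel_updeg_le hP ({v} : Finset V)
  rw [card_singleton] at h
  exact h.trans (Nat.mul_le_mul (by omega) (hD v))

/-- For `d ≥ 1` the `d`-skeleton has the same `1`-skeleton graph. -/
def skelIso (X : Finset (Finset V)) {d : ℕ} (hd : 1 ≤ d) : graph (skel X d) ≃g graph X where
  toFun v := ⟨v.1, (mem_skel.mp v.2).1⟩
  invFun v := ⟨v.1, mem_skel.mpr ⟨v.2, by simp⟩⟩
  left_inv _ := rfl
  right_inv _ := rfl
  map_rel_iff' := by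
    intro u v
    simp only [graph, Equiv.coe_fn_mk, ne_eq, mem_skel]
    constructor
    · rintro ⟨h1, h2⟩
      refine ⟨fun h => h1 ?_, h2, ?_⟩
      · rw [h]
      · exact (card_le_two).trans (by omega)
    · rintro ⟨h1, h2, _⟩
      refine ⟨fun h => h1 ?_, h2⟩
      exact Subtype.ext (Subtype.mk_eq_mk.mp h)

theorem good_of_good_succ {d : ℕ} (hd : 1 ≤ d) (h : Good (d + 1)) : Good d := by
  obtain ⟨D, ε, hε, hX⟩ := h
  refine ⟨(d + 1) * D, ε / (D : ℝ) ^ 2, ?_, ?_⟩
  · obtain ⟨X, hP, -, -, hD, -⟩ := hX 0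
    have hD1 : (1 : ℝ) ≤ D := by exact_mod_cast one_le_deg hP hD
    positivity
  · intro N
    obtain ⟨X, hP, hC, hN, hD, hE⟩ := hX N
    refine ⟨skel X d, isPure_aux hP, (skelIso X hd).connected_iff.mpr hC, ?_,
      updeg_skel_singleton_le hP hD, isCobExp_skel hε.le hP hD hE⟩
    rw [faces_skel (Nat.zero_le d)]
    exact hN

theorem good_mono {d e : ℕ} (hd : 1 ≤ d) (hde : d ≤ e) (h : Good e) : Good d := by
  induction e, hde using Nat.le_induction with
  | base => exact h
  | succ n hn ih => exact ih (good_of_good_succ (hd.trans hn) h)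

end Vale.Agent.Lib.P067
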