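import Vale.Agent.Lib.P067.Universal
import Vale.Agent.Lib.P067.Skeleton

namespace Vale.Agent.Lib.P067

open Finset

variable {V : Type*} [DecidableEq V]

/-- The support of an `i`-cochain. -/
def supp (X : Finset (Finset V)) (i : ℕ) (f : Finset V → ZMod 2) : Finset (Finset V) :=
  (faces X i).filter (fun s => f s ≠ 0)

omit [DecidableEq V] in
lemma mem_supp {X : Finset (Finset V)} {i : ℕ} {f : Finset V → ZMod 2} {s : Finset V} :
    s ∈ supp X i f ↔ s ∈ faces X i ∧ f s ≠ 0 := by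
  simp [supp]

/-- A covering bound: if `S` is covered by sets `R x`, `x ∈ S'`, each of size at most `n`. -/
lemma card_le_mul_of_cover {α β : Type*} [DecidableEq α] {S : Finset α} {S' : Finset β}
    (R : β → Finset α) (n : ℕ) (hR : ∀ x ∈ S', (R x).card ≤ n)
    (hcov : ∀ a ∈ S, ∃ x ∈ S', a ∈ R x) : S.card ≤ n * S'.card := by
  have h1 : S ⊆ S'.biUnion R := by
    intro a ha
    obtain ⟨x, hx, hax⟩ := hcov a ha
    exact mem_biUnion.mpr ⟨x, hx, hax⟩
  calc S.card ≤ (S'.biUnion R).card := card_le_card h1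
    _ ≤ S'.card * n := card_biUnion_le_card_mul S' R n hR
    _ = n * S'.card := Nat.mul_comm _ _

/-- On a face of a complex the coboundary is the universal coboundary. -/
lemma cobdry_eq_dsum {X : Finset (Finset V)}
    (hX : ∀ s ∈ X, s.Nonempty ∧ ∀ t, t ⊆ s → t.Nonempty → t ∈ X) {i : ℕ} {ρ : Finset V}
    (hρ : ρ ∈ X) (hc : ρ.card = i + 2) (g : Finset V → ZMod 2) :
    cobdry X i g ρ = dsum g ρ := by
  have hset : (faces X i).filter (fun s => s ⊆ ρ) = ρ.image (fun u => ρ.erase u) := by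
    ext s
    simp only [mem_filter, mem_faces, mem_image]
    constructor
    · rintro ⟨⟨_, hsc⟩, hsρ⟩
      have hcard : (ρ \ s).card = 1 := by
        rw [card_sdiff_of_subset hsρ]
        omega
      obtain ⟨x, hx⟩ := card_eq_one.mp hcard
      have hxm : x ∈ ρ \ s := by
        rw [hx]
        exact mem_singleton_self x
      rw [mem_sdiff] at hxm
      refine ⟨x, hxm.1, ?_⟩
      ext y
      simp only [mem_erase]
      constructor
      · rintro ⟨hyx, hyρ⟩
        by_contra hys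
        have : y ∈ ρ \ s := mem_sdiff.mpr ⟨hyρ, hys⟩
        rw [hx, mem_singleton] at this
        exact hyx this
      · intro hys
        exact ⟨fun hyx => hxm.2 (hyx ▸ hys), hsρ hys⟩
    · rintro ⟨x, hx, rfl⟩
      refine ⟨⟨?_, ?_⟩, erase_subset x ρ⟩
      · refine (hX ρ hρ).2 _ (erase_subset x ρ) ?_
        rw [← card_pos, card_erase_of_mem hx]
        omega
      · rw [card_erase_of_mem hx]
        omega
  unfold cobdry dsum
  rw [hset, sum_image]
  intro x hx y hy hxy
  have hx' : x ∈ ρ := hx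
  have hxy' : ρ.erase x = ρ.erase y := hxy
  by_contra hne
  have : x ∈ ρ.erase y := mem_erase.mpr ⟨hne, hx'⟩
  rw [← hxy'] at this
  exact (notMem_erase x ρ) this



lemma Cn_norm_eq {X : Finset (Finset V)} {d i : ℕ} (hP : IsPureComplex X d) (hi : i ≤ d)
    (f : Finset V → ZMod 2) :
    ((d + 1).choose (i + 1) : ℝ) * ((faces X d).card : ℝ) * norm X d i f
      = ∑ s ∈ supp X i f, (updeg X d s : ℝ) := by
  have hn : (0 : ℝ) < (faces X d).card := by exact_mod_cast card_faces_pos hP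
  have hC : (0 : ℝ) < (d + 1).choose (i + 1) := by
    exact_mod_cast Nat.choose_pos (by omega : i + 1 ≤ d + 1)
  unfold norm weight supp
  rw [mul_sum]
  apply sum_congr rfl
  intro s _
  field_simp

lemma card_supp_le {X : Finset (Finset V)} {d i : ℕ} (hP : IsPureComplex X d) (hi : i ≤ d)
    (f : Finset V → ZMod 2) :
    ((supp X i f).card : ℝ)
      ≤ ((d + 1).choose (i + 1) : ℝ) * ((faces X d).card : ℝ) * norm X d i f := by
  rw [Cn_norm_eq hP hi, card_eq_sum_ones, Nat.cast_sum]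
  apply sum_le_sum
  intro s hs
  have h1 : 1 ≤ updeg X d s := one_le_updeg hP (mem_faces.mp (mem_supp.mp hs).1).1
  exact_mod_cast h1

lemma Cn_norm_le {X : Finset (Finset V)} {d D i : ℕ} (hP : IsPureComplex X d)
    (hD : ∀ v, updeg X d {v} ≤ D) (hi : i ≤ d) (f : Finset V → ZMod 2) :
    ((d + 1).choose (i + 1) : ℝ) * ((faces X d).card : ℝ) * norm X d i f
      ≤ (D : ℝ) * ((supp X i f).card : ℝ) := by
  rw [Cn_norm_eq hP hi, mul_comm, ← nsmul_eq_mul, ← sum_const]
  apply sum_le_sum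
  intro s hs
  have h1 : updeg X d s ≤ D :=
    updeg_le_deg hD (hP.2.1 s (mem_faces.mp (mem_supp.mp hs).1).1).1
  exact_mod_cast h1

lemma choose_cmp (d i : ℕ) (hi : i < d) :
    (d + 1).choose (i + 1) ≤ (d + 1) * (d + 1).choose (i + 2) ∧
      (d + 1).choose (i + 2) ≤ (d + 1) * (d + 1).choose (i + 1) := by
  have h := Nat.choose_succ_right_eq (d + 1) (i + 1)
  have e : d + 1 - (i + 1) = d - i := by omega
  rw [e] at h
  constructor
  · calc (d + 1).choose (i + 1) = (d + 1).choose (i + 1) * 1 := (Nat.mul_one _).symm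
      _ ≤ (d + 1).choose (i + 1) * (d - i) := Nat.mul_le_mul_left _ (by omega)
      _ = (d + 1).choose (i + 2) * (i + 2) := h.symm
      _ ≤ (d + 1).choose (i + 2) * (d + 1) := Nat.mul_le_mul_left _ (by omega)
      _ = (d + 1) * (d + 1).choose (i + 2) := Nat.mul_comm _ _
  · calc (d + 1).choose (i + 2) = (d + 1).choose (i + 2) * 1 := (Nat.mul_one _).symm
      _ ≤ (d + 1).choose (i + 2) * (i + 2) := Nat.mul_le_mul_left _ (by omega)
      _ = (d + 1).choose (i + 1) * (d - i) := h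
      _ ≤ (d + 1).choose (i + 1) * (d + 1) := Nat.mul_le_mul_left _ (by omega)
      _ = (d + 1) * (d + 1).choose (i + 1) := Nat.mul_comm _ _

/-- Counting form of the expansion inequality of a bounded-degree complex. -/
lemma count_of_expand {X : Finset (Finset V)} {d D i : ℕ} {ε : ℝ} (hP : IsPureComplex X d)
    (hD : ∀ v, updeg X d {v} ≤ D) (hε : 0 < ε) (hi : i < d) (f g : Finset V → ZMod 2)
    (h : ε * norm X d i f ≤ norm X d (i + 1) g) :
    ε * ((supp X i f).card : ℝ) ≤ (D : ℝ) * (d + 1) * ((supp X (i + 1) g).card : ℝ) := by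
  have hn : (0 : ℝ) < (faces X d).card := by exact_mod_cast card_faces_pos hP
  have hC0 : (0 : ℝ) < (d + 1).choose (i + 1) := by
    exact_mod_cast Nat.choose_pos (by omega : i + 1 ≤ d + 1)
  have hC1 : (0 : ℝ) < (d + 1).choose (i + 1 + 1) := by
    exact_mod_cast Nat.choose_pos (by omega : i + 1 + 1 ≤ d + 1)
  have h1 := card_supp_le hP (by omega : i ≤ d) f
  have h2 := Cn_norm_le hP hD (by omega : i + 1 ≤ d) g
  have h3 : ((d + 1).choose (i + 1) : ℝ) ≤ (d + 1) * (d + 1).choose (i + 1 + 1) := by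
    exact_mod_cast (choose_cmp d i hi).1
  have hN0 := norm_nonneg X d i f
  have hN1 := norm_nonneg X d (i + 1) g
  set C0 : ℝ := ((d + 1).choose (i + 1) : ℝ)
  set C1 : ℝ := ((d + 1).choose (i + 1 + 1) : ℝ)
  set n : ℝ := ((faces X d).card : ℝ)
  set N0 := norm X d i f
  set N1 := norm X d (i + 1) g
  set S0 : ℝ := ((supp X i f).card : ℝ)
  set S1 : ℝ := ((supp X (i + 1) g).card : ℝ)
  have hd1 : (0 : ℝ) < (d : ℝ) + 1 := by positivity
  calc ε * S0 ≤ ε * (C0 * n * N0) := by gcongr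
    _ = C0 * n * (ε * N0) := by ring
    _ ≤ C0 * n * N1 := by gcongr
    _ ≤ ((d + 1) * C1) * n * N1 := by gcongr
    _ = (d + 1) * (C1 * n * N1) := by ring
    _ ≤ (d + 1) * (D * S1) := by gcongr
    _ = D * (d + 1) * S1 := by ring

/-- Counting form of the systole bound. -/
lemma count_of_systole {X : Finset (Finset V)} {d D i : ℕ} {ε : ℝ}
    (hP : IsPureComplex X d) (hD : ∀ v, updeg X d {v} ≤ D) (hε : 0 < ε) (hi : i ≤ d)
    (z : Finset V → ZMod 2) (h : ε ≤ norm X d i z) :
    ε * ((faces X d).card : ℝ) ≤ (D : ℝ) * ((supp X i z).card : ℝ) := by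
  have hn : (0 : ℝ) < (faces X d).card := by exact_mod_cast card_faces_pos hP
  have hC0 : (1 : ℝ) ≤ (d + 1).choose (i + 1) := by
    exact_mod_cast Nat.choose_pos (by omega : i + 1 ≤ d + 1)
  have h2 := Cn_norm_le hP hD hi z
  have hN := norm_nonneg X d i z
  calc ε * ((faces X d).card : ℝ) ≤ norm X d i z * ((faces X d).card : ℝ) := by gcongr
    _ = 1 * ((faces X d).card : ℝ) * norm X d i z := by ring
    _ ≤ ((d + 1).choose (i + 1) : ℝ) * ((faces X d).card : ℝ) * norm X d i z := by gcongr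
    _ ≤ (D : ℝ) * ((supp X i z).card : ℝ) := h2

/-- From a counting inequality back to the weighted expansion inequality. -/
lemma expand_of_count {X : Finset (Finset V)} {d D i : ℕ} (hP : IsPureComplex X d)
    (hD : ∀ v, updeg X d {v} ≤ D) (hi : i < d) (f g : Finset V → ZMod 2) (K : ℝ)
    (hK : 0 < K)
    (h : ((supp X i f).card : ℝ) ≤ K * ((supp X (i + 1) g).card : ℝ)) :
    (1 / ((D : ℝ) * K * (d + 1))) * norm X d i f ≤ norm X d (i + 1) g := by
  have hn : (0 : ℝ) < (faces X d).card := by exact_mod_cast card_faces_pos hP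
  have hC0 : (0 : ℝ) < (d + 1).choose (i + 1) := by
    exact_mod_cast Nat.choose_pos (by omega : i + 1 ≤ d + 1)
  have hC1 : (0 : ℝ) < (d + 1).choose (i + 1 + 1) := by
    exact_mod_cast Nat.choose_pos (by omega : i + 1 + 1 ≤ d + 1)
  have hD1 : (1 : ℝ) ≤ D := by exact_mod_cast one_le_deg hP hD
  have h1 := Cn_norm_le hP hD (by omega : i ≤ d) f
  have h2 := card_supp_le hP (by omega : i + 1 ≤ d) g
  have h3 : ((d + 1).choose (i + 1 + 1) : ℝ) ≤ (d + 1) * (d + 1).choose (i + 1) := by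
    exact_mod_cast (choose_cmp d i hi).2
  have hN0 := norm_nonneg X d i f
  have hN1 := norm_nonneg X d (i + 1) g
  set C0 : ℝ := ((d + 1).choose (i + 1) : ℝ)
  set C1 : ℝ := ((d + 1).choose (i + 1 + 1) : ℝ)
  set n : ℝ := ((faces X d).card : ℝ)
  set N0 := norm X d i f
  set N1 := norm X d (i + 1) g
  set S0 : ℝ := ((supp X i f).card : ℝ)
  set S1 : ℝ := ((supp X (i + 1) g).card : ℝ)
  have hd1 : (0 : ℝ) < (d : ℝ) + 1 := by positivity
  have hDpos : (0 : ℝ) < D := by linarith
  have key : C0 * n * N0 ≤ C0 * n * ((D : ℝ) * K * (d + 1) * N1) := by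
    calc C0 * n * N0 ≤ D * S0 := h1
      _ ≤ D * (K * S1) := by gcongr
      _ ≤ D * (K * (C1 * n * N1)) := by gcongr
      _ ≤ D * (K * (((d + 1) * C0) * n * N1)) := by gcongr
      _ = C0 * n * ((D : ℝ) * K * (d + 1) * N1) := by ring
  have key2 : N0 ≤ (D : ℝ) * K * (d + 1) * N1 :=
    le_of_mul_le_mul_left key (by positivity)
  rw [one_div, inv_mul_le_iff₀ (by positivity)]
  exact key2



omit [DecidableEq V] in
lemma card_le_of_pure {X : Finset (Finset V)} {d : ℕ} (hP : IsPureComplex X d) {s : Finset V}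
    (hs : s ∈ X) : s.card ≤ d + 1 := by
  obtain ⟨t, ht, hst⟩ := hP.2.2 s hs
  rw [← (mem_faces.mp ht).2]
  exact card_le_card hst

/-- The number of faces through a vertex of a pure complex of bounded degree. -/
lemma card_star_le {X : Finset (Finset V)} {d D : ℕ} (hP : IsPureComplex X d)
    (hD : ∀ v, updeg X d {v} ≤ D) (y : V) :
    (X.filter (fun s => y ∈ s)).card ≤ D * 2 ^ (d + 1) := by
  have h1 := card_le_mul_of_cover (S := X.filter (fun s => y ∈ s))
    (S' := (faces X d).filter (fun t => {y} ⊆ t)) (fun t => t.powerset) (2 ^ (d + 1)) ?_ ?_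
  · calc (X.filter (fun s => y ∈ s)).card
        ≤ 2 ^ (d + 1) * ((faces X d).filter (fun t => {y} ⊆ t)).card := h1
      _ ≤ 2 ^ (d + 1) * D := Nat.mul_le_mul_left _ (hD y)
      _ = D * 2 ^ (d + 1) := Nat.mul_comm _ _
  · intro t ht
    rw [card_powerset, (mem_faces.mp (mem_filter.mp ht).1).2]
  · intro s hs
    rw [mem_filter] at hs
    obtain ⟨t, ht, hst⟩ := hP.2.2 s hs.1
    exact ⟨t, mem_filter.mpr ⟨ht, singleton_subset_iff.mpr (hst hs.2)⟩, mem_powerset.mpr hst⟩

lemma card_faces_le {X : Finset (Finset V)} {d : ℕ} (hP : IsPureComplex X d) (i : ℕ) :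
    (faces X i).card ≤ 2 ^ (d + 1) * (faces X d).card := by
  refine card_le_mul_of_cover (fun t => t.powerset) (2 ^ (d + 1)) ?_ ?_
  · intro t ht
    rw [card_powerset, (mem_faces.mp ht).2]
  · intro s hs
    obtain ⟨t, ht, hst⟩ := hP.2.2 s (mem_faces.mp hs).1
    exact ⟨t, ht, mem_powerset.mpr hst⟩

end Vale.Agent.Lib.P067
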