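import Mathlib

namespace Vale.Agent.Lib.P067

variable {V : Type*} [DecidableEq V]

/-- The `i`-faces of a family `X` of finite sets: the members with `i + 1` elements. -/
def faces (X : Finset (Finset V)) (i : ℕ) : Finset (Finset V) :=
  X.filter (fun s => s.card = i + 1)

/-- `X` is a finite pure `d`-dimensional simplicial complex: a nonempty finite family of
nonempty finite sets (the faces), closed under nonempty subsets, in which every face lies in
a face with `d + 1` vertices. -/
def IsPureComplex (X : Finset (Finset V)) (d : ℕ) : Prop :=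
  X.Nonempty ∧ (∀ s ∈ X, s.Nonempty ∧ ∀ t, t ⊆ s → t.Nonempty → t ∈ X) ∧
    ∀ s ∈ X, ∃ t ∈ faces X d, s ⊆ t

/-- The number of `d`-faces of `X` containing the set `s`. -/
def updeg (X : Finset (Finset V)) (d : ℕ) (s : Finset V) : ℕ :=
  ((faces X d).filter (fun t => s ⊆ t)).card

/-- The weight `w_i(s)` of an `i`-face `s` in a `d`-dimensional complex. -/
noncomputable def weight (X : Finset (Finset V)) (d i : ℕ) (s : Finset V) : ℝ :=
  (updeg X d s : ℝ) / (((d + 1).choose (i + 1) : ℝ) * ((faces X d).card : ℝ))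

/-- The norm of an `i`-cochain `f` (only the values of `f` on `i`-faces matter). -/
noncomputable def norm (X : Finset (Finset V)) (d i : ℕ) (f : Finset V → ZMod 2) : ℝ :=
  ∑ s ∈ (faces X i).filter (fun s => f s ≠ 0), weight X d i s

/-- The coboundary of an `i`-cochain `f`, evaluated at `t`. -/
def cobdry (X : Finset (Finset V)) (i : ℕ) (f : Finset V → ZMod 2) (t : Finset V) : ZMod 2 :=
  ∑ s ∈ (faces X i).filter (fun s => s ⊆ t), f s

/-- `g` agrees on the `i`-faces with an element of `B^i`: a constant if `i = 0`, the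
coboundary of an `(i - 1)`-cochain otherwise. -/
def IsCobdry (X : Finset (Finset V)) : ℕ → (Finset V → ZMod 2) → Prop
  | 0, g => ∃ c : ZMod 2, ∀ s ∈ faces X 0, g s = c
  | (i + 1), g => ∃ h : Finset V → ZMod 2, ∀ s ∈ faces X (i + 1), g s = cobdry X i h s

/-- `X` (of dimension `d`) is an `ε`-coboundary expander. -/
def IsCobExp (X : Finset (Finset V)) (d : ℕ) (ε : ℝ) : Prop :=
  ∀ i, i < d → ∀ f : Finset V → ZMod 2,
    ∃ g, IsCobdry X i g ∧ ε * norm X d i (f - g) ≤ norm X d (i + 1) (cobdry X i f)

/-- The `1`-skeleton of `X` as a simple graph on the vertices of `X`. -/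
def graph (X : Finset (Finset V)) : SimpleGraph {v : V // {v} ∈ X} where
  Adj u v := u ≠ v ∧ {u.1, v.1} ∈ X
  symm := ⟨fun u v h => ⟨h.1.symm, by rw [Finset.pair_comm]; exact h.2⟩⟩
  loopless := ⟨fun u h => h.1 rfl⟩

/-- The statement of the question for dimension `d`: there are `D` and `ε > 0` and finite
connected pure `d`-dimensional complexes with arbitrarily many vertices, each of degree at
most `D` and each an `ε`-coboundary expander. -/
def Good (d : ℕ) : Prop :=
  ∃ D : ℕ, ∃ ε : ℝ, 0 < ε ∧ ∀ N : ℕ, ∃ X : Finset (Finset ℕ),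
    IsPureComplex X d ∧ (graph X).Connected ∧ N ≤ (faces X 0).card ∧
      (∀ v : ℕ, updeg X d {v} ≤ D) ∧ IsCobExp X d ε

/-- The `d`-skeleton: the faces with at most `d + 1` vertices. -/
def skel (X : Finset (Finset V)) (d : ℕ) : Finset (Finset V) :=
  X.filter (fun s => s.card ≤ d + 1)

end Vale.Agent.Lib.P067
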