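import Vale.Agent.Lib.P067.TopBetti

/-!
The Euler characteristic of a bounded-degree coboundary expander.

For a pure `d`-dimensional `ε`-coboundary expander `X` of degree at most `D`, the cochain
complex over the field with two elements is exact in the degrees `1, ..., d - 1` and has
the constants as its cocycles in degree `0`. So the dimension of the top cohomology is the
alternating sum `f_d - f_{d-1} + ... ± (f_0 - 1)` of the face numbers, and `top_indep`
bounds it from below by a linear function of the number of vertices.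
-/

namespace Vale.Agent.Lib.P067

open Finset

section euler

variable {V : Type*} [DecidableEq V]

/-- Extension by zero of a cochain given on the `i`-faces. -/
def extZ (X : Finset (Finset V)) (i : ℕ) (f : ↥(faces X i) → ZMod 2) : Finset V → ZMod 2 :=
  fun s => if h : s ∈ faces X i then f ⟨s, h⟩ else 0

/-- Restriction of a cochain to the `i`-faces. -/
def resZ (X : Finset (Finset V)) (i : ℕ) (F : Finset V → ZMod 2) : ↥(faces X i) → ZMod 2 :=
  fun s => F s.1

lemma extZ_of_mem {X : Finset (Finset V)} {i : ℕ} (f : ↥(faces X i) → ZMod 2)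
    {s : Finset V} (hs : s ∈ faces X i) : extZ X i f s = f ⟨s, hs⟩ := dif_pos hs

lemma cobdry_congr {X : Finset (Finset V)} {i : ℕ} {f g : Finset V → ZMod 2}
    (h : ∀ s ∈ faces X i, f s = g s) (t : Finset V) : cobdry X i f t = cobdry X i g t := by
  unfold cobdry
  exact sum_congr rfl (fun s hs => h s (mem_filter.mp hs).1)

lemma extZ_resZ {X : Finset (Finset V)} {i : ℕ} (F : Finset V → ZMod 2) :
    ∀ s ∈ faces X i, extZ X i (resZ X i F) s = F s := by
  intro s hs
  rw [extZ_of_mem _ hs]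
  rfl

/-- The coboundary as a linear map between the cochain spaces. -/
def dmap (X : Finset (Finset V)) (i : ℕ) :
    (↥(faces X i) → ZMod 2) →ₗ[ZMod 2] (↥(faces X (i + 1)) → ZMod 2) where
  toFun f := fun t => cobdry X i (extZ X i f) t.1
  map_add' f g := by
    funext t
    simp only [Pi.add_apply]
    rw [← cobdry_add]
    apply cobdry_congr
    intro s hs
    simp only [Pi.add_apply]
    rw [extZ_of_mem _ hs, extZ_of_mem _ hs, extZ_of_mem _ hs]
    rfl
  map_smul' c f := by
    funext t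
    simp only [Pi.smul_apply, smul_eq_mul, RingHom.id_apply]
    unfold cobdry
    rw [mul_sum]
    apply sum_congr rfl
    intro s hs
    have hs' := (mem_filter.mp hs).1
    rw [extZ_of_mem _ hs', extZ_of_mem _ hs']
    rfl

lemma dmap_apply (X : Finset (Finset V)) (i : ℕ) (f : ↥(faces X i) → ZMod 2)
    (t : ↥(faces X (i + 1))) : dmap X i f t = cobdry X i (extZ X i f) t.1 := rfl

lemma dmap_resZ (X : Finset (Finset V)) (i : ℕ) (F : Finset V → ZMod 2)
    (t : ↥(faces X (i + 1))) : dmap X i (resZ X i F) t = cobdry X i F t.1 := by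
  rw [dmap_apply]
  exact cobdry_congr (extZ_resZ F) t.1

lemma dmap_dmap {X : Finset (Finset V)}
    (hX : ∀ s ∈ X, s.Nonempty ∧ ∀ t, t ⊆ s → t.Nonempty → t ∈ X) (i : ℕ)
    (g : ↥(faces X i) → ZMod 2) : dmap X (i + 1) (dmap X i g) = 0 := by
  funext t
  rw [dmap_apply]
  have h1 : ∀ s ∈ faces X (i + 1),
      extZ X (i + 1) (dmap X i g) s = cobdry X i (extZ X i g) s := by
    intro s hs
    rw [extZ_of_mem _ hs]
    rfl
  rw [cobdry_congr h1 t.1]
  exact cobdry_cobdry hX i _ t.1 t.2

lemma ker_eq_range {X : Finset (Finset V)} {d : ℕ} {ε : ℝ} (hP : IsPureComplex X d)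
    (hε : 0 < ε) (hE : IsCobExp X d ε) {i : ℕ} (hi : i + 1 < d) :
    LinearMap.ker (dmap X (i + 1)) = LinearMap.range (dmap X i) := by
  apply le_antisymm
  · intro f hf
    rw [LinearMap.mem_ker] at hf
    have hcy : IsCocycle X (i + 1) (extZ X (i + 1) f) := by
      intro t ht
      exact congrFun hf ⟨t, ht⟩
    obtain ⟨h, hh⟩ := isCobdry_of_isCocycle hP hε hE hi hcy
    rw [LinearMap.mem_range]
    refine ⟨resZ X i h, ?_⟩
    funext s
    rw [dmap_resZ, ← hh s.1 s.2, extZ_of_mem _ s.2]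
  · rintro f ⟨g, rfl⟩
    rw [LinearMap.mem_ker]
    exact dmap_dmap hP.2.1 i g

lemma ker_zero_eq {X : Finset (Finset V)} {d : ℕ} {ε : ℝ} (hP : IsPureComplex X d)
    (hε : 0 < ε) (hE : IsCobExp X d ε) (hd : 0 < d) :
    LinearMap.ker (dmap X 0)
      = Submodule.span (ZMod 2) {(fun _ => 1 : ↥(faces X 0) → ZMod 2)} := by
  apply le_antisymm
  · intro f hf
    rw [LinearMap.mem_ker] at hf
    have hcy : IsCocycle X 0 (extZ X 0 f) := by
      intro t ht
      exact congrFun hf ⟨t, ht⟩
    obtain ⟨c, hc⟩ := isCobdry_of_isCocycle hP hε hE hd hcy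
    rw [Submodule.mem_span_singleton]
    refine ⟨c, ?_⟩
    funext s
    simp only [Pi.smul_apply, smul_eq_mul, mul_one]
    rw [← hc s.1 s.2, extZ_of_mem _ s.2]
  · rw [Submodule.span_singleton_le_iff_mem, LinearMap.mem_ker]
    funext t
    rw [dmap_apply]
    have h1 : ∀ s ∈ faces X 0,
        extZ X 0 (fun _ => 1) s = (fun _ => (1 : ZMod 2)) s := by
      intro s hs
      rw [extZ_of_mem _ hs]
    rw [cobdry_congr h1 t.1]
    exact isCocycle_of_isCobdry hP.2.1 (i := 0) ⟨1, fun _ _ => rfl⟩ t.1 t.2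

omit [DecidableEq V] in
lemma finrank_cochains (X : Finset (Finset V)) (i : ℕ) :
    Module.finrank (ZMod 2) (↥(faces X i) → ZMod 2) = (faces X i).card := by
  rw [Module.finrank_fintype_fun_eq_card, Fintype.card_coe]

/-- The rank of the coboundary map on `i`-cochains. -/
noncomputable def rk (X : Finset (Finset V)) (i : ℕ) : ℕ :=
  Module.finrank (ZMod 2) (LinearMap.range (dmap X i))

lemma rk_add_ker (X : Finset (Finset V)) (i : ℕ) :
    rk X i + Module.finrank (ZMod 2) (LinearMap.ker (dmap X i)) = (faces X i).card := by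
  unfold rk
  rw [LinearMap.finrank_range_add_finrank_ker, finrank_cochains]

lemma rk_zero {X : Finset (Finset V)} {d : ℕ} {ε : ℝ} (hP : IsPureComplex X d)
    (hε : 0 < ε) (hE : IsCobExp X d ε) (hd : 0 < d) :
    rk X 0 + 1 = (faces X 0).card := by
  have h := rk_add_ker X 0
  rw [ker_zero_eq hP hε hE hd] at h
  have hne : (fun _ => 1 : ↥(faces X 0) → ZMod 2) ≠ 0 := by
    obtain ⟨s, hs⟩ := hP.1
    obtain ⟨v, hv⟩ := (hP.2.1 s hs).1
    have hv1 : ({v} : Finset V) ∈ faces X 0 := by
      rw [mem_faces]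
      exact ⟨(hP.2.1 s hs).2 _ (singleton_subset_iff.mpr hv) (singleton_nonempty v),
        card_singleton v⟩
    intro h0
    have := congrFun h0 ⟨{v}, hv1⟩
    exact one_ne_zero this
  rw [finrank_span_singleton hne] at h
  exact h

lemma rk_succ {X : Finset (Finset V)} {d : ℕ} {ε : ℝ} (hP : IsPureComplex X d)
    (hε : 0 < ε) (hE : IsCobExp X d ε) {i : ℕ} (hi : i + 1 < d) :
    rk X (i + 1) + rk X i = (faces X (i + 1)).card := by
  have h := rk_add_ker X (i + 1)
  rw [ker_eq_range hP hε hE hi] at h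
  exact h

lemma zmod_two_eq_one {x : ZMod 2} (h : x ≠ 0) : x = 1 := by
  revert h
  revert x
  decide

/-- A family of top faces that is independent modulo coboundaries is no larger than the
codimension of the space of coboundaries. -/
lemma card_add_rk_le {X : Finset (Finset V)} {e : ℕ} (T : Finset (Finset V))
    (hT : T ⊆ faces X (e + 1))
    (hind : ∀ S : Finset (Finset V), S ⊆ T → S.Nonempty → ¬ IsCobdry X (e + 1) (indS S)) :
    T.card + rk X e ≤ (faces X (e + 1)).card := by
  classical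
  set B := LinearMap.range (dmap X e) with hB
  have hli : LinearIndependent (ZMod 2) (fun t : ↥T =>
      B.mkQ (Pi.single (⟨t.1, hT t.2⟩ : ↥(faces X (e + 1))) (1 : ZMod 2))) := by
    rw [Fintype.linearIndependent_iff]
    intro g hg
    by_contra hne
    obtain ⟨t0, ht0⟩ := not_forall.mp hne
    have hmem : (∑ t : ↥T, g t •
        (Pi.single (⟨t.1, hT t.2⟩ : ↥(faces X (e + 1))) (1 : ZMod 2))) ∈ B := by
      rw [← Submodule.Quotient.mk_eq_zero, ← Submodule.mkQ_apply, map_sum]
      simp only [map_smul]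
      exact hg
    rw [hB, LinearMap.mem_range] at hmem
    obtain ⟨h, hh⟩ := hmem
    set S := (univ.filter (fun t : ↥T => g t ≠ 0)).image (fun t => t.1) with hS
    have hSsub : S ⊆ T := by
      intro s hs
      rw [hS, mem_image] at hs
      obtain ⟨t, _, rfl⟩ := hs
      exact t.2
    have hSne : S.Nonempty :=
      ⟨t0.1, mem_image.mpr ⟨t0, mem_filter.mpr ⟨mem_univ _, ht0⟩, rfl⟩⟩
    apply hind S hSsub hSne
    refine ⟨extZ X e h, ?_⟩
    intro s hs
    have h1 : cobdry X e (extZ X e h) s = (∑ t : ↥T, g t •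
        (Pi.single (⟨t.1, hT t.2⟩ : ↥(faces X (e + 1))) (1 : ZMod 2))) ⟨s, hs⟩ := by
      rw [← hh]
      rfl
    rw [h1, Finset.sum_apply]
    unfold indS
    by_cases hsT : s ∈ T
    · rw [sum_eq_single (⟨s, hsT⟩ : ↥T)]
      · simp only [Pi.smul_apply, Pi.single_eq_same, smul_eq_mul, mul_one]
        by_cases hg0 : g ⟨s, hsT⟩ = 0
        · rw [hg0, if_neg]
          intro hsS
          rw [hS, mem_image] at hsS
          obtain ⟨t, ht, hts⟩ := hsS
          have : t = ⟨s, hsT⟩ := Subtype.ext hts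
          rw [this, mem_filter] at ht
          exact ht.2 hg0
        · rw [zmod_two_eq_one hg0, if_pos]
          rw [hS, mem_image]
          exact ⟨⟨s, hsT⟩, mem_filter.mpr ⟨mem_univ _, hg0⟩, rfl⟩
      · intro t _ hne
        have hne' : (⟨s, hs⟩ : ↥(faces X (e + 1))) ≠ ⟨t.1, hT t.2⟩ := by
          intro heq
          apply hne
          apply Subtype.ext
          exact (congrArg Subtype.val heq).symm
        simp only [Pi.smul_apply, smul_eq_mul]
        rw [Pi.single_eq_of_ne hne', mul_zero]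
      · intro hnm
        exact absurd (mem_univ _) hnm
    · rw [if_neg (fun hsS => hsT (hSsub hsS))]
      symm
      apply sum_eq_zero
      intro t _
      have hne' : (⟨s, hs⟩ : ↥(faces X (e + 1))) ≠ ⟨t.1, hT t.2⟩ := by
        intro heq
        apply hsT
        have := congrArg Subtype.val heq
        simp only at this
        rw [this]
        exact t.2
      simp only [Pi.smul_apply, smul_eq_mul]
      rw [Pi.single_eq_of_ne hne', mul_zero]
  have h1 := hli.fintype_card_le_finrank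
  have h2 := Submodule.finrank_quotient_add_finrank B
  rw [finrank_cochains] at h2
  rw [Fintype.card_coe] at h1
  have h3 : rk X e = Module.finrank (ZMod 2) B := rfl
  omega

/-- The alternating sums of the face numbers, from the bottom. -/
def altF (X : Finset (Finset V)) : ℕ → ℤ
  | 0 => ((faces X 0).card : ℤ) - 1
  | (j + 1) => ((faces X (j + 1)).card : ℤ) - altF X j

omit [DecidableEq V] in
lemma altF_eq (X : Finset (Finset V)) (j : ℕ) :
    altF X j = (-1) ^ j * (∑ i ∈ range (j + 1), (-1) ^ i * ((faces X i).card : ℤ) - 1) := by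
  induction j with
  | zero => simp [altF]
  | succ n ih =>
    rw [sum_range_succ]
    have h1 : altF X (n + 1) = ((faces X (n + 1)).card : ℤ) - altF X n := rfl
    rw [h1, ih]
    have h2 : ((-1 : ℤ) ^ (n + 1)) * ((-1 : ℤ) ^ (n + 1)) = 1 := by
      rw [← mul_pow]
      norm_num
    have h3 : ((-1 : ℤ) ^ (n + 1)) = -((-1 : ℤ) ^ n) := by
      rw [pow_succ]
      ring
    calc ((faces X (n + 1)).card : ℤ)
          - (-1) ^ n * (∑ i ∈ range (n + 1), (-1) ^ i * ((faces X i).card : ℤ) - 1)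
        = ((-1 : ℤ) ^ (n + 1) * (-1 : ℤ) ^ (n + 1)) * ((faces X (n + 1)).card : ℤ)
          + (-1) ^ (n + 1) * (∑ i ∈ range (n + 1), (-1) ^ i * ((faces X i).card : ℤ) - 1) := by
          rw [h2, h3]
          ring
      _ = (-1) ^ (n + 1) * (∑ i ∈ range (n + 1), (-1) ^ i * ((faces X i).card : ℤ)
          + (-1) ^ (n + 1) * ((faces X (n + 1)).card : ℤ) - 1) := by ring

lemma rk_eq_altF {X : Finset (Finset V)} {d : ℕ} {ε : ℝ} (hP : IsPureComplex X d)
    (hε : 0 < ε) (hE : IsCobExp X d ε) :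
    ∀ j, j < d → (rk X j : ℤ) = altF X j := by
  intro j
  induction j with
  | zero =>
    intro hd
    have h := rk_zero hP hε hE hd
    have h1 : altF X 0 = ((faces X 0).card : ℤ) - 1 := rfl
    rw [h1]
    omega
  | succ n ih =>
    intro hn
    have h := rk_succ hP hε hE hn
    have h0 := ih (by omega)
    have h1 : altF X (n + 1) = ((faces X (n + 1)).card : ℤ) - altF X n := rfl
    rw [h1, ← h0]
    omega

/-- The face numbers of a bounded-degree coboundary expander: the alternating sum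
`f_d - f_{d-1} + ... ± (f_0 - 1)` is at least a fixed fraction of the number of vertices,
up to an additive constant. -/
theorem euler_linear {X : Finset (Finset V)} {d D : ℕ} {ε : ℝ} (hd : 1 ≤ d)
    (hP : IsPureComplex X d) (hD : ∀ v, updeg X d {v} ≤ D) (hε : 0 < ε)
    (hE : IsCobExp X d ε) :
    ((faces X 0).card : ℤ) ≤ ((1 + D * 2 ^ (d + 1) * rr d D ε d : ℕ) : ℤ)
      + ((((d + 1) * (1 + D * 2 ^ (d + 1) * rr d D ε d))
          * (((1 + D * (d + 1)) ^ ⌈(D : ℝ) * ((d : ℝ) + 1) / ε⌉₊ * (d + 1))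
            * (D * (1 + D * (d + 1)) ^ ⌈(D : ℝ) * ((d : ℝ) + 1) / ε⌉₊)) : ℕ) : ℤ)
        * ((-1) ^ d * (∑ i ∈ range (d + 1), (-1) ^ i * ((faces X i).card : ℤ) - 1)) := by
  obtain ⟨T, hT, hind, hcard⟩ := top_indep hd hP hD hε hE
  obtain ⟨e, rfl⟩ : ∃ e, d = e + 1 := ⟨d - 1, by omega⟩
  have h1 := card_add_rk_le T hT hind
  have h2 := rk_eq_altF hP hε hE e (by omega)
  have h3 : altF X (e + 1) = ((faces X (e + 1)).card : ℤ) - altF X e := rfl
  have h4 : (T.card : ℤ) ≤ altF X (e + 1) := by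
    rw [h3, ← h2]
    omega
  rw [← altF_eq]
  have h5 : ((faces X 0).card : ℤ) ≤ ((1 + D * 2 ^ (e + 1 + 1) * rr (e + 1) D ε (e + 1) : ℕ) : ℤ)
      + ((((e + 1 + 1) * (1 + D * 2 ^ (e + 1 + 1) * rr (e + 1) D ε (e + 1)))
          * (((1 + D * (e + 1 + 1)) ^ ⌈(D : ℝ) * (((e + 1 : ℕ) : ℝ) + 1) / ε⌉₊ * (e + 1 + 1))
            * (D * (1 + D * (e + 1 + 1)) ^ ⌈(D : ℝ) * (((e + 1 : ℕ) : ℝ) + 1) / ε⌉₊)) : ℕ) : ℤ)
        * (T.card : ℤ) := by
    exact_mod_cast hcard
  refine h5.trans ?_
  have h6 := mul_le_mul_of_nonneg_left h4 (Int.natCast_nonneg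
    (((e + 1 + 1) * (1 + D * 2 ^ (e + 1 + 1) * rr (e + 1) D ε (e + 1)))
      * (((1 + D * (e + 1 + 1)) ^ ⌈(D : ℝ) * (((e + 1 : ℕ) : ℝ) + 1) / ε⌉₊ * (e + 1 + 1))
        * (D * (1 + D * (e + 1 + 1)) ^ ⌈(D : ℝ) * (((e + 1 : ℕ) : ℝ) + 1) / ε⌉₊))))
  linarith

end euler

end Vale.Agent.Lib.P067
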