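import Vale.Agent.Lib.P067.Count

namespace Vale.Agent.Lib.P067

open Finset

/-- The part of `A` at level `k + 1`. -/
def topP (ℓ : ℕ → ℕ) (k : ℕ) (A : Finset ℕ) : Finset ℕ := A.filter (fun v => ℓ v = k + 1)

/-- The part of `A` at level `k`. -/
def botP (ℓ : ℕ → ℕ) (k : ℕ) (A : Finset ℕ) : Finset ℕ := A.filter (fun v => ℓ v = k)

/-- The faces of the `k`-th cylinder (truncated at dimension `d`): sets `σ ∪ τ` with `σ` empty
or a face of `X (k + 1)`, and `π σ ∪ τ` a face of `X k`. -/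
def Cyl (X : ℕ → Finset (Finset ℕ)) (π ℓ : ℕ → ℕ) (d k : ℕ) (A : Finset ℕ) : Prop :=
  A.card ≤ d + 1 ∧ (∀ v ∈ A, ℓ v = k ∨ ℓ v = k + 1) ∧
    (topP ℓ k A = ∅ ∨ topP ℓ k A ∈ X (k + 1)) ∧ (topP ℓ k A).image π ∪ botP ℓ k A ∈ X k

/-- All vertices of the levels `0, ..., m`. -/
def allVerts (X : ℕ → Finset (Finset ℕ)) (m : ℕ) : Finset ℕ :=
  (range (m + 1)).biUnion (fun j => (X j).biUnion id)

open Classical in
/-- The telescope of the tower, truncated at dimension `d`. -/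
noncomputable def tel (X : ℕ → Finset (Finset ℕ)) (π ℓ : ℕ → ℕ) (m d : ℕ) :
    Finset (Finset ℕ) :=
  (allVerts X m).powerset.filter (fun A => ∃ k, k < m ∧ Cyl X π ℓ d k A)

section tower

variable {d D c : ℕ} {ε : ℝ} {m : ℕ} {X : ℕ → Finset (Finset ℕ)} {π ℓ : ℕ → ℕ}

lemma tw_pure (hT : IsTower d D c ε m X π ℓ) {k : ℕ} (hk : k ≤ m) : IsPureComplex (X k) d :=
  (hT.2.1 k hk).1

lemma tw_deg (hT : IsTower d D c ε m X π ℓ) {k : ℕ} (hk : k ≤ m) :
    ∀ v : ℕ, updeg (X k) d {v} ≤ D := (hT.2.1 k hk).2.1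

lemma tw_cosys (hT : IsTower d D c ε m X π ℓ) {k : ℕ} (hk : k ≤ m) : IsCosysExp (X k) d ε :=
  (hT.2.1 k hk).2.2

lemma tw_level (hT : IsTower d D c ε m X π ℓ) {k : ℕ} (hk : k ≤ m) {s : Finset ℕ}
    (hs : s ∈ X k) {v : ℕ} (hv : v ∈ s) : ℓ v = k := hT.2.2.1 k hk s hs v hv

lemma tw_simp (hT : IsTower d D c ε m X π ℓ) {k : ℕ} (hk : k < m) {s : Finset ℕ}
    (hs : s ∈ X (k + 1)) : s.image π ∈ X k := hT.2.2.2.1 k hk s hs

lemma tw_cx (hT : IsTower d D c ε m X π ℓ) {k : ℕ} (hk : k ≤ m) :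
    ∀ s ∈ X k, s.Nonempty ∧ ∀ t, t ⊆ s → t.Nonempty → t ∈ X k := (tw_pure hT hk).2.1

lemma topP_union_botP {k : ℕ} {A : Finset ℕ} (h : ∀ v ∈ A, ℓ v = k ∨ ℓ v = k + 1) :
    topP ℓ k A ∪ botP ℓ k A = A := by
  ext x
  simp only [topP, botP, mem_union, mem_filter]
  constructor
  · rintro (h1 | h1) <;> exact h1.1
  · intro hx
    rcases h x hx with h1 | h1
    · exact Or.inr ⟨hx, h1⟩
    · exact Or.inl ⟨hx, h1⟩

lemma Cyl.nonempty (hT : IsTower d D c ε m X π ℓ) {k : ℕ} (hk : k ≤ m) {A : Finset ℕ}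
    (h : Cyl X π ℓ d k A) : A.Nonempty := by
  obtain ⟨x, hx⟩ := (tw_cx hT hk _ h.2.2.2).1
  rw [mem_union] at hx
  rcases hx with hx | hx
  · obtain ⟨y, hy, -⟩ := mem_image.mp hx
    exact ⟨y, (mem_filter.mp hy).1⟩
  · exact ⟨x, (mem_filter.mp hx).1⟩

lemma Cyl.sub (hT : IsTower d D c ε m X π ℓ) {k : ℕ} (hk : k < m) {A B : Finset ℕ}
    (h : Cyl X π ℓ d k A) (hB : B ⊆ A) (hBn : B.Nonempty) : Cyl X π ℓ d k B := by
  have htop : topP ℓ k B ⊆ topP ℓ k A := filter_subset_filter _ hB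
  have hbot : botP ℓ k B ⊆ botP ℓ k A := filter_subset_filter _ hB
  refine ⟨(card_le_card hB).trans h.1, fun v hv => h.2.1 v (hB hv), ?_, ?_⟩
  · by_cases he : topP ℓ k B = ∅
    · exact Or.inl he
    · right
      have hne : (topP ℓ k B).Nonempty := nonempty_iff_ne_empty.mpr he
      rcases h.2.2.1 with h1 | h1
      · rw [h1] at htop
        exact absurd (subset_empty.mp htop) he
      · exact (tw_cx hT (by omega : k + 1 ≤ m) _ h1).2 _ htop hne
  · refine (tw_cx hT hk.le _ h.2.2.2).2 _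
      (union_subset_union (image_subset_image htop) hbot) ?_
    obtain ⟨x, hx⟩ := hBn
    rcases h.2.1 x (hB hx) with h1 | h1
    · exact ⟨x, mem_union_right _ (mem_filter.mpr ⟨hx, h1⟩)⟩
    · exact ⟨π x, mem_union_left _ (mem_image_of_mem π (mem_filter.mpr ⟨hx, h1⟩))⟩

lemma cyl_of_bot (hT : IsTower d D c ε m X π ℓ) {k : ℕ} (hk : k < m) {A : Finset ℕ}
    (hA : A ∈ X k) : Cyl X π ℓ d k A := by
  have hl : ∀ v ∈ A, ℓ v = k := fun v hv => tw_level hT hk.le hA hv
  have htop : topP ℓ k A = ∅ := by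
    apply filter_eq_empty_iff.mpr
    intro v hv h1
    have := hl v hv
    omega
  have hbot : botP ℓ k A = A := filter_eq_self.mpr hl
  refine ⟨card_le_of_pure (tw_pure hT hk.le) hA, fun v hv => Or.inl (hl v hv), Or.inl htop, ?_⟩
  rw [htop, hbot, image_empty, empty_union]
  exact hA

lemma cyl_of_top (hT : IsTower d D c ε m X π ℓ) {k : ℕ} (hk : k < m) {A : Finset ℕ}
    (hA : A ∈ X (k + 1)) : Cyl X π ℓ d k A := by
  have hl : ∀ v ∈ A, ℓ v = k + 1 := fun v hv => tw_level hT (by omega : k + 1 ≤ m) hA hv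
  have htop : topP ℓ k A = A := filter_eq_self.mpr hl
  have hbot : botP ℓ k A = ∅ := by
    apply filter_eq_empty_iff.mpr
    intro v hv h1
    have := hl v hv
    omega
  refine ⟨card_le_of_pure (tw_pure hT (by omega : k + 1 ≤ m)) hA,
    fun v hv => Or.inr (hl v hv), Or.inr (by rw [htop]; exact hA), ?_⟩
  rw [htop, hbot, union_empty]
  exact tw_simp hT hk hA

lemma Cyl.mem_bot {k : ℕ} {A : Finset ℕ} (h : Cyl X π ℓ d k A) (hl : ∀ v ∈ A, ℓ v = k) :
    A ∈ X k := by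
  have htop : topP ℓ k A = ∅ := by
    apply filter_eq_empty_iff.mpr
    intro v hv h1
    have := hl v hv
    omega
  have hbot : botP ℓ k A = A := filter_eq_self.mpr hl
  have h2 := h.2.2.2
  rw [htop, hbot, image_empty, empty_union] at h2
  exact h2

lemma Cyl.mem_top (hT : IsTower d D c ε m X π ℓ) {k : ℕ} (hk : k ≤ m) {A : Finset ℕ}
    (h : Cyl X π ℓ d k A) (hl : ∀ v ∈ A, ℓ v = k + 1) : A ∈ X (k + 1) := by
  have htop : topP ℓ k A = A := filter_eq_self.mpr hl
  rcases h.2.2.1 with h1 | h1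
  · rw [htop] at h1
    exact absurd h1 (nonempty_iff_ne_empty.mp (h.nonempty hT hk))
  · rw [htop] at h1
    exact h1

lemma Cyl.level_image (hT : IsTower d D c ε m X π ℓ) {k : ℕ} (hk : k ≤ m) {A : Finset ℕ}
    (h : Cyl X π ℓ d k A) {v : ℕ} (hv : v ∈ A) (hl : ℓ v = k + 1) : ℓ (π v) = k :=
  tw_level hT hk h.2.2.2
    (mem_union_left _ (mem_image_of_mem π (mem_filter.mpr ⟨hv, hl⟩)))

lemma Cyl.insert_image (hT : IsTower d D c ε m X π ℓ) {k : ℕ} (hk : k ≤ m) {A : Finset ℕ}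
    (h : Cyl X π ℓ d k A) {v : ℕ} (hv : v ∈ A) (hl : ℓ v = k + 1) (hc : A.card ≤ d) :
    Cyl X π ℓ d k (insert (π v) A) := by
  have hlπ : ℓ (π v) = k := h.level_image hT hk hv hl
  have htop : topP ℓ k (insert (π v) A) = topP ℓ k A := by
    unfold topP
    rw [filter_insert, if_neg (by omega)]
  have hbot : botP ℓ k (insert (π v) A) = insert (π v) (botP ℓ k A) := by
    unfold botP
    rw [filter_insert, if_pos hlπ]
  refine ⟨(card_insert_le _ _).trans (by omega), ?_, ?_, ?_⟩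
  · intro x hx
    rw [mem_insert] at hx
    rcases hx with rfl | hx
    · exact Or.inl hlπ
    · exact h.2.1 x hx
  · rw [htop]
    exact h.2.2.1
  · rw [htop, hbot]
    have hmem : π v ∈ (topP ℓ k A).image π := mem_image_of_mem π (mem_filter.mpr ⟨hv, hl⟩)
    have : (topP ℓ k A).image π ∪ insert (π v) (botP ℓ k A)
        = (topP ℓ k A).image π ∪ botP ℓ k A := by
      ext x
      simp only [mem_union, mem_insert]
      constructor
      · rintro (h1 | rfl | h1)
        · exact Or.inl h1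
        · exact Or.inl hmem
        · exact Or.inr h1
      · rintro (h1 | h1)
        · exact Or.inl h1
        · exact Or.inr (Or.inr h1)
    rw [this]
    exact h.2.2.2

lemma mem_tel (_hT : IsTower d D c ε m X π ℓ) {A : Finset ℕ} :
    A ∈ tel X π ℓ m d ↔ ∃ k, k < m ∧ Cyl X π ℓ d k A := by
  classical
  unfold tel
  rw [mem_filter, mem_powerset]
  constructor
  · exact fun h => h.2
  · rintro ⟨k, hk, h⟩
    refine ⟨?_, k, hk, h⟩
    intro x hx
    unfold allVerts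
    rw [mem_biUnion]
    rcases h.2.1 x hx with h1 | h1
    · refine ⟨k, mem_range.mpr (by omega), ?_⟩
      rw [mem_biUnion]
      exact ⟨_, h.2.2.2, mem_union_right _ (mem_filter.mpr ⟨hx, h1⟩)⟩
    · have hxt : x ∈ topP ℓ k A := mem_filter.mpr ⟨hx, h1⟩
      rcases h.2.2.1 with h2 | h2
      · rw [h2] at hxt
        exact absurd hxt (notMem_empty x)
      · refine ⟨k + 1, mem_range.mpr (by omega), ?_⟩
        rw [mem_biUnion]
        exact ⟨_, h2, hxt⟩

lemma tel_cx (hT : IsTower d D c ε m X π ℓ) :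
    ∀ s ∈ tel X π ℓ m d, s.Nonempty ∧ ∀ t, t ⊆ s → t.Nonempty → t ∈ tel X π ℓ m d := by
  intro s hs
  obtain ⟨k, hk, h⟩ := (mem_tel hT).mp hs
  exact ⟨h.nonempty hT hk.le, fun t hts htn => (mem_tel hT).mpr ⟨k, hk, h.sub hT hk hts htn⟩⟩

lemma mem_tel_of_level (hT : IsTower d D c ε m X π ℓ) {j : ℕ} (hj : j ≤ m) {A : Finset ℕ}
    (hA : A ∈ X j) : A ∈ tel X π ℓ m d := by
  rw [mem_tel hT]
  by_cases hjm : j < m
  · exact ⟨j, hjm, cyl_of_bot hT hjm hA⟩
  · have hm1 : 1 ≤ m := hT.1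
    obtain ⟨k, rfl⟩ : ∃ k, j = k + 1 := ⟨j - 1, by omega⟩
    exact ⟨k, by omega, cyl_of_top hT (by omega) hA⟩

lemma level_of_mem_tel (hT : IsTower d D c ε m X π ℓ) {j : ℕ} {A : Finset ℕ}
    (hA : A ∈ tel X π ℓ m d) (hl : ∀ v ∈ A, ℓ v = j) : A ∈ X j := by
  obtain ⟨k, hk, h⟩ := (mem_tel hT).mp hA
  obtain ⟨x, hx⟩ := h.nonempty hT hk.le
  rcases h.2.1 x hx with h1 | h1
  · have hjk : j = k := by rw [← hl x hx, h1]
    subst hjk
    exact h.mem_bot hl
  · have hjk : j = k + 1 := by rw [← hl x hx, h1]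
    subst hjk
    exact h.mem_top hT hk.le hl

/-- The vertices of level `k`. -/
def verts (X : ℕ → Finset (Finset ℕ)) (k : ℕ) : Finset ℕ := (X k).biUnion id

lemma mem_verts (hT : IsTower d D c ε m X π ℓ) {k : ℕ} (hk : k ≤ m) {v : ℕ} :
    v ∈ verts X k ↔ {v} ∈ X k := by
  unfold verts
  rw [mem_biUnion]
  constructor
  · rintro ⟨s, hs, hv⟩
    exact (tw_cx hT hk s hs).2 _ (singleton_subset_iff.mpr hv) (singleton_nonempty v)
  · intro h
    exact ⟨{v}, h, mem_singleton_self v⟩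

lemma verts_level (hT : IsTower d D c ε m X π ℓ) {k : ℕ} (hk : k ≤ m) {v : ℕ}
    (hv : v ∈ verts X k) : ℓ v = k :=
  tw_level hT hk ((mem_verts hT hk).mp hv) (mem_singleton_self v)

lemma verts_image (hT : IsTower d D c ε m X π ℓ) {k : ℕ} (hk : k < m) {v : ℕ}
    (hv : v ∈ verts X (k + 1)) : π v ∈ verts X k := by
  rw [mem_verts hT hk.le]
  have := tw_simp hT hk ((mem_verts hT (by omega : k + 1 ≤ m)).mp hv)
  rwa [image_singleton] at this

lemma Cyl.top_mem {k : ℕ} {A : Finset ℕ} (h : Cyl X π ℓ d k A) {x : ℕ} (hx : x ∈ A)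
    (hl : ℓ x = k + 1) : topP ℓ k A ∈ X (k + 1) := by
  rcases h.2.2.1 with h1 | h1
  · have : x ∈ topP ℓ k A := mem_filter.mpr ⟨hx, hl⟩
    rw [h1] at this
    exact absurd this (notMem_empty x)
  · exact h1

lemma Cyl.top_vert (hT : IsTower d D c ε m X π ℓ) {k : ℕ} (hk : k < m) {A : Finset ℕ}
    (h : Cyl X π ℓ d k A) {x : ℕ} (hx : x ∈ A) (hl : ℓ x = k + 1) : x ∈ verts X (k + 1) := by
  rw [mem_verts hT (by omega : k + 1 ≤ m)]
  exact (tw_cx hT (by omega : k + 1 ≤ m) _ (h.top_mem hx hl)).2 _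
    (singleton_subset_iff.mpr (mem_filter.mpr ⟨hx, hl⟩)) (singleton_nonempty x)

/-- The list of vertices moved by the `k`-th cylinder. -/
noncomputable def Lk (X : ℕ → Finset (Finset ℕ)) (m k : ℕ) : List ℕ :=
  if k < m then (verts X (k + 1)).toList else []

lemma mem_Lk {k : ℕ} (hk : k < m) {v : ℕ} : v ∈ Lk X m k ↔ v ∈ verts X (k + 1) := by
  unfold Lk
  rw [if_pos hk, mem_toList]

lemma Lk_of_ge {k : ℕ} (hk : m ≤ k) : Lk X m k = [] := by
  unfold Lk
  rw [if_neg (by omega)]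

/-- The image of a cylinder face under the collapse of the cylinder. -/
lemma Cyl.image_mvAll (hT : IsTower d D c ε m X π ℓ) {k : ℕ} (hk : k < m) {A : Finset ℕ}
    (h : Cyl X π ℓ d k A) :
    A.image (mvAll π (Lk X m k)) = (topP ℓ k A).image π ∪ botP ℓ k A := by
  ext y
  simp only [mem_image, mem_union, topP, botP, mem_filter]
  constructor
  · rintro ⟨x, hx, rfl⟩
    rcases h.2.1 x hx with h1 | h1
    · right
      have hx' : x ∉ Lk X m k := by
        intro hm
        have := verts_level hT (by omega : k + 1 ≤ m) ((mem_Lk hk).mp hm)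
        omega
      unfold mvAll
      rw [if_neg hx']
      exact ⟨hx, h1⟩
    · left
      have hx' : x ∈ Lk X m k := (mem_Lk hk).mpr (h.top_vert hT hk hx h1)
      unfold mvAll
      rw [if_pos hx']
      exact ⟨x, ⟨hx, h1⟩, rfl⟩
  · rintro (⟨x, ⟨hx, h1⟩, rfl⟩ | ⟨hy, h1⟩)
    · have hx' : x ∈ Lk X m k := (mem_Lk hk).mpr (h.top_vert hT hk hx h1)
      refine ⟨x, hx, ?_⟩
      unfold mvAll
      rw [if_pos hx']
    · have hy' : y ∉ Lk X m k := by
        intro hm
        have := verts_level hT (by omega : k + 1 ≤ m) ((mem_Lk hk).mp hm)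
        omega
      refine ⟨y, hy, ?_⟩
      unfold mvAll
      rw [if_neg hy']

/-- A set together with the level `k + 1` vertices lying over it. -/
def fib (X : ℕ → Finset (Finset ℕ)) (π : ℕ → ℕ) (k : ℕ) (B : Finset ℕ) : Finset ℕ :=
  B ∪ (verts X (k + 1)).filter (fun x => π x ∈ B)

lemma card_fiber_le (hT : IsTower d D c ε m X π ℓ) {k : ℕ} (hk : k < m) (w : ℕ) :
    ((verts X (k + 1)).filter (fun x => π x = w)).card ≤ c := by
  refine le_trans ?_ (hT.2.2.2.2.1 k hk w)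
  apply card_le_card_of_injOn (fun x => ({x} : Finset ℕ))
  · intro x hx
    rw [mem_coe, mem_filter] at hx
    rw [mem_coe, mem_filter, mem_faces]
    refine ⟨⟨(mem_verts hT (by omega : k + 1 ≤ m)).mp hx.1, card_singleton x⟩, ?_⟩
    rw [image_singleton, hx.2]
  · intro x _ y _ hxy
    exact singleton_injective hxy

lemma card_fib_le (hT : IsTower d D c ε m X π ℓ) {k : ℕ} (hk : k < m) (B : Finset ℕ) :
    (fib X π k B).card ≤ B.card * (c + 1) := by
  unfold fib
  have h1 : (verts X (k + 1)).filter (fun x => π x ∈ B)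
      ⊆ B.biUnion (fun w => (verts X (k + 1)).filter (fun x => π x = w)) := by
    intro x hx
    rw [mem_filter] at hx
    rw [mem_biUnion]
    exact ⟨π x, hx.2, mem_filter.mpr ⟨hx.1, rfl⟩⟩
  have h2 : (B.biUnion (fun w => (verts X (k + 1)).filter (fun x => π x = w))).card
      ≤ B.card * c := card_biUnion_le_card_mul _ _ _ (fun w _ => card_fiber_le hT hk w)
  calc (B ∪ (verts X (k + 1)).filter (fun x => π x ∈ B)).card
      ≤ B.card + ((verts X (k + 1)).filter (fun x => π x ∈ B)).card := card_union_le _ _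
    _ ≤ B.card + B.card * c := Nat.add_le_add_left ((card_le_card h1).trans h2) _
    _ = B.card * (c + 1) := by ring

/-- The multiplicity constant. -/
def mH (d c : ℕ) : ℕ := 2 ^ ((d + 1) * (c + 1))

lemma card_powerset_fib_le (hT : IsTower d D c ε m X π ℓ) {k : ℕ} (hk : k < m)
    {B : Finset ℕ} (hB : B.card ≤ d + 1) : (fib X π k B).powerset.card ≤ mH d c := by
  rw [card_powerset]
  unfold mH
  apply Nat.pow_le_pow_right (by norm_num)
  exact (card_fib_le hT hk B).trans (Nat.mul_le_mul_right _ hB)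

lemma Cyl.sub_fib (hT : IsTower d D c ε m X π ℓ) {k : ℕ} (hk : k < m) {A : Finset ℕ}
    (h : Cyl X π ℓ d k A) : A ⊆ fib X π k ((topP ℓ k A).image π ∪ botP ℓ k A) := by
  intro x hx
  unfold fib
  rw [mem_union]
  rcases h.2.1 x hx with h1 | h1
  · left
    exact mem_union_right _ (mem_filter.mpr ⟨hx, h1⟩)
  · right
    rw [mem_filter]
    exact ⟨h.top_vert hT hk hx h1,
      mem_union_left _ (mem_image_of_mem π (mem_filter.mpr ⟨hx, h1⟩))⟩

/-- The number of faces of the `k`-th cylinder whose collapse contains a given vertex. -/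
lemma card_cyl_over (hT : IsTower d D c ε m X π ℓ) {k : ℕ} (hk : k < m) (w : ℕ)
    (S : Finset (Finset ℕ))
    (hS : ∀ A ∈ S, Cyl X π ℓ d k A ∧ w ∈ (topP ℓ k A).image π ∪ botP ℓ k A) :
    S.card ≤ mH d c * (D * 2 ^ (d + 1)) := by
  have h1 := card_le_mul_of_cover (S := S) (S' := (X k).filter (fun s => w ∈ s))
    (fun β => (fib X π k β).powerset) (mH d c) (by
      intro β hβ
      exact card_powerset_fib_le hT hk (card_le_of_pure (tw_pure hT hk.le) (mem_filter.mp hβ).1))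
    (by
      intro A hA
      obtain ⟨h, hw⟩ := hS A hA
      exact ⟨_, mem_filter.mpr ⟨h.2.2.2, hw⟩, mem_powerset.mpr (h.sub_fib hT hk)⟩)
  exact h1.trans (Nat.mul_le_mul_left _ (card_star_le (tw_pure hT hk.le) (tw_deg hT hk.le) w))

/-- The degree constant of the telescope. -/
def Kf (d D c : ℕ) : ℕ := 2 * (mH d c * (D * 2 ^ (d + 1)))

/-- The number of faces of the telescope through a vertex is bounded. -/
lemma tel_star_le (hT : IsTower d D c ε m X π ℓ) (y : ℕ) :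
    ((tel X π ℓ m d).filter (fun A => y ∈ A)).card ≤ Kf d D c := by
  classical
  set S := (tel X π ℓ m d).filter (fun A => y ∈ A) with hS
  have hcov : S ⊆ S.filter (fun A => ℓ y < m ∧ Cyl X π ℓ d (ℓ y) A)
      ∪ S.filter (fun A => 1 ≤ ℓ y ∧ ℓ y - 1 < m ∧ Cyl X π ℓ d (ℓ y - 1) A) := by
    intro A hA
    have hA' := mem_filter.mp hA
    obtain ⟨k, hk, h⟩ := (mem_tel hT).mp hA'.1
    rcases h.2.1 y hA'.2 with h1 | h1
    · exact mem_union_left _ (mem_filter.mpr ⟨hA, by omega, by rw [h1]; exact h⟩)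
    · have : ℓ y - 1 = k := by omega
      exact mem_union_right _ (mem_filter.mpr ⟨hA, by omega, by omega, by rw [this]; exact h⟩)
  have hb1 : (S.filter (fun A => ℓ y < m ∧ Cyl X π ℓ d (ℓ y) A)).card
      ≤ mH d c * (D * 2 ^ (d + 1)) := by
    by_cases hlt : ℓ y < m
    · apply card_cyl_over hT hlt y
      intro A hA
      rw [mem_filter] at hA
      refine ⟨hA.2.2, mem_union_right _ (mem_filter.mpr ⟨(mem_filter.mp hA.1).2, rfl⟩)⟩
    · rw [filter_eq_empty_iff.mpr (fun A _ h => hlt h.1), card_empty]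
      exact Nat.zero_le _
  have hb2 : (S.filter (fun A => 1 ≤ ℓ y ∧ ℓ y - 1 < m ∧ Cyl X π ℓ d (ℓ y - 1) A)).card
      ≤ mH d c * (D * 2 ^ (d + 1)) := by
    by_cases hlt : 1 ≤ ℓ y ∧ ℓ y - 1 < m
    · apply card_cyl_over hT hlt.2 (π y)
      intro A hA
      rw [mem_filter] at hA
      refine ⟨hA.2.2.2, mem_union_left _ (mem_image_of_mem π
        (mem_filter.mpr ⟨(mem_filter.mp hA.1).2, by omega⟩))⟩
    · rw [filter_eq_empty_iff.mpr (fun A _ h => hlt ⟨h.1, h.2.1⟩), card_empty]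
      exact Nat.zero_le _
  calc S.card ≤ _ := card_le_card hcov
    _ ≤ _ := card_union_le _ _
    _ ≤ Kf d D c := by unfold Kf; omega

lemma tel_nonempty (hT : IsTower d D c ε m X π ℓ) : (tel X π ℓ m d).Nonempty := by
  obtain ⟨s, hs⟩ := (tw_pure hT (Nat.zero_le m)).1
  exact ⟨s, mem_tel_of_level hT (Nat.zero_le m) hs⟩

/-- The telescope is a pure `d`-dimensional complex. -/
lemma tel_pure (hT : IsTower d D c ε m X π ℓ) : IsPureComplex (tel X π ℓ m d) d := by
  refine ⟨tel_nonempty hT, tel_cx hT, ?_⟩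
  intro A hA
  obtain ⟨k, hk, h⟩ := (mem_tel hT).mp hA
  obtain ⟨β', hβ', hsub⟩ := (tw_pure hT hk.le).2.2 _ h.2.2.2
  rw [mem_faces] at hβ'
  have hAc : A.card = (topP ℓ k A).card + (botP ℓ k A).card := by
    rw [← card_union_of_disjoint, topP_union_botP h.2.1]
    rw [disjoint_left]
    intro x hx hx'
    have h1 := (mem_filter.mp hx).2
    have h2 := (mem_filter.mp hx').2
    omega
  have hbsub : botP ℓ k A ⊆ β' := fun x hx => hsub (mem_union_right _ hx)
  obtain ⟨τ, hτ1, hτ2, hτc⟩ := exists_subsuperset_card_eq hbsub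
    (by have := h.1; omega : (botP ℓ k A).card ≤ d + 1 - (topP ℓ k A).card)
    (by rw [hβ'.2]; omega)
  have hτl : ∀ x ∈ τ, ℓ x = k := fun x hx => tw_level hT hk.le hβ'.1 (hτ2 hx)
  have hdisj : Disjoint (topP ℓ k A) τ := by
    rw [disjoint_left]
    intro x hx hx'
    have h1 := (mem_filter.mp hx).2
    have h2 := hτl x hx'
    omega
  have htop : topP ℓ k (topP ℓ k A ∪ τ) = topP ℓ k A := by
    ext x
    simp only [topP, mem_filter, mem_union]
    constructor
    · rintro ⟨h1 | h1, h2⟩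
      · exact h1
      · have := hτl x h1
        omega
    · intro h1
      exact ⟨Or.inl h1, h1.2⟩
  have hbot : botP ℓ k (topP ℓ k A ∪ τ) = τ := by
    ext x
    simp only [topP, botP, mem_filter, mem_union]
    constructor
    · rintro ⟨h1 | h1, h2⟩
      · omega
      · exact h1
    · intro h1
      exact ⟨Or.inr h1, hτl x h1⟩
  have hcard : (topP ℓ k A ∪ τ).card = d + 1 := by
    rw [card_union_of_disjoint hdisj, hτc]
    have := h.1
    omega
  have hcyl : Cyl X π ℓ d k (topP ℓ k A ∪ τ) := by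
    refine ⟨hcard.le, ?_, ?_, ?_⟩
    · intro x hx
      rw [mem_union] at hx
      rcases hx with hx | hx
      · exact Or.inr (mem_filter.mp hx).2
      · exact Or.inl (hτl x hx)
    · rw [htop]
      exact h.2.2.1
    · rw [htop, hbot]
      have hne : ((topP ℓ k A).image π ∪ τ).Nonempty := by
        obtain ⟨x, hx⟩ := (tw_cx hT hk.le _ h.2.2.2).1
        rw [mem_union] at hx
        rcases hx with hx | hx
        · exact ⟨x, mem_union_left _ hx⟩
        · exact ⟨x, mem_union_right _ (hτ1 hx)⟩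
      refine (tw_cx hT hk.le _ hβ'.1).2 _ ?_ hne
      intro x hx
      rw [mem_union] at hx
      rcases hx with hx | hx
      · exact hsub (mem_union_left _ hx)
      · exact hτ2 hx
  refine ⟨topP ℓ k A ∪ τ, mem_faces.mpr ⟨(mem_tel hT).mpr ⟨k, hk, hcyl⟩, hcard⟩, ?_⟩
  intro x hx
  rw [mem_union]
  rcases h.2.1 x hx with h1 | h1
  · exact Or.inr (hτ1 (mem_filter.mpr ⟨hx, h1⟩))
  · exact Or.inl (mem_filter.mpr ⟨hx, h1⟩)

lemma tel_deg (hT : IsTower d D c ε m X π ℓ) (y : ℕ) :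
    updeg (tel X π ℓ m d) d {y} ≤ Kf d D c := by
  refine le_trans (card_le_card ?_) (tel_star_le hT y)
  intro t ht
  rw [mem_filter] at ht ⊢
  exact ⟨(mem_faces.mp ht.1).1, singleton_subset_iff.mp ht.2⟩

end tower

end Vale.Agent.Lib.P067
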