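import Vale.Agent.Lib.P067.Defs

namespace Vale.Agent.Lib.P067

variable {V : Type*} [DecidableEq V]

/-- `z` is an `i`-cocycle of `X`: its coboundary vanishes on every `(i + 1)`-face. -/
def IsCocycle (X : Finset (Finset V)) (i : ℕ) (z : Finset V → ZMod 2) : Prop :=
  ∀ t ∈ faces X (i + 1), cobdry X i z t = 0

/-- `X` (of dimension `d`) is an `ε`-cosystolic expander. -/
def IsCosysExp (X : Finset (Finset V)) (d : ℕ) (ε : ℝ) : Prop :=
  (∀ i, i < d → ∀ f : Finset V → ZMod 2,
    ∃ z, IsCocycle X i z ∧ ε * norm X d i (f - z) ≤ norm X d (i + 1) (cobdry X i f)) ∧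
  (∀ i, i < d → ∀ z : Finset V → ZMod 2, IsCocycle X i z → ¬ IsCobdry X i z →
    ε ≤ norm X d i z)

/-- Pull-back of a cochain along a vertex map `φ`: the value at a face is the value at its
image if `φ` is injective on the face, and `0` otherwise. -/
def pull (φ : V → V) (F : Finset V → ZMod 2) (ρ : Finset V) : ZMod 2 :=
  if (ρ.image φ).card = ρ.card then F (ρ.image φ) else 0

/-- A tower `X 0 ← X 1 ← ... ← X m` of pure `d`-dimensional complexes on pairwise disjoint
vertex sets (`ℓ` is the level of a vertex), each of degree at most `D` and an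
`ε`-cosystolic expander, with simplicial maps induced by `π` that are at most `c`-to-one
on vertices, at least double the number of vertices, and send cocycles to coboundaries in
every degree below `d`; moreover all cocycles of `X 0` in degrees below `d` are
coboundaries. -/
def IsTower (d D c : ℕ) (ε : ℝ) (m : ℕ) (X : ℕ → Finset (Finset ℕ)) (π ℓ : ℕ → ℕ) : Prop :=
  1 ≤ m ∧
  (∀ k, k ≤ m → IsPureComplex (X k) d ∧ (∀ v : ℕ, updeg (X k) d {v} ≤ D) ∧
    IsCosysExp (X k) d ε) ∧
  (∀ k, k ≤ m → ∀ s ∈ X k, ∀ v ∈ s, ℓ v = k) ∧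
  (∀ k, k < m → ∀ s ∈ X (k + 1), s.image π ∈ X k) ∧
  (∀ k, k < m → ∀ w : ℕ,
    ((faces (X (k + 1)) 0).filter (fun s => s.image π = {w})).card ≤ c) ∧
  (∀ k, k < m → 2 * (faces (X k) 0).card ≤ (faces (X (k + 1)) 0).card) ∧
  (∀ k, k < m → ∀ i, i < d → ∀ z : Finset ℕ → ZMod 2,
    IsCocycle (X k) i z → IsCobdry (X (k + 1)) i (pull π z)) ∧
  (∀ i, i < d → ∀ z : Finset ℕ → ZMod 2, IsCocycle (X 0) i z → IsCobdry (X 0) i z)

end Vale.Agent.Lib.P067
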