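import Vale.Agent.Lib.P067.TelStage

namespace Vale.Agent.Lib.P067

open Finset

section tower

variable {d D c : ℕ} {ε : ℝ} {m : ℕ} {X : ℕ → Finset (Finset ℕ)} {π ℓ : ℕ → ℕ}

/-- The lowest level of a vertex of `ρ`. -/
noncomputable def lo (ℓ : ℕ → ℕ) (ρ : Finset ℕ) : ℕ := sInf (ℓ '' (ρ : Set ℕ))

lemma lo_mem {ρ : Finset ℕ} (h : ρ.Nonempty) : ∃ y ∈ ρ, ℓ y = lo ℓ ρ := by
  have hne : (ℓ '' (ρ : Set ℕ)).Nonempty := by
    obtain ⟨x, hx⟩ := h
    exact ⟨ℓ x, x, mem_coe.mpr hx, rfl⟩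
  obtain ⟨y, hy, hy'⟩ := Nat.sInf_mem hne
  exact ⟨y, mem_coe.mp hy, hy'⟩

lemma lo_le {ρ : Finset ℕ} {x : ℕ} (hx : x ∈ ρ) : lo ℓ ρ ≤ ℓ x :=
  Nat.sInf_le ⟨x, mem_coe.mpr hx, rfl⟩

/-- The glued primitive on the telescope. -/
noncomputable def glue (X : ℕ → Finset (Finset ℕ)) (π ℓ : ℕ → ℕ) (m : ℕ)
    (F : Finset ℕ → ZMod 2) (u : ℕ → Finset ℕ → ZMod 2) (ρ : Finset ℕ) : ZMod 2 :=
  HH X π m (lo ℓ ρ) F ρ + pull (Psi X π m (lo ℓ ρ)) (u (lo ℓ ρ)) ρ

/-- The mismatch of the primitives of two consecutive levels, on faces of the upper one. -/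
noncomputable def Ehat (X : ℕ → Finset (Finset ℕ)) (π ℓ : ℕ → ℕ) (m : ℕ)
    (F : Finset ℕ → ZMod 2) (u : ℕ → Finset ℕ → ZMod 2) (k : ℕ) (σ : Finset ℕ) : ZMod 2 :=
  if ∀ x ∈ σ, ℓ x = k + 1 then u (k + 1) σ + HH X π m k F σ + pull π (u k) σ else 0

lemma glue_eq (hT : IsTower d D c ε m X π ℓ) {k : ℕ} (hk : k < m) (F : Finset ℕ → ZMod 2)
    (u : ℕ → Finset ℕ → ZMod 2) {σ : Finset ℕ} (hσ : Cyl X π ℓ d k σ) :
    glue X π ℓ m F u σ
      = HH X π m k F σ + pull (Psi X π m k) (u k) σ + Ehat X π ℓ m F u k σ := by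
  have hne := hσ.nonempty hT hk.le
  by_cases hall : ∀ x ∈ σ, ℓ x = k + 1
  · have hlo : lo ℓ σ = k + 1 := by
      obtain ⟨y, hy, hy'⟩ := lo_mem (ℓ := ℓ) hne
      rw [← hy', hall y hy]
    have hmem : σ ∈ X (k + 1) := hσ.mem_top hT hk.le hall
    have hdis : ∀ x ∈ σ, x ∉ Lk X m (k + 1) := by
      intro x hx hL
      have h1 := (Lk_level hT hL).2.1
      have h2 := hall x hx
      omega
    unfold glue Ehat
    rw [hlo, HH_of_disjoint F hdis, pull_Psi_of_disjoint _ hdis, if_pos hall,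
      pull_Psi_of_top hT hk _ hmem]
    have key : ∀ a h p : ZMod 2, 0 + a = h + p + (a + h + p) := by decide
    exact key _ _ _
  · have hlo : lo ℓ σ = k := by
      push Not at hall
      obtain ⟨x, hx, hxl⟩ := hall
      have hxk : ℓ x = k := by
        rcases hσ.2.1 x hx with h | h
        · exact h
        · exact absurd h hxl
      obtain ⟨y, hy, hy'⟩ := lo_mem (ℓ := ℓ) hne
      have h1 : lo ℓ σ ≤ k := hxk ▸ lo_le hx
      have h2 : k ≤ lo ℓ σ := by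
        rw [← hy']
        rcases hσ.2.1 y hy with h | h <;> omega
      omega
    unfold glue Ehat
    rw [hlo, if_neg hall, add_zero]

/-- The key identity on the faces of the `k`-th cylinder. -/
lemma glue_identity (hT : IsTower d D c ε m X π ℓ) {k : ℕ} (hk : k < m)
    (F : Finset ℕ → ZMod 2) (u : ℕ → Finset ℕ → ZMod 2) {A : Finset ℕ}
    (hA : Cyl X π ℓ d k A) (hc : 2 ≤ A.card) :
    F A + dsum (glue X π ℓ m F u) A
      = pull (Psi X π m k) (F + dsum (u k)) A + HH X π m k (dsum F) A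
        + dsum (Ehat X π ℓ m F u k) A := by
  have h1 : dsum (glue X π ℓ m F u) A
      = dsum (HH X π m k F + pull (Psi X π m k) (u k) + Ehat X π ℓ m F u k) A := by
    unfold dsum
    apply sum_congr rfl
    intro x hx
    have hne : (A.erase x).Nonempty := by
      rw [← card_pos, card_erase_of_mem hx]
      omega
    rw [glue_eq hT hk F u (hA.sub hT hk (erase_subset x A) hne)]
    rfl
  have h2 := congrFun (cyl_identity hT k F) A
  simp only [Pi.add_apply] at h2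
  rw [h1, dsum_add, dsum_add, dsum_pull, pull_add]
  simp only [Pi.add_apply]
  have key : ∀ f pf dh hdf pdu de : ZMod 2, f + pf = dh + hdf →
      f + (dh + pdu + de) = (pf + pdu) + hdf + de := by decide
  exact key _ _ _ _ _ _ h2

/-- The constant of the gluing stage. -/
noncomputable def C3 (d D c : ℕ) (ε : ℝ) : ℝ :=
  mH d c * C1 d D c ε + mH d c + Kf d D c * C2 d D c ε

lemma C3_nonneg (d D c : ℕ) {ε : ℝ} (hε : 0 < ε) : 0 ≤ C3 d D c ε := by
  have := C1_nonneg d D c hε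
  have := C2_nonneg d D c hε
  unfold C3
  positivity

lemma glue_count (hT : IsTower d D c ε m X π ℓ) (hε : 0 < ε) {j : ℕ} (hj : j + 1 < d)
    (F : Finset ℕ → ZMod 2) (u : ℕ → Finset ℕ → ZMod 2)
    (hu1 : ∀ k, k ≤ m → ((supp (X k) (j + 1) (F + dsum (u k))).card : ℝ)
        ≤ C1 d D c ε * (Wr X π ℓ m d (j + 1 + 1) (dsum F) 1 k : ℝ))
    (hu2 : ∀ k, k < m →
        ((supp (X (k + 1)) j (u (k + 1) + HH X π m k F + pull π (u k))).card : ℝ)
          ≤ C2 d D c ε * (Wr X π ℓ m d (j + 1 + 1) (dsum F) 2 k : ℝ))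
    {k : ℕ} (hk : k < m) :
    ((cylSupp X π ℓ m d k (j + 1) (F + dsum (glue X π ℓ m F u))).card : ℝ)
      ≤ C3 d D c ε * (Wr X π ℓ m d (j + 1 + 1) (dsum F) 2 k : ℝ) := by
  classical
  set S := cylSupp X π ℓ m d k (j + 1) (F + dsum (glue X π ℓ m F u)) with hS
  have hSmem : ∀ A ∈ S, A ∈ tel X π ℓ m d ∧ A.card = j + 1 + 1 ∧ Cyl X π ℓ d k A ∧
      (F A + dsum (glue X π ℓ m F u) A ≠ 0) := by
    intro A hA
    rw [hS, mem_cylSupp, mem_supp, mem_faces] at hA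
    exact ⟨hA.1.1.1, hA.1.1.2, hA.2, hA.1.2⟩
  set S1 := S.filter (fun A => pull (Psi X π m k) (F + dsum (u k)) A ≠ 0) with hS1
  set S2 := S.filter (fun A => HH X π m k (dsum F) A ≠ 0) with hS2
  set S3 := S.filter (fun A => dsum (Ehat X π ℓ m F u k) A ≠ 0) with hS3
  have hsub : S ⊆ S1 ∪ S2 ∪ S3 := by
    intro A hA
    obtain ⟨-, hc, hcyl, hne⟩ := hSmem A hA
    rw [glue_identity hT hk F u hcyl (by omega)] at hne
    rw [hS1, hS2, hS3, mem_union, mem_union, mem_filter, mem_filter, mem_filter]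
    by_contra hcon
    push Not at hcon
    apply hne
    rw [hcon.1.1 hA, hcon.1.2 hA, hcon.2 hA]
    rfl
  have hc1 : S1.card ≤ mH d c * (supp (X k) (j + 1) (F + dsum (u k))).card := by
    apply card_collapse_le hT hk (j + 1)
    intro A hA
    rw [hS1, mem_filter] at hA
    obtain ⟨-, hc, hcyl, -⟩ := hSmem A hA.1
    exact ⟨hcyl, hc, hA.2⟩
  have hc2 : S2.card ≤ mH d c * (cylSupp X π ℓ m d k (j + 1 + 1) (dsum F)).card := by
    apply card_HH_le hT hk (j + 1) hj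
    intro A hA
    rw [hS2, mem_filter] at hA
    obtain ⟨-, hc, hcyl, -⟩ := hSmem A hA.1
    exact ⟨hcyl, hc, hA.2⟩
  have hc3 : S3.card ≤ Kf d D c
      * (supp (X (k + 1)) j (u (k + 1) + HH X π m k F + pull π (u k))).card := by
    apply card_star_cover hT
    · intro σ hσ
      rw [← card_pos, (mem_faces.mp (mem_supp.mp hσ).1).2]
      omega
    · intro A hA
      rw [hS3, mem_filter] at hA
      obtain ⟨hAT, hc, hcyl, -⟩ := hSmem A hA.1
      refine ⟨hAT, ?_⟩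
      obtain ⟨x, hx, hne⟩ := exists_ne_zero_of_sum_ne_zero hA.2
      refine ⟨A.erase x, ?_, erase_subset x A⟩
      unfold Ehat at hne
      by_cases hall : ∀ y ∈ A.erase x, ℓ y = k + 1
      · rw [if_pos hall] at hne
        have hcard : (A.erase x).card = j + 1 := by
          rw [card_erase_of_mem hx, hc]
          rfl
        have hnonempty : (A.erase x).Nonempty := by
          rw [← card_pos, hcard]
          omega
        have hmem : A.erase x ∈ X (k + 1) :=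
          (hcyl.sub hT hk (erase_subset x A) hnonempty).mem_top hT hk.le hall
        rw [mem_supp, mem_faces]
        exact ⟨⟨hmem, hcard⟩, hne⟩
      · rw [if_neg hall] at hne
        exact absurd rfl hne
  have hw1 : Wr X π ℓ m d (j + 1 + 1) (dsum F) 1 k ≤ Wr X π ℓ m d (j + 1 + 1) (dsum F) 2 k :=
    Wr_shift (r := 1) (s := 1) (j + 1 + 1) (dsum F) (by omega) (by omega)
  have hw3 := cylSupp_le hT hk (j + 1 + 1) (dsum F) (r := 2) (k := k) (by omega) (by omega)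
  have hC1 := C1_nonneg d D c hε
  have hC2 := C2_nonneg d D c hε
  have hmH : (0 : ℝ) ≤ (mH d c : ℝ) := Nat.cast_nonneg _
  have hKf : (0 : ℝ) ≤ (Kf d D c : ℝ) := Nat.cast_nonneg _
  have hw1' : (Wr X π ℓ m d (j + 1 + 1) (dsum F) 1 k : ℝ)
      ≤ (Wr X π ℓ m d (j + 1 + 1) (dsum F) 2 k : ℝ) := by exact_mod_cast hw1
  have hw3' : ((cylSupp X π ℓ m d k (j + 1 + 1) (dsum F)).card : ℝ)
      ≤ (Wr X π ℓ m d (j + 1 + 1) (dsum F) 2 k : ℝ) := by exact_mod_cast hw3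
  have hcard : (S.card : ℝ) ≤ (S1.card : ℝ) + (S2.card : ℝ) + (S3.card : ℝ) := by
    have h1 := (card_le_card hsub).trans (card_union_le _ _)
    have h2 := card_union_le S1 S2
    exact_mod_cast h1.trans (Nat.add_le_add_right h2 _)
  have hb1 : (S1.card : ℝ)
      ≤ mH d c * (C1 d D c ε * (Wr X π ℓ m d (j + 1 + 1) (dsum F) 2 k : ℝ)) := by
    have : (S1.card : ℝ) ≤ (mH d c : ℝ)
        * ((supp (X k) (j + 1) (F + dsum (u k))).card : ℝ) := by exact_mod_cast hc1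
    exact this.trans (mul_le_mul_of_nonneg_left
      ((hu1 k hk.le).trans (mul_le_mul_of_nonneg_left hw1' hC1)) hmH)
  have hb2 : (S2.card : ℝ) ≤ mH d c * (Wr X π ℓ m d (j + 1 + 1) (dsum F) 2 k : ℝ) := by
    have : (S2.card : ℝ) ≤ (mH d c : ℝ)
        * ((cylSupp X π ℓ m d k (j + 1 + 1) (dsum F)).card : ℝ) := by exact_mod_cast hc2
    exact this.trans (mul_le_mul_of_nonneg_left hw3' hmH)
  have hb3 : (S3.card : ℝ)
      ≤ Kf d D c * (C2 d D c ε * (Wr X π ℓ m d (j + 1 + 1) (dsum F) 2 k : ℝ)) := by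
    have : (S3.card : ℝ) ≤ (Kf d D c : ℝ)
        * ((supp (X (k + 1)) j (u (k + 1) + HH X π m k F + pull π (u k))).card : ℝ) := by
      exact_mod_cast hc3
    exact this.trans (mul_le_mul_of_nonneg_left (hu2 k hk) hKf)
  unfold C3
  linarith

/-- Counting form of coboundary expansion of the telescope in positive degrees. -/
theorem expand_succ (hT : IsTower d D c ε m X π ℓ) (hε : 0 < ε) {j : ℕ} (hj : j + 1 < d)
    (F : Finset ℕ → ZMod 2) :
    ∃ G : Finset ℕ → ZMod 2, ((supp (tel X π ℓ m d) (j + 1) (F + dsum G)).card : ℝ)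
      ≤ 6 * C3 d D c ε * ((supp (tel X π ℓ m d) (j + 1 + 1) (dsum F)).card : ℝ) := by
  obtain ⟨u, hu1, hu2⟩ := levels hT hε hj F
  refine ⟨glue X π ℓ m F u, ?_⟩
  have hC3 := C3_nonneg d D c hε
  have hsub : supp (tel X π ℓ m d) (j + 1) (F + dsum (glue X π ℓ m F u))
      ⊆ (range m).biUnion
        (fun k => cylSupp X π ℓ m d k (j + 1) (F + dsum (glue X π ℓ m F u))) := by
    intro A hA
    obtain ⟨k, hk, hcyl⟩ := (mem_tel hT).mp (mem_faces.mp (mem_supp.mp hA).1).1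
    rw [mem_biUnion]
    exact ⟨k, mem_range.mpr hk, mem_cylSupp.mpr ⟨hA, hcyl⟩⟩
  have h1 : (supp (tel X π ℓ m d) (j + 1) (F + dsum (glue X π ℓ m F u))).card
      ≤ ∑ k ∈ range m,
        (cylSupp X π ℓ m d k (j + 1) (F + dsum (glue X π ℓ m F u))).card :=
    (card_le_card hsub).trans card_biUnion_le
  have h2 : ((∑ k ∈ range m,
      (cylSupp X π ℓ m d k (j + 1) (F + dsum (glue X π ℓ m F u))).card : ℕ) : ℝ)
      ≤ ∑ k ∈ range m, C3 d D c ε * (Wr X π ℓ m d (j + 1 + 1) (dsum F) 2 k : ℝ) := by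
    rw [Nat.cast_sum]
    apply sum_le_sum
    intro k hk
    exact glue_count hT hε hj F u hu1 hu2 (mem_range.mp hk)
  have h3 : ∑ k ∈ range m, C3 d D c ε * (Wr X π ℓ m d (j + 1 + 1) (dsum F) 2 k : ℝ)
      ≤ ∑ k ∈ range (m + 1), C3 d D c ε * (Wr X π ℓ m d (j + 1 + 1) (dsum F) 2 k : ℝ) := by
    rw [sum_range_succ]
    have : 0 ≤ C3 d D c ε * (Wr X π ℓ m d (j + 1 + 1) (dsum F) 2 m : ℝ) :=
      mul_nonneg hC3 (Nat.cast_nonneg _)
    linarith
  have h4 : ∑ k ∈ range (m + 1), C3 d D c ε * (Wr X π ℓ m d (j + 1 + 1) (dsum F) 2 k : ℝ)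
      ≤ C3 d D c ε * (6 * ((supp (tel X π ℓ m d) (j + 1 + 1) (dsum F)).card : ℝ)) := by
    rw [← mul_sum]
    apply mul_le_mul_of_nonneg_left _ hC3
    have := Wr_sum hT (j + 1 + 1) (dsum F)
    exact_mod_cast this
  have h1' : ((supp (tel X π ℓ m d) (j + 1) (F + dsum (glue X π ℓ m F u))).card : ℝ)
      ≤ ((∑ k ∈ range m,
        (cylSupp X π ℓ m d k (j + 1) (F + dsum (glue X π ℓ m F u))).card : ℕ) : ℝ) := by
    exact_mod_cast h1
  linarith

end tower

end Vale.Agent.Lib.P067
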