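import Vale.Agent.Lib.P067.TelBasic

namespace Vale.Agent.Lib.P067

open Finset

section universal

variable {V : Type*} [DecidableEq V]

/-- The universal coboundary squares to zero. -/
lemma dsum_dsum (F : Finset V → ZMod 2) : dsum (dsum F) = 0 := by
  funext ρ
  show ∑ u ∈ ρ, dsum F (ρ.erase u) = 0
  unfold dsum
  rw [Finset.sum_sigma' ρ (fun u => ρ.erase u) (fun u v => F ((ρ.erase u).erase v))]
  refine Finset.sum_involution (fun p _ => ⟨p.2, p.1⟩) ?_ ?_ ?_ ?_
  · intro p _
    show F ((ρ.erase p.1).erase p.2) + F ((ρ.erase p.2).erase p.1) = 0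
    rw [erase_right_comm]
    exact CharTwo.add_self_eq_zero _
  · intro p hp _ h
    rw [mem_sigma] at hp
    have h1 : p.2 = p.1 := congrArg Sigma.fst h
    exact (mem_erase.mp hp.2).1 h1
  · intro p hp
    rw [mem_sigma] at hp ⊢
    have h2 := mem_erase.mp hp.2
    exact ⟨h2.2, mem_erase.mpr ⟨fun h => h2.1 h.symm, hp.1⟩⟩
  · intro p _
    rfl

/-- Locality of the homotopy, with containments in both directions. -/
lemma Hm_local2 (π : V → V) (d : ℕ) (M : Finset V → Prop) (P : V → Prop) [DecidablePred P]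
    (hsub : ∀ ρ, M ρ → ∀ s, s ⊆ ρ → s.Nonempty → M s)
    (L : List V) (hP : ∀ v ∈ L, P v ∧ ¬ P (π v))
    (hdom : ∀ ρ, M ρ → ∀ v ∈ L, v ∈ ρ → ρ.card ≤ d → M (insert (π v) ρ))
    (E : Finset V → ZMod 2) :
    ∀ ρ, M ρ → ρ.card ≤ d → Hm π L E ρ ≠ 0 →
      ∃ ρ', M ρ' ∧ ρ'.card = ρ.card + 1 ∧ E ρ' ≠ 0 ∧
        ∀ x ∈ ρ, x ∈ ρ' ∨ (P x ∧ π x ∈ ρ') := by
  induction L with
  | nil =>
    intro ρ _ _ h
    exact absurd rfl h
  | cons v L ih =>
    have ih' := ih (fun w hw => hP w (List.mem_cons_of_mem v hw))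
      (fun ρ hρ w hw => hdom ρ hρ w (List.mem_cons_of_mem v hw))
    have hPv := hP v List.mem_cons_self
    intro ρ hρ hcard h
    have h' : hmove v (π v) E ρ + pull (mv v (π v)) (Hm π L E) ρ ≠ 0 := h
    by_cases h1 : hmove v (π v) E ρ = 0
    · rw [h1, zero_add] at h'
      unfold pull at h'
      by_cases hc : (ρ.image (mv v (π v))).card = ρ.card
      · rw [if_pos hc] at h'
        by_cases hv : v ∈ ρ
        · have himg := image_mv_of_mem (b := π v) hv
          have hM1 : M (insert (π v) ρ) := hdom ρ hρ v List.mem_cons_self hv hcard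
          have hM2 : M (ρ.image (mv v (π v))) := by
            rw [himg]
            exact hsub _ hM1 _ (insert_subset_insert _ (erase_subset v ρ)) (insert_nonempty _ _)
          obtain ⟨ρ', hM', hc', hE', hback⟩ := ih' _ hM2 (by rw [hc]; exact hcard) h'
          refine ⟨ρ', hM', by rw [hc', hc], hE', ?_⟩
          intro x hx
          by_cases hxv : x = v
          · subst hxv
            right
            have hπ : π x ∈ ρ.image (mv x (π x)) := by
              rw [himg]
              exact mem_insert_self _ _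
            rcases hback _ hπ with h2 | h2
            · exact ⟨hPv.1, h2⟩
            · exact absurd h2.1 hPv.2
          · have hx' : x ∈ ρ.image (mv v (π v)) := by
              rw [himg]
              exact mem_insert_of_mem (mem_erase.mpr ⟨hxv, hx⟩)
            exact hback x hx'
        · have himg := image_mv_of_notMem (b := π v) hv
          rw [himg] at h'
          exact ih' ρ hρ hcard h'
      · rw [if_neg hc] at h'
        exact absurd rfl h'
    · unfold hmove at h1
      by_cases hc : v ∈ ρ ∧ π v ∉ ρ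
      · rw [if_pos hc] at h1
        refine ⟨insert (π v) ρ, hdom ρ hρ v List.mem_cons_self hc.1 hcard,
          card_insert_of_notMem hc.2, h1, ?_⟩
        intro x hx
        exact Or.inl (mem_insert_of_mem hx)
      · rw [if_neg hc] at h1
        exact absurd rfl h1

end universal

section tower

variable {d D c : ℕ} {ε : ℝ} {m : ℕ} {X : ℕ → Finset (Finset ℕ)} {π ℓ : ℕ → ℕ}

/-- The collapse map of the `k`-th cylinder. -/
noncomputable def Psi (X : ℕ → Finset (Finset ℕ)) (π : ℕ → ℕ) (m k : ℕ) : ℕ → ℕ :=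
  mvAll π (Lk X m k)

/-- The homotopy of the `k`-th cylinder. -/
noncomputable def HH (X : ℕ → Finset (Finset ℕ)) (π : ℕ → ℕ) (m k : ℕ) :
    (Finset ℕ → ZMod 2) → (Finset ℕ → ZMod 2) :=
  Hm π (Lk X m k)

lemma Lk_level (hT : IsTower d D c ε m X π ℓ) {k : ℕ} {v : ℕ} (hv : v ∈ Lk X m k) :
    k < m ∧ ℓ v = k + 1 ∧ ℓ (π v) = k := by
  by_cases hk : k < m
  · have h1 := (mem_Lk hk).mp hv
    exact ⟨hk, verts_level hT (by omega : k + 1 ≤ m) h1,
      verts_level hT hk.le (verts_image hT hk h1)⟩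
  · rw [Lk_of_ge (by omega)] at hv
    exact absurd hv List.not_mem_nil

/-- The homotopy identity of the `k`-th cylinder. -/
theorem cyl_identity (hT : IsTower d D c ε m X π ℓ) (k : ℕ) (F : Finset ℕ → ZMod 2) :
    F + pull (Psi X π m k) F = dsum (HH X π m k F) + HH X π m k (dsum F) := by
  have h1 := list_identity π (Lk X m k) (fun v hv => by
    have := Lk_level hT hv
    intro h
    rw [← h] at this
    omega) F
  rw [Pm_eq_pull π (Lk X m k) (fun v hv h => by
    have h1 := Lk_level hT hv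
    have h2 := Lk_level hT h
    omega)] at h1
  exact h1

lemma Psi_of_notMem {k : ℕ} {x : ℕ} (hx : x ∉ Lk X m k) : Psi X π m k x = x := by
  unfold Psi mvAll
  rw [if_neg hx]

lemma Psi_of_mem {k : ℕ} {x : ℕ} (hx : x ∈ Lk X m k) : Psi X π m k x = π x := by
  unfold Psi mvAll
  rw [if_pos hx]

/-- On a face without moved vertices the collapse is the identity. -/
lemma pull_Psi_of_disjoint {k : ℕ} (F : Finset ℕ → ZMod 2) {ρ : Finset ℕ}
    (h : ∀ x ∈ ρ, x ∉ Lk X m k) : pull (Psi X π m k) F ρ = F ρ := by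
  have himg : ρ.image (Psi X π m k) = ρ := by
    have : ρ.image (Psi X π m k) = ρ.image id :=
      image_congr (fun x hx => Psi_of_notMem (h x hx))
    rw [this, image_id]
  unfold pull
  rw [himg, if_pos rfl]

lemma HH_of_disjoint {k : ℕ} (F : Finset ℕ → ZMod 2) {ρ : Finset ℕ}
    (h : ∀ x ∈ ρ, x ∉ Lk X m k) : HH X π m k F ρ = 0 :=
  Hm_eq_zero π (Lk X m k) F ρ (fun v hv hvρ => h v hvρ hv)

/-- On a face of level `k + 1` the collapse is the pull-back along `π`. -/
lemma pull_Psi_of_top (hT : IsTower d D c ε m X π ℓ) {k : ℕ} (hk : k < m)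
    (F : Finset ℕ → ZMod 2) {ρ : Finset ℕ} (hρ : ρ ∈ X (k + 1)) :
    pull (Psi X π m k) F ρ = pull π F ρ := by
  have himg : ρ.image (Psi X π m k) = ρ.image π := by
    apply image_congr
    intro x hx
    apply Psi_of_mem
    rw [mem_Lk hk, mem_verts hT (by omega : k + 1 ≤ m)]
    exact (tw_cx hT (by omega : k + 1 ≤ m) ρ hρ).2 _ (singleton_subset_iff.mpr hx)
      (singleton_nonempty x)
  unfold pull
  rw [himg]

/-- The relation between consecutive levels. -/
theorem level_rel (hT : IsTower d D c ε m X π ℓ) {k : ℕ} (hk : k < m)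
    (F : Finset ℕ → ZMod 2) {ρ : Finset ℕ} (hρ : ρ ∈ X (k + 1)) :
    F ρ + pull π F ρ = dsum (HH X π m k F) ρ + HH X π m k (dsum F) ρ := by
  have h := congrFun (cyl_identity hT k F) ρ
  simp only [Pi.add_apply] at h
  rw [pull_Psi_of_top hT hk F hρ] at h
  exact h

/-- The value of the collapse on a cylinder face. -/
lemma pull_Psi_cyl (hT : IsTower d D c ε m X π ℓ) {k : ℕ} (hk : k < m)
    (F : Finset ℕ → ZMod 2) {A : Finset ℕ} (h : Cyl X π ℓ d k A)
    (hne : pull (Psi X π m k) F A ≠ 0) :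
    ((topP ℓ k A).image π ∪ botP ℓ k A).card = A.card ∧
      F ((topP ℓ k A).image π ∪ botP ℓ k A) ≠ 0 := by
  unfold pull at hne
  have himg : A.image (Psi X π m k) = (topP ℓ k A).image π ∪ botP ℓ k A :=
    h.image_mvAll hT hk
  rw [himg] at hne
  by_cases hc : ((topP ℓ k A).image π ∪ botP ℓ k A).card = A.card
  · rw [if_pos hc] at hne
    exact ⟨hc, hne⟩
  · rw [if_neg hc] at hne
    exact absurd rfl hne

/-- Counting the support of a collapsed cochain on the `k`-th cylinder. -/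
lemma card_collapse_le (hT : IsTower d D c ε m X π ℓ) {k : ℕ} (hk : k < m) (i : ℕ)
    (e : Finset ℕ → ZMod 2) (S : Finset (Finset ℕ))
    (hS : ∀ A ∈ S, Cyl X π ℓ d k A ∧ A.card = i + 1 ∧ pull (Psi X π m k) e A ≠ 0) :
    S.card ≤ mH d c * (supp (X k) i e).card := by
  apply card_le_mul_of_cover (fun β => (fib X π k β).powerset) (mH d c)
  · intro β hβ
    exact card_powerset_fib_le hT hk
      (card_le_of_pure (tw_pure hT hk.le) (mem_faces.mp (mem_supp.mp hβ).1).1)
  · intro A hA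
    obtain ⟨h, hc, hne⟩ := hS A hA
    obtain ⟨h1, h2⟩ := pull_Psi_cyl hT hk e h hne
    refine ⟨_, mem_supp.mpr ⟨mem_faces.mpr ⟨h.2.2.2, by rw [h1, hc]⟩, h2⟩,
      mem_powerset.mpr (h.sub_fib hT hk)⟩

/-- Counting the support of a pulled-back cochain. -/
lemma card_pull_le (hT : IsTower d D c ε m X π ℓ) {k : ℕ} (hk : k < m) (i : ℕ)
    (e : Finset ℕ → ZMod 2) :
    (supp (X (k + 1)) i (pull π e)).card ≤ mH d c * (supp (X k) i e).card := by
  apply card_collapse_le hT hk i e
  intro A hA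
  rw [mem_supp, mem_faces] at hA
  refine ⟨cyl_of_top hT hk hA.1.1, hA.1.2, ?_⟩
  rw [pull_Psi_of_top hT hk e hA.1.1]
  exact hA.2

open Classical in
/-- The support of a cochain on the faces of the `k`-th cylinder. -/
noncomputable def cylSupp (X : ℕ → Finset (Finset ℕ)) (π ℓ : ℕ → ℕ) (m d k i : ℕ)
    (E : Finset ℕ → ZMod 2) : Finset (Finset ℕ) :=
  (supp (tel X π ℓ m d) i E).filter (fun A => Cyl X π ℓ d k A)

lemma mem_cylSupp {k i : ℕ} {E : Finset ℕ → ZMod 2} {A : Finset ℕ} :
    A ∈ cylSupp X π ℓ m d k i E ↔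
      A ∈ supp (tel X π ℓ m d) i E ∧ Cyl X π ℓ d k A := by
  classical
  unfold cylSupp
  rw [mem_filter]

/-- Counting the support of the homotopy applied to a cochain. -/
lemma card_HH_le (hT : IsTower d D c ε m X π ℓ) {k : ℕ} (hk : k < m) (i : ℕ) (hi : i < d)
    (E : Finset ℕ → ZMod 2) (S : Finset (Finset ℕ))
    (hS : ∀ A ∈ S, Cyl X π ℓ d k A ∧ A.card = i + 1 ∧ HH X π m k E A ≠ 0) :
    S.card ≤ mH d c * (cylSupp X π ℓ m d k (i + 1) E).card := by
  apply card_le_mul_of_cover (fun β => (fib X π k β).powerset) (mH d c)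
  · intro β hβ
    rw [mem_cylSupp] at hβ
    exact card_powerset_fib_le hT hk hβ.2.1
  · intro A hA
    obtain ⟨h, hc, hne⟩ := hS A hA
    obtain ⟨ρ', hM', hc', hE', hback⟩ := Hm_local2 π d (Cyl X π ℓ d k)
      (fun v => ℓ v = k + 1) (fun ρ hρ s hs hsn => hρ.sub hT hk hs hsn) (Lk X m k)
      (fun v hv => by
        have := Lk_level hT hv
        exact ⟨this.2.1, by omega⟩)
      (fun ρ hρ v hv hvρ hcard =>
        hρ.insert_image hT hk.le hvρ (Lk_level hT hv).2.1 hcard)
      E A h (by omega) hne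
    refine ⟨ρ', ?_, ?_⟩
    · rw [mem_cylSupp, mem_supp, mem_faces]
      exact ⟨⟨⟨(mem_tel hT).mpr ⟨k, hk, hM'⟩, by rw [hc', hc]⟩, hE'⟩, hM'⟩
    · rw [mem_powerset]
      intro x hx
      unfold fib
      rw [mem_union]
      rcases hback x hx with h1 | h1
      · exact Or.inl h1
      · right
        rw [mem_filter]
        exact ⟨h.top_vert hT hk hx h1.1, h1.2⟩

/-- Counting the faces of the telescope that contain a face of a given family. -/
lemma card_star_cover (hT : IsTower d D c ε m X π ℓ) (S S' : Finset (Finset ℕ))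
    (hS' : ∀ σ ∈ S', σ.Nonempty)
    (hS : ∀ A ∈ S, A ∈ tel X π ℓ m d ∧ ∃ σ ∈ S', σ ⊆ A) :
    S.card ≤ Kf d D c * S'.card := by
  apply card_le_mul_of_cover (fun σ => (tel X π ℓ m d).filter (fun A => σ ⊆ A)) (Kf d D c)
  · intro σ hσ
    obtain ⟨y, hy⟩ := hS' σ hσ
    refine le_trans (card_le_card ?_) (tel_star_le hT y)
    intro A hA
    rw [mem_filter] at hA ⊢
    exact ⟨hA.1, hA.2 hy⟩
  · intro A hA
    obtain ⟨hAT, σ, hσ, hsub⟩ := hS A hA
    exact ⟨σ, hσ, mem_filter.mpr ⟨hAT, hsub⟩⟩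

end tower

end Vale.Agent.Lib.P067
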