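import Vale.Agent.Lib.P067.TelHom

namespace Vale.Agent.Lib.P067

open Finset

section generic

variable {V : Type*} [DecidableEq V]

omit [DecidableEq V] in
lemma supp_congr {X : Finset (Finset V)} {i : ℕ} {f g : Finset V → ZMod 2}
    (h : ∀ s ∈ faces X i, f s = g s) : supp X i f = supp X i g := by
  ext s
  rw [mem_supp, mem_supp]
  constructor
  · rintro ⟨hs, hne⟩
    exact ⟨hs, by rw [← h s hs]; exact hne⟩
  · rintro ⟨hs, hne⟩
    exact ⟨hs, by rw [h s hs]; exact hne⟩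

lemma supp_add_subset (X : Finset (Finset V)) (i : ℕ) (f g : Finset V → ZMod 2) :
    supp X i (f + g) ⊆ supp X i f ∪ supp X i g := by
  intro s hs
  rw [mem_supp] at hs
  rw [mem_union, mem_supp, mem_supp]
  by_cases hf : f s = 0
  · right
    refine ⟨hs.1, fun hg => hs.2 ?_⟩
    simp only [Pi.add_apply]
    rw [hf, hg, add_zero]
  · exact Or.inl ⟨hs.1, hf⟩

omit [DecidableEq V] in
lemma supp_subset_faces (X : Finset (Finset V)) (i : ℕ) (f : Finset V → ZMod 2) :
    supp X i f ⊆ faces X i := fun _ hs => (mem_supp.mp hs).1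

lemma cobdry_add (X : Finset (Finset V)) (i : ℕ) (f g : Finset V → ZMod 2) (t : Finset V) :
    cobdry X i (f + g) t = cobdry X i f t + cobdry X i g t := by
  unfold cobdry
  simp only [Pi.add_apply]
  exact sum_add_distrib

lemma isCocycle_iff {X : Finset (Finset V)}
    (hX : ∀ s ∈ X, s.Nonempty ∧ ∀ t, t ⊆ s → t.Nonempty → t ∈ X) {i : ℕ}
    {z : Finset V → ZMod 2} :
    IsCocycle X i z ↔ ∀ t ∈ faces X (i + 1), dsum z t = 0 := by
  unfold IsCocycle
  constructor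
  · intro h t ht
    rw [← cobdry_eq_dsum hX (mem_faces.mp ht).1 (mem_faces.mp ht).2 z]
    exact h t ht
  · intro h t ht
    rw [cobdry_eq_dsum hX (mem_faces.mp ht).1 (mem_faces.mp ht).2 z]
    exact h t ht

lemma isCocycle_add {X : Finset (Finset V)} {i : ℕ} {z w : Finset V → ZMod 2}
    (hz : IsCocycle X i z) (hw : IsCocycle X i w) : IsCocycle X i (z + w) := by
  intro t ht
  rw [cobdry_add, hz t ht, hw t ht, add_zero]

lemma isCocycle_dsum {X : Finset (Finset V)}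
    (hX : ∀ s ∈ X, s.Nonempty ∧ ∀ t, t ⊆ s → t.Nonempty → t ∈ X) (i : ℕ)
    (h : Finset V → ZMod 2) : IsCocycle X i (dsum h) := by
  rw [isCocycle_iff hX]
  intro t _
  rw [dsum_dsum]
  rfl

lemma isCobdry_add {X : Finset (Finset V)} {i : ℕ} {g1 g2 : Finset V → ZMod 2}
    (h1 : IsCobdry X i g1) (h2 : IsCobdry X i g2) : IsCobdry X i (g1 + g2) := by
  cases i with
  | zero =>
    obtain ⟨c1, hc1⟩ := h1
    obtain ⟨c2, hc2⟩ := h2
    refine ⟨c1 + c2, fun s hs => ?_⟩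
    simp only [Pi.add_apply]
    rw [hc1 s hs, hc2 s hs]
  | succ j =>
    obtain ⟨u1, hu1⟩ := h1
    obtain ⟨u2, hu2⟩ := h2
    refine ⟨u1 + u2, fun s hs => ?_⟩
    rw [cobdry_add]
    simp only [Pi.add_apply]
    rw [hu1 s hs, hu2 s hs]

lemma isCobdry_zero (X : Finset (Finset V)) (i : ℕ) : IsCobdry X i 0 := by
  cases i with
  | zero => exact ⟨0, fun _ _ => rfl⟩
  | succ j =>
    refine ⟨0, fun _ _ => ?_⟩
    unfold cobdry
    simp

lemma isCobdry_dsum_succ {X : Finset (Finset V)}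
    (hX : ∀ s ∈ X, s.Nonempty ∧ ∀ t, t ⊆ s → t.Nonempty → t ∈ X) (j : ℕ)
    (h : Finset V → ZMod 2) : IsCobdry X (j + 1) (dsum h) :=
  ⟨h, fun _ hs => (cobdry_eq_dsum hX (mem_faces.mp hs).1 (mem_faces.mp hs).2 h).symm⟩

end generic

section tower

variable {d D c : ℕ} {ε : ℝ} {m : ℕ} {X : ℕ → Finset (Finset ℕ)} {π ℓ : ℕ → ℕ}

/-- The number of faces in the `i`-support of `E` in the telescope that have a vertex
within level distance `r` of `k`. -/
noncomputable def Wr (X : ℕ → Finset (Finset ℕ)) (π ℓ : ℕ → ℕ) (m d i : ℕ)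
    (E : Finset ℕ → ZMod 2) (r k : ℕ) : ℕ :=
  ((supp (tel X π ℓ m d) i E).filter (fun A => ∃ x ∈ A, k ≤ ℓ x + r ∧ ℓ x ≤ k + r)).card

lemma supp_level_le (hT : IsTower d D c ε m X π ℓ) {j : ℕ} (hj : j ≤ m) (i : ℕ)
    (E : Finset ℕ → ZMod 2) {r k : ℕ} (h1 : k ≤ j + r) (h2 : j ≤ k + r) :
    (supp (X j) i E).card ≤ Wr X π ℓ m d i E r k := by
  apply card_le_card
  intro A hA
  rw [mem_supp, mem_faces] at hA
  rw [mem_filter, mem_supp, mem_faces]
  obtain ⟨x, hx⟩ := (tw_cx hT hj A hA.1.1).1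
  have := tw_level hT hj hA.1.1 hx
  exact ⟨⟨⟨mem_tel_of_level hT hj hA.1.1, hA.1.2⟩, hA.2⟩, x, hx, by omega, by omega⟩

lemma cylSupp_le (hT : IsTower d D c ε m X π ℓ) {j : ℕ} (hj : j < m) (i : ℕ)
    (E : Finset ℕ → ZMod 2) {r k : ℕ} (h1 : k ≤ j + r) (h2 : j + 1 ≤ k + r) :
    (cylSupp X π ℓ m d j i E).card ≤ Wr X π ℓ m d i E r k := by
  apply card_le_card
  intro A hA
  rw [mem_cylSupp] at hA
  rw [mem_filter]
  obtain ⟨x, hx⟩ := hA.2.nonempty hT hj.le
  refine ⟨hA.1, x, hx, ?_, ?_⟩ <;> rcases hA.2.2.1 x hx with h | h <;> omega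

lemma Wr_shift (i : ℕ) (E : Finset ℕ → ZMod 2) {r s k k' : ℕ} (h1 : k' ≤ k + s)
    (h2 : k ≤ k' + s) : Wr X π ℓ m d i E r k' ≤ Wr X π ℓ m d i E (r + s) k := by
  apply card_le_card
  intro A hA
  rw [mem_filter] at hA ⊢
  obtain ⟨hA1, x, hx, h3, h4⟩ := hA
  exact ⟨hA1, x, hx, by omega, by omega⟩

lemma Wr_sum (hT : IsTower d D c ε m X π ℓ) (i : ℕ) (E : Finset ℕ → ZMod 2) :
    ∑ k ∈ range (m + 1), Wr X π ℓ m d i E 2 k ≤ 6 * (supp (tel X π ℓ m d) i E).card := by
  have h := Finset.sum_card_bipartiteAbove_eq_sum_card_bipartiteBelow (s := range (m + 1))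
    (t := supp (tel X π ℓ m d) i E) (r := fun k A => ∃ x ∈ A, k ≤ ℓ x + 2 ∧ ℓ x ≤ k + 2)
  have h' : ∑ k ∈ range (m + 1), Wr X π ℓ m d i E 2 k
      = ∑ A ∈ supp (tel X π ℓ m d) i E,
        ((range (m + 1)).filter (fun k => ∃ x ∈ A, k ≤ ℓ x + 2 ∧ ℓ x ≤ k + 2)).card := h
  rw [h']
  have hb : ∀ A ∈ supp (tel X π ℓ m d) i E,
      ((range (m + 1)).filter (fun k => ∃ x ∈ A, k ≤ ℓ x + 2 ∧ ℓ x ≤ k + 2)).card ≤ 6 := by
    intro A hA
    obtain ⟨k0, hk0, hc⟩ := (mem_tel hT).mp (mem_faces.mp (mem_supp.mp hA).1).1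
    have hsub : (range (m + 1)).filter (fun k => ∃ x ∈ A, k ≤ ℓ x + 2 ∧ ℓ x ≤ k + 2)
        ⊆ Icc (k0 - 2) (k0 + 3) := by
      intro k hk
      rw [mem_filter] at hk
      obtain ⟨-, x, hx, h3, h4⟩ := hk
      rw [mem_Icc]
      rcases hc.2.1 x hx with h5 | h5 <;> constructor <;> omega
    refine (card_le_card hsub).trans ?_
    rw [Nat.card_Icc]
    omega
  calc ∑ A ∈ supp (tel X π ℓ m d) i E,
        ((range (m + 1)).filter (fun k => ∃ x ∈ A, k ≤ ℓ x + 2 ∧ ℓ x ≤ k + 2)).card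
      ≤ ∑ _A ∈ supp (tel X π ℓ m d) i E, 6 := sum_le_sum hb
    _ = 6 * (supp (tel X π ℓ m d) i E).card := by rw [sum_const, smul_eq_mul, mul_comm]

lemma isCocycle_pull (hT : IsTower d D c ε m X π ℓ) {k : ℕ} (hk : k < m) {i : ℕ}
    {z : Finset ℕ → ZMod 2} (hz : IsCocycle (X k) i z) :
    IsCocycle (X (k + 1)) i (pull π z) := by
  rw [isCocycle_iff (tw_cx hT (by omega : k + 1 ≤ m))]
  intro t ht
  rw [dsum_pull]
  unfold pull
  split_ifs with hc
  · apply (isCocycle_iff (tw_cx hT hk.le)).mp hz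
    rw [mem_faces] at ht ⊢
    exact ⟨tw_simp hT hk ht.1, by rw [hc]; exact ht.2⟩
  · rfl

lemma isCobdry_dsum_HH (hT : IsTower d D c ε m X π ℓ) {k : ℕ} (hk : k ≤ m) (k' i : ℕ)
    (F : Finset ℕ → ZMod 2) : IsCobdry (X k) i (dsum (HH X π m k' F)) := by
  cases i with
  | zero =>
    refine ⟨0, fun s hs => ?_⟩
    obtain ⟨v, rfl⟩ := card_eq_one.mp (mem_faces.mp hs).2
    unfold dsum
    rw [sum_singleton, erase_singleton]
    exact HH_of_disjoint F (fun x hx => absurd hx (notMem_empty x))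
  | succ j => exact isCobdry_dsum_succ (tw_cx hT hk) j _

lemma nearest (hT : IsTower d D c ε m X π ℓ) (hε : 0 < ε) {i : ℕ} (hi : i < d)
    (F : Finset ℕ → ZMod 2) {k : ℕ} (hk : k ≤ m) :
    ∃ z, IsCocycle (X k) i z ∧ ε * ((supp (X k) i (F + z)).card : ℝ)
      ≤ (D : ℝ) * (d + 1) * ((supp (X k) (i + 1) (dsum F)).card : ℝ) := by
  obtain ⟨z, hz, hle⟩ := (tw_cosys hT hk).1 i hi F
  refine ⟨z, hz, ?_⟩
  have h1 := count_of_expand (tw_pure hT hk) (tw_deg hT hk) hε hi (F - z) (cobdry (X k) i F) hle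
  have h2 : F - z = F + z := by
    funext s
    simp only [Pi.sub_apply, Pi.add_apply]
    exact CharTwo.sub_eq_add _ _
  have h3 : supp (X k) (i + 1) (cobdry (X k) i F) = supp (X k) (i + 1) (dsum F) :=
    supp_congr (fun s hs =>
      cobdry_eq_dsum (tw_cx hT hk) (mem_faces.mp hs).1 (mem_faces.mp hs).2 F)
  rw [h2, h3] at h1
  exact h1

/-- The expansion constant in counting form. -/
noncomputable def E0 (d D : ℕ) (ε : ℝ) : ℝ := (D : ℝ) * (d + 1) / ε

/-- The constant of a level whose nearest cocycle is not a coboundary. -/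
noncomputable def Cbad (d D c : ℕ) (ε : ℝ) : ℝ :=
  (D : ℝ) / ε * (E0 d D ε + mH d c * E0 d D ε + mH d c)

lemma E0_nonneg (d D : ℕ) {ε : ℝ} (hε : 0 < ε) : 0 ≤ E0 d D ε := by
  unfold E0
  positivity

lemma Cbad_nonneg (d D c : ℕ) {ε : ℝ} (hε : 0 < ε) : 0 ≤ Cbad d D c ε := by
  have := E0_nonneg d D hε
  unfold Cbad
  positivity

lemma le_E0_mul {ε a w : ℝ} {d D : ℕ} (hε : 0 < ε) (h : ε * a ≤ (D : ℝ) * (d + 1) * w) :
    a ≤ E0 d D ε * w := by
  unfold E0
  rw [div_mul_eq_mul_div, le_div_iff₀ hε]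
  linarith

/-- A level whose nearest cocycle is not a coboundary is paid for by the nearby errors. -/
lemma bad_level (hT : IsTower d D c ε m X π ℓ) (hε : 0 < ε) {i : ℕ} (hi : i < d)
    (F : Finset ℕ → ZMod 2) (z : ℕ → Finset ℕ → ZMod 2)
    (hz : ∀ k, k ≤ m → IsCocycle (X k) i (z k) ∧ ε * ((supp (X k) i (F + z k)).card : ℝ)
      ≤ (D : ℝ) * (d + 1) * ((supp (X k) (i + 1) (dsum F)).card : ℝ))
    {k : ℕ} (hk : k ≤ m) (hbad : ¬ IsCobdry (X k) i (z k)) :
    ((faces (X k) d).card : ℝ)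
      ≤ Cbad d D c ε * (Wr X π ℓ m d (i + 1) (dsum F) 1 k : ℝ) := by
  cases k with
  | zero => exact absurd (hT.2.2.2.2.2.2.2 i hi (z 0) (hz 0 hk).1) hbad
  | succ k' =>
    have hk' : k' < m := by omega
    set r : Finset ℕ → ZMod 2 := z (k' + 1) + pull π (z k') + dsum (HH X π m k' F) with hr
    have hr_coc : IsCocycle (X (k' + 1)) i r :=
      isCocycle_add (isCocycle_add (hz _ hk).1 (isCocycle_pull hT hk' (hz k' hk'.le).1))
        (isCocycle_dsum (tw_cx hT hk) i _)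
    have hr_ncob : ¬ IsCobdry (X (k' + 1)) i r := by
      intro hcob
      apply hbad
      have key : ∀ a b e : ZMod 2, a = (a + b + e) + b + e := by decide
      have hzr : z (k' + 1) = r + pull π (z k') + dsum (HH X π m k' F) := by
        funext s
        simp only [hr, Pi.add_apply]
        exact key _ _ _
      rw [hzr]
      exact isCobdry_add (isCobdry_add hcob
        (hT.2.2.2.2.2.2.1 k' hk' i hi (z k') (hz k' hk'.le).1)) (isCobdry_dsum_HH hT hk k' i F)
    have hsys := (tw_cosys hT hk).2 i hi r hr_coc hr_ncob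
    have hcount := count_of_systole (tw_pure hT hk) (tw_deg hT hk) hε hi.le r hsys
    have hsub : supp (X (k' + 1)) i r ⊆ supp (X (k' + 1)) i (F + z (k' + 1))
        ∪ supp (X (k' + 1)) i (pull π (F + z k'))
        ∪ (faces (X (k' + 1)) i).filter (fun ρ => HH X π m k' (dsum F) ρ ≠ 0) := by
      intro ρ hρ
      rw [mem_supp] at hρ
      have hrel := level_rel hT hk' F (mem_faces.mp hρ.1).1
      have key : ∀ a b p q x y : ZMod 2, a + b = p + q →
          x + y + p = (a + x) + (b + y) + q := by decide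
      have hval : r ρ = (F + z (k' + 1)) ρ + pull π (F + z k') ρ
          + HH X π m k' (dsum F) ρ := by
        rw [pull_add]
        simp only [hr, Pi.add_apply]
        exact key _ _ _ _ _ _ hrel
      rw [mem_union, mem_union, mem_supp, mem_supp, mem_filter]
      by_contra hcon
      push Not at hcon
      apply hρ.2
      rw [hval, hcon.1.1 hρ.1, hcon.1.2 hρ.1, hcon.2 hρ.1]
      rfl
    have hc2 := card_pull_le hT hk' i (F + z k')
    have hc3 := card_HH_le hT hk' i hi (dsum F)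
      ((faces (X (k' + 1)) i).filter (fun ρ => HH X π m k' (dsum F) ρ ≠ 0)) (by
        intro A hA
        rw [mem_filter, mem_faces] at hA
        exact ⟨cyl_of_top hT hk' hA.1.1, hA.1.2, hA.2⟩)
    have hw1 := supp_level_le hT hk (i + 1) (dsum F) (r := 1) (k := k' + 1) (by omega)
      (by omega)
    have hw2 := supp_level_le hT hk'.le (i + 1) (dsum F) (r := 1) (k := k' + 1) (by omega)
      (by omega)
    have hw3 := cylSupp_le hT hk' (i + 1) (dsum F) (r := 1) (k := k' + 1) (by omega)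
      (by omega)
    have hz1 := (hz _ hk).2
    have hz2 := (hz k' hk'.le).2
    have hcard : ((supp (X (k' + 1)) i r).card : ℝ)
        ≤ ((supp (X (k' + 1)) i (F + z (k' + 1))).card : ℝ)
          + ((supp (X (k' + 1)) i (pull π (F + z k'))).card : ℝ)
          + (((faces (X (k' + 1)) i).filter
              (fun ρ => HH X π m k' (dsum F) ρ ≠ 0)).card : ℝ) := by
      have h1 := (card_le_card hsub).trans (card_union_le _ _)
      have h2 := card_union_le (supp (X (k' + 1)) i (F + z (k' + 1)))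
        (supp (X (k' + 1)) i (pull π (F + z k')))
      exact_mod_cast h1.trans (Nat.add_le_add_right h2 _)
    set W : ℝ := (Wr X π ℓ m d (i + 1) (dsum F) 1 (k' + 1) : ℝ) with hW
    have hW0 : 0 ≤ W := Nat.cast_nonneg _
    have hE0 := E0_nonneg d D hε
    have hmH : (0 : ℝ) ≤ (mH d c : ℝ) := Nat.cast_nonneg _
    have hD0 : (0 : ℝ) ≤ (D : ℝ) := Nat.cast_nonneg _
    have hw1' : ((supp (X (k' + 1)) (i + 1) (dsum F)).card : ℝ) ≤ W := by
      rw [hW]
      exact_mod_cast hw1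
    have hw2' : ((supp (X k') (i + 1) (dsum F)).card : ℝ) ≤ W := by
      rw [hW]
      exact_mod_cast hw2
    have hw3' : ((cylSupp X π ℓ m d k' (i + 1) (dsum F)).card : ℝ) ≤ W := by
      rw [hW]
      exact_mod_cast hw3
    have hdp : (0 : ℝ) ≤ (D : ℝ) * (d + 1) := by positivity
    have hs1 : ((supp (X (k' + 1)) i (F + z (k' + 1))).card : ℝ) ≤ E0 d D ε * W :=
      le_E0_mul hε (hz1.trans (mul_le_mul_of_nonneg_left hw1' hdp))
    have ha' : ((supp (X k') i (F + z k')).card : ℝ) ≤ E0 d D ε * W :=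
      le_E0_mul hε (hz2.trans (mul_le_mul_of_nonneg_left hw2' hdp))
    have hs2 : ((supp (X (k' + 1)) i (pull π (F + z k'))).card : ℝ)
        ≤ mH d c * (E0 d D ε * W) := by
      have : ((supp (X (k' + 1)) i (pull π (F + z k'))).card : ℝ)
          ≤ (mH d c : ℝ) * ((supp (X k') i (F + z k')).card : ℝ) := by exact_mod_cast hc2
      exact this.trans (mul_le_mul_of_nonneg_left ha' hmH)
    have hs3 : (((faces (X (k' + 1)) i).filter
        (fun ρ => HH X π m k' (dsum F) ρ ≠ 0)).card : ℝ) ≤ mH d c * W := by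
      have : (((faces (X (k' + 1)) i).filter
          (fun ρ => HH X π m k' (dsum F) ρ ≠ 0)).card : ℝ)
          ≤ (mH d c : ℝ) * ((cylSupp X π ℓ m d k' (i + 1) (dsum F)).card : ℝ) := by
        exact_mod_cast hc3
      exact this.trans (mul_le_mul_of_nonneg_left hw3' hmH)
    have hfin : ε * ((faces (X (k' + 1)) d).card : ℝ)
        ≤ (D : ℝ) * ((E0 d D ε + mH d c * E0 d D ε + mH d c) * W) := by
      refine hcount.trans (mul_le_mul_of_nonneg_left ?_ hD0)
      linarith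
    have hfin2 : ((faces (X (k' + 1)) d).card : ℝ)
        ≤ (D : ℝ) * ((E0 d D ε + mH d c * E0 d D ε + mH d c) * W) / ε := by
      rw [le_div_iff₀ hε]
      linarith
    refine hfin2.trans (le_of_eq ?_)
    unfold Cbad
    ring

/-- The constant of the first stage. -/
noncomputable def C1 (d D c : ℕ) (ε : ℝ) : ℝ := E0 d D ε + 2 ^ (d + 1) * Cbad d D c ε

lemma C1_nonneg (d D c : ℕ) {ε : ℝ} (hε : 0 < ε) : 0 ≤ C1 d D c ε := by
  have := E0_nonneg d D hε
  have := Cbad_nonneg d D c hε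
  unfold C1
  positivity

/-- First stage: on every level the cochain is close to a coboundary of that level. -/
lemma stage1 (hT : IsTower d D c ε m X π ℓ) (hε : 0 < ε) {i : ℕ} (hi : i < d)
    (F : Finset ℕ → ZMod 2) :
    ∃ b : ℕ → Finset ℕ → ZMod 2, ∀ k, k ≤ m → IsCobdry (X k) i (b k) ∧
      ((supp (X k) i (F + b k)).card : ℝ)
        ≤ C1 d D c ε * (Wr X π ℓ m d (i + 1) (dsum F) 1 k : ℝ) := by
  classical
  have hex : ∀ k, ∃ z, k ≤ m → IsCocycle (X k) i z ∧ ε * ((supp (X k) i (F + z)).card : ℝ)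
      ≤ (D : ℝ) * (d + 1) * ((supp (X k) (i + 1) (dsum F)).card : ℝ) := by
    intro k
    by_cases hk : k ≤ m
    · obtain ⟨z, hz⟩ := nearest hT hε hi F hk
      exact ⟨z, fun _ => hz⟩
    · exact ⟨0, fun h => absurd h hk⟩
  choose z hz using hex
  refine ⟨fun k => if IsCobdry (X k) i (z k) then z k else 0, fun k hk => ?_⟩
  beta_reduce
  have hW0 : (0 : ℝ) ≤ (Wr X π ℓ m d (i + 1) (dsum F) 1 k : ℝ) := Nat.cast_nonneg _
  have hE0 := E0_nonneg d D hε
  have hCb := Cbad_nonneg d D c hε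
  by_cases hc : IsCobdry (X k) i (z k)
  · rw [if_pos hc]
    refine ⟨hc, ?_⟩
    have hw1 := supp_level_le hT hk (i + 1) (dsum F) (r := 1) (k := k) (by omega) (by omega)
    have hw1' : ((supp (X k) (i + 1) (dsum F)).card : ℝ)
        ≤ (Wr X π ℓ m d (i + 1) (dsum F) 1 k : ℝ) := by exact_mod_cast hw1
    have hdp : (0 : ℝ) ≤ (D : ℝ) * (d + 1) := by positivity
    have h1 := le_E0_mul hε ((hz k hk).2.trans (mul_le_mul_of_nonneg_left hw1' hdp))
    unfold C1
    nlinarith [mul_nonneg (mul_nonneg (pow_nonneg (by norm_num : (0 : ℝ) ≤ 2) (d + 1)) hCb) hW0]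
  · rw [if_neg hc]
    refine ⟨isCobdry_zero _ _, ?_⟩
    have hb := bad_level hT hε hi F z hz hk hc
    have h1 : (supp (X k) i (F + 0)).card ≤ 2 ^ (d + 1) * (faces (X k) d).card :=
      (card_le_card (supp_subset_faces _ _ _)).trans (card_faces_le (tw_pure hT hk) i)
    have h1' : ((supp (X k) i (F + 0)).card : ℝ)
        ≤ 2 ^ (d + 1) * ((faces (X k) d).card : ℝ) := by exact_mod_cast h1
    have h2 : (2 : ℝ) ^ (d + 1) * ((faces (X k) d).card : ℝ)
        ≤ 2 ^ (d + 1) * (Cbad d D c ε * (Wr X π ℓ m d (i + 1) (dsum F) 1 k : ℝ)) :=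
      mul_le_mul_of_nonneg_left hb (by positivity)
    unfold C1
    nlinarith [mul_nonneg hE0 hW0]

end tower

end Vale.Agent.Lib.P067
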