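import Vale.Agent.Lib.P067.TelZero

namespace Vale.Agent.Lib.P067

open Finset

/-- A coboundary expander is connected. -/
lemma connected_of_cobExp {Y : Finset (Finset ℕ)} {d : ℕ} {ε : ℝ} (hP : IsPureComplex Y d)
    (hd : 0 < d) (hε : 0 < ε) (h : IsCobExp Y d ε) : (graph Y).Connected := by
  classical
  have hcx := hP.2.1
  obtain ⟨s0, hs0⟩ := hP.1
  obtain ⟨v0, hv0⟩ := (hcx s0 hs0).1
  have hv0' : ({v0} : Finset ℕ) ∈ Y :=
    (hcx s0 hs0).2 _ (singleton_subset_iff.mpr hv0) (singleton_nonempty v0)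
  have hreach : ∀ a b : {v // {v} ∈ Y}, (graph Y).Reachable a b := by
    intro a b
    obtain ⟨F, hF⟩ : ∃ F : Finset ℕ → ZMod 2, ∀ s, F s =
        if ∃ v : {v // {v} ∈ Y}, s = {v.1} ∧ (graph Y).Reachable a v then 1 else 0 :=
      ⟨_, fun _ => rfl⟩
    obtain ⟨g, ⟨cst, hg⟩, hle⟩ := h 0 hd F
    have hcob : ∀ t ∈ faces Y (0 + 1), cobdry Y 0 F t = 0 := by
      intro t ht
      rw [cobdry_eq_dsum hcx (mem_faces.mp ht).1 (mem_faces.mp ht).2 F]
      obtain ⟨x, y, hxy, rfl⟩ := card_eq_two.mp (mem_faces.mp ht).2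
      have hx : ({x} : Finset ℕ) ∈ Y :=
        (hcx _ (mem_faces.mp ht).1).2 _ (by simp) (singleton_nonempty x)
      have hy : ({y} : Finset ℕ) ∈ Y :=
        (hcx _ (mem_faces.mp ht).1).2 _ (by simp) (singleton_nonempty y)
      have hadj : (graph Y).Adj ⟨x, hx⟩ ⟨y, hy⟩ :=
        ⟨fun h => hxy (congrArg Subtype.val h), (mem_faces.mp ht).1⟩
      have hiff : (∃ v : {v // {v} ∈ Y}, ({x} : Finset ℕ) = {v.1} ∧ (graph Y).Reachable a v)
          ↔ (∃ v : {v // {v} ∈ Y}, ({y} : Finset ℕ) = {v.1} ∧ (graph Y).Reachable a v) := by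
        constructor
        · rintro ⟨v, hv, hr⟩
          have hvx : v = ⟨x, hx⟩ := Subtype.ext (singleton_injective hv).symm
          rw [hvx] at hr
          exact ⟨⟨y, hy⟩, rfl, hr.trans hadj.reachable⟩
        · rintro ⟨v, hv, hr⟩
          have hvy : v = ⟨y, hy⟩ := Subtype.ext (singleton_injective hv).symm
          rw [hvy] at hr
          exact ⟨⟨x, hx⟩, rfl, hr.trans hadj.symm.reachable⟩
      have hFx : F {x} = F {y} := by
        rw [hF, hF]
        exact if_congr hiff rfl rfl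
      have e1 : ({x, y} : Finset ℕ).erase x = {y} := by
        ext z
        simp only [mem_erase, mem_insert, mem_singleton]
        constructor
        · rintro ⟨h1, h2 | h2⟩
          · exact absurd h2 h1
          · exact h2
        · intro h1
          exact ⟨fun h2 => hxy (h2.symm.trans h1), Or.inr h1⟩
      have e2 : ({x, y} : Finset ℕ).erase y = {x} := by
        ext z
        simp only [mem_erase, mem_insert, mem_singleton]
        constructor
        · rintro ⟨h1, h2 | h2⟩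
          · exact h2
          · exact absurd h2 h1
        · intro h1
          exact ⟨fun h2 => hxy (h1.symm.trans h2), Or.inl h1⟩
      unfold dsum
      rw [sum_pair hxy, e1, e2, hFx]
      exact CharTwo.add_self_eq_zero _
    have hnorm : norm Y d (0 + 1) (cobdry Y 0 F) = 0 := by
      unfold norm
      rw [filter_eq_empty_iff.mpr (fun t ht hne => hne (hcob t ht)), sum_empty]
    rw [hnorm] at hle
    have hn0 : norm Y d 0 (F - g) ≤ 0 := by
      by_contra hpos
      push Not at hpos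
      nlinarith
    have hsupp := card_supp_le hP (Nat.zero_le d) (F - g)
    have hempty : supp Y 0 (F - g) = ∅ := by
      rw [← card_eq_zero]
      have hpos : (0 : ℝ) ≤ ((d + 1).choose (0 + 1) : ℝ) * ((faces Y d).card : ℝ) := by
        positivity
      have h1 : ((supp Y 0 (F - g)).card : ℝ) ≤ 0 :=
        hsupp.trans (mul_nonpos_of_nonneg_of_nonpos hpos hn0)
      have h2 : (supp Y 0 (F - g)).card ≤ 0 := by exact_mod_cast h1
      omega
    have hFconst : ∀ v : {v // {v} ∈ Y}, F {v.1} = cst := by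
      intro v
      have hv : ({v.1} : Finset ℕ) ∈ faces Y 0 := mem_faces.mpr ⟨v.2, card_singleton _⟩
      by_contra hne
      have hmem : ({v.1} : Finset ℕ) ∈ supp Y 0 (F - g) := by
        rw [mem_supp]
        refine ⟨hv, ?_⟩
        simp only [Pi.sub_apply]
        rw [hg _ hv]
        exact sub_ne_zero.mpr hne
      rw [hempty] at hmem
      exact absurd hmem (notMem_empty _)
    have hFa : F {a.1} = 1 := by
      rw [hF, if_pos ⟨a, rfl, SimpleGraph.Reachable.refl a⟩]
    have hFb : F {b.1} = 1 := by rw [hFconst b, ← hFconst a, hFa]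
    rw [hF] at hFb
    by_contra hnr
    rw [if_neg] at hFb
    · exact zero_ne_one hFb
    · rintro ⟨v, hv, hr⟩
      have hvb : v = b := Subtype.ext (singleton_injective hv).symm
      rw [hvb] at hr
      exact hnr hr
  exact (SimpleGraph.connected_iff _).mpr ⟨hreach, ⟨⟨v0, hv0'⟩⟩⟩

section tower

variable {d D c : ℕ} {ε : ℝ} {m : ℕ} {X : ℕ → Finset (Finset ℕ)} {π ℓ : ℕ → ℕ}

/-- The total counting constant. -/
noncomputable def Ktot (d D c : ℕ) (ε : ℝ) : ℝ := K0 d D c ε + 6 * C3 d D c ε + 1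

lemma Ktot_pos (d D c : ℕ) {ε : ℝ} (hε : 0 < ε) : 0 < Ktot d D c ε := by
  have := K0_nonneg d D c hε
  have := C3_nonneg d D c hε
  unfold Ktot
  linarith

/-- The expansion constant of the telescope. -/
noncomputable def epsT (d D c : ℕ) (ε : ℝ) : ℝ :=
  1 / (((Kf d D c + 1 : ℕ) : ℝ) * Ktot d D c ε * (d + 1))

lemma epsT_pos (d D c : ℕ) {ε : ℝ} (hε : 0 < ε) : 0 < epsT d D c ε := by
  have := Ktot_pos d D c hε
  unfold epsT
  positivity

/-- The telescope of a tower is a coboundary expander. -/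
theorem tel_isCobExp (hT : IsTower d D c ε m X π ℓ) (hε : 0 < ε) :
    IsCobExp (tel X π ℓ m d) d (epsT d D c ε) := by
  intro i hi f
  have hP := tel_pure hT
  have hD : ∀ v, updeg (tel X π ℓ m d) d {v} ≤ Kf d D c + 1 :=
    fun v => (tel_deg hT v).trans (Nat.le_succ _)
  have hK := Ktot_pos d D c hε
  have hK0 := K0_nonneg d D c hε
  have hC3 := C3_nonneg d D c hε
  cases i with
  | zero =>
    obtain ⟨cst, h⟩ := expand_zero hT hε hi f
    refine ⟨fun _ => cst, ⟨cst, fun _ _ => rfl⟩, ?_⟩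
    unfold epsT
    apply expand_of_count hP hD hi _ _ (Ktot d D c ε) hK
    have h2 : (f - fun _ => cst) = f + fun _ => cst := by
      funext s
      simp only [Pi.sub_apply, Pi.add_apply]
      exact CharTwo.sub_eq_add _ _
    have h3 : supp (tel X π ℓ m d) (0 + 1) (cobdry (tel X π ℓ m d) 0 f)
        = supp (tel X π ℓ m d) (0 + 1) (dsum f) :=
      supp_congr (fun s hs =>
        cobdry_eq_dsum (tel_cx hT) (mem_faces.mp hs).1 (mem_faces.mp hs).2 f)
    rw [h2, h3]
    refine h.trans (mul_le_mul_of_nonneg_right ?_ (Nat.cast_nonneg _))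
    unfold Ktot
    linarith
  | succ j =>
    obtain ⟨G, h⟩ := expand_succ hT hε hi f
    refine ⟨cobdry (tel X π ℓ m d) j G, ⟨G, fun _ _ => rfl⟩, ?_⟩
    unfold epsT
    apply expand_of_count hP hD hi _ _ (Ktot d D c ε) hK
    have h2 : supp (tel X π ℓ m d) (j + 1) (f - cobdry (tel X π ℓ m d) j G)
        = supp (tel X π ℓ m d) (j + 1) (f + dsum G) := by
      apply supp_congr
      intro s hs
      simp only [Pi.sub_apply, Pi.add_apply]
      rw [cobdry_eq_dsum (tel_cx hT) (mem_faces.mp hs).1 (mem_faces.mp hs).2 G]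
      exact CharTwo.sub_eq_add _ _
    have h3 : supp (tel X π ℓ m d) (j + 1 + 1) (cobdry (tel X π ℓ m d) (j + 1) f)
        = supp (tel X π ℓ m d) (j + 1 + 1) (dsum f) :=
      supp_congr (fun s hs =>
        cobdry_eq_dsum (tel_cx hT) (mem_faces.mp hs).1 (mem_faces.mp hs).2 f)
    rw [h2, h3]
    refine h.trans (mul_le_mul_of_nonneg_right ?_ (Nat.cast_nonneg _))
    unfold Ktot
    linarith

end tower

/-- Towers of cosystolic expanders with cohomology-killing maps give bounded-degree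
coboundary expanders. -/
theorem good_of_towers {d : ℕ} (hd : 1 ≤ d)
    (h : ∃ D c : ℕ, ∃ ε : ℝ, 0 < ε ∧ ∀ N : ℕ, ∃ (m : ℕ) (X : ℕ → Finset (Finset ℕ))
      (π ℓ : ℕ → ℕ), IsTower d D c ε m X π ℓ ∧ N ≤ (faces (X m) 0).card) : Good d := by
  obtain ⟨D, c, ε, hε, hN⟩ := h
  refine ⟨Kf d D c + 1, epsT d D c ε, epsT_pos d D c hε, fun N => ?_⟩
  obtain ⟨m, X, π, ℓ, hT, hcard⟩ := hN N
  have hexp := tel_isCobExp hT hε
  refine ⟨tel X π ℓ m d, tel_pure hT,
    connected_of_cobExp (tel_pure hT) hd (epsT_pos d D c hε) hexp, ?_,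
    fun v => (tel_deg hT v).trans (Nat.le_succ _), hexp⟩
  refine hcard.trans (card_le_card ?_)
  intro s hs
  rw [mem_faces] at hs ⊢
  exact ⟨mem_tel_of_level hT (le_refl m) hs.1, hs.2⟩

/-- Uniform form: the telescope of any tower is a bounded-degree coboundary expander, with
constants depending only on the parameters of the tower. -/
theorem tel_uniform (d : ℕ) (hd : 1 ≤ d) (D c : ℕ) (ε : ℝ) (hε : 0 < ε) :
    ∃ D' : ℕ, ∃ ε' : ℝ, 0 < ε' ∧ ∀ (m : ℕ) (X : ℕ → Finset (Finset ℕ)) (π ℓ : ℕ → ℕ),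
      IsTower d D c ε m X π ℓ → ∃ T : Finset (Finset ℕ),
        IsPureComplex T d ∧ (graph T).Connected ∧ (∀ k, k ≤ m → X k ⊆ T) ∧
          (faces T 0).card ≤ 2 * (faces (X m) 0).card ∧
          (∀ v : ℕ, updeg T d {v} ≤ D') ∧ IsCobExp T d ε' := by
  refine ⟨Kf d D c + 1, epsT d D c ε, epsT_pos d D c hε, fun m X π ℓ hT => ?_⟩
  have hexp := tel_isCobExp hT hε
  refine ⟨tel X π ℓ m d, tel_pure hT,
    connected_of_cobExp (tel_pure hT) hd (epsT_pos d D c hε) hexp,
    fun k hk s hs => mem_tel_of_level hT hk hs, ?_,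
    fun v => (tel_deg hT v).trans (Nat.le_succ _), hexp⟩
  have hsub : faces (tel X π ℓ m d) 0 ⊆ (range (m + 1)).biUnion (fun k => faces (X k) 0) := by
    intro s hs
    obtain ⟨k, hk, hsk⟩ := tel_vertex hT hs
    rw [mem_biUnion]
    exact ⟨k, mem_range.mpr (by omega), hsk⟩
  exact ((card_le_card hsub).trans card_biUnion_le).trans (growth_sum hT m (le_refl m))

end Vale.Agent.Lib.P067
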