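import Vale.Agent.Lib.P067.TelLevel

namespace Vale.Agent.Lib.P067

open Finset

section tower

variable {d D c : ℕ} {ε : ℝ} {m : ℕ} {X : ℕ → Finset (Finset ℕ)} {π ℓ : ℕ → ℕ}

lemma isCocycle_zero (Y : Finset (Finset ℕ)) (i : ℕ) : IsCocycle Y i 0 := by
  intro t _
  unfold cobdry
  simp

/-- The accumulated correction cocycles. -/
def zeta (cc : ℕ → Finset ℕ → ZMod 2) (π : ℕ → ℕ) : ℕ → Finset ℕ → ZMod 2
  | 0 => 0
  | (k + 1) => cc k + pull π (zeta cc π k)

lemma zeta_cocycle (hT : IsTower d D c ε m X π ℓ) (j : ℕ) (cc : ℕ → Finset ℕ → ZMod 2)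
    (hcc : ∀ k, k < m → IsCocycle (X (k + 1)) j (cc k)) :
    ∀ k, k ≤ m → IsCocycle (X k) j (zeta cc π k) := by
  intro k
  induction k with
  | zero =>
    intro _
    exact isCocycle_zero _ _
  | succ k ih =>
    intro hk
    exact isCocycle_add (hcc k (by omega)) (isCocycle_pull hT (by omega) (ih (by omega)))

/-- The constant of the second stage. -/
noncomputable def C2 (d D c : ℕ) (ε : ℝ) : ℝ :=
  E0 d D ε * (C1 d D c ε + mH d c * C1 d D c ε + mH d c)

lemma C2_nonneg (d D c : ℕ) {ε : ℝ} (hε : 0 < ε) : 0 ≤ C2 d D c ε := by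
  have := E0_nonneg d D hε
  have := C1_nonneg d D c hε
  unfold C2
  positivity

/-- The error of the level relation: for a cochain `e` of the two levels. -/
lemma rel_count (hT : IsTower d D c ε m X π ℓ) (hε : 0 < ε) {i : ℕ} (hi : i < d)
    (F : Finset ℕ → ZMod 2) {k : ℕ} (hk : k < m) (e0 e1 : Finset ℕ → ZMod 2)
    (h0 : ((supp (X k) i e0).card : ℝ)
      ≤ C1 d D c ε * (Wr X π ℓ m d (i + 1) (dsum F) 1 k : ℝ))
    (h1 : ((supp (X (k + 1)) i e1).card : ℝ)
      ≤ C1 d D c ε * (Wr X π ℓ m d (i + 1) (dsum F) 1 (k + 1) : ℝ))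
    (S : Finset (Finset ℕ))
    (hS : ∀ ρ ∈ S, ρ ∈ faces (X (k + 1)) i ∧
      (e1 ρ + pull π e0 ρ + HH X π m k (dsum F) ρ ≠ 0)) :
    (S.card : ℝ) ≤ (C1 d D c ε + mH d c * C1 d D c ε + mH d c)
      * (Wr X π ℓ m d (i + 1) (dsum F) 2 k : ℝ) := by
  classical
  have hsub : S ⊆ supp (X (k + 1)) i e1 ∪ supp (X (k + 1)) i (pull π e0)
      ∪ (faces (X (k + 1)) i).filter (fun ρ => HH X π m k (dsum F) ρ ≠ 0) := by
    intro ρ hρ
    obtain ⟨hf, hne⟩ := hS ρ hρ
    rw [mem_union, mem_union, mem_supp, mem_supp, mem_filter]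
    by_contra hcon
    push Not at hcon
    apply hne
    rw [hcon.1.1 hf, hcon.1.2 hf, hcon.2 hf]
    rfl
  have hc2 := card_pull_le hT hk i e0
  have hc3 := card_HH_le hT hk i hi (dsum F)
    ((faces (X (k + 1)) i).filter (fun ρ => HH X π m k (dsum F) ρ ≠ 0)) (by
      intro A hA
      rw [mem_filter, mem_faces] at hA
      exact ⟨cyl_of_top hT hk hA.1.1, hA.1.2, hA.2⟩)
  have hw1 : Wr X π ℓ m d (i + 1) (dsum F) 1 (k + 1) ≤ Wr X π ℓ m d (i + 1) (dsum F) 2 k :=
    Wr_shift (r := 1) (s := 1) (i + 1) (dsum F) (by omega) (by omega)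
  have hw2 : Wr X π ℓ m d (i + 1) (dsum F) 1 k ≤ Wr X π ℓ m d (i + 1) (dsum F) 2 k :=
    Wr_shift (r := 1) (s := 1) (i + 1) (dsum F) (by omega) (by omega)
  have hw3 := cylSupp_le hT hk (i + 1) (dsum F) (r := 2) (k := k) (by omega) (by omega)
  have hcard : (S.card : ℝ)
      ≤ ((supp (X (k + 1)) i e1).card : ℝ) + ((supp (X (k + 1)) i (pull π e0)).card : ℝ)
        + (((faces (X (k + 1)) i).filter
            (fun ρ => HH X π m k (dsum F) ρ ≠ 0)).card : ℝ) := by
    have h1 := (card_le_card hsub).trans (card_union_le _ _)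
    have h2 := card_union_le (supp (X (k + 1)) i e1) (supp (X (k + 1)) i (pull π e0))
    exact_mod_cast h1.trans (Nat.add_le_add_right h2 _)
  have hC1 := C1_nonneg d D c hε
  have hmH : (0 : ℝ) ≤ (mH d c : ℝ) := Nat.cast_nonneg _
  have hw1' : (Wr X π ℓ m d (i + 1) (dsum F) 1 (k + 1) : ℝ)
      ≤ (Wr X π ℓ m d (i + 1) (dsum F) 2 k : ℝ) := by exact_mod_cast hw1
  have hw2' : (Wr X π ℓ m d (i + 1) (dsum F) 1 k : ℝ)
      ≤ (Wr X π ℓ m d (i + 1) (dsum F) 2 k : ℝ) := by exact_mod_cast hw2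
  have hw3' : ((cylSupp X π ℓ m d k (i + 1) (dsum F)).card : ℝ)
      ≤ (Wr X π ℓ m d (i + 1) (dsum F) 2 k : ℝ) := by exact_mod_cast hw3
  have hs1 := h1.trans (mul_le_mul_of_nonneg_left hw1' hC1)
  have hs0 := h0.trans (mul_le_mul_of_nonneg_left hw2' hC1)
  have hs2 : ((supp (X (k + 1)) i (pull π e0)).card : ℝ)
      ≤ mH d c * (C1 d D c ε * (Wr X π ℓ m d (i + 1) (dsum F) 2 k : ℝ)) := by
    have : ((supp (X (k + 1)) i (pull π e0)).card : ℝ)
        ≤ (mH d c : ℝ) * ((supp (X k) i e0).card : ℝ) := by exact_mod_cast hc2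
    exact this.trans (mul_le_mul_of_nonneg_left hs0 hmH)
  have hs3 : (((faces (X (k + 1)) i).filter
      (fun ρ => HH X π m k (dsum F) ρ ≠ 0)).card : ℝ)
      ≤ mH d c * (Wr X π ℓ m d (i + 1) (dsum F) 2 k : ℝ) := by
    have : (((faces (X (k + 1)) i).filter
        (fun ρ => HH X π m k (dsum F) ρ ≠ 0)).card : ℝ)
        ≤ (mH d c : ℝ) * ((cylSupp X π ℓ m d k (i + 1) (dsum F)).card : ℝ) := by
      exact_mod_cast hc3
    exact this.trans (mul_le_mul_of_nonneg_left hw3' hmH)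
  linarith

/-- Second and third stage: compatible primitives on all levels. -/
lemma levels (hT : IsTower d D c ε m X π ℓ) (hε : 0 < ε) {j : ℕ} (hj : j + 1 < d)
    (F : Finset ℕ → ZMod 2) :
    ∃ u : ℕ → Finset ℕ → ZMod 2,
      (∀ k, k ≤ m → ((supp (X k) (j + 1) (F + dsum (u k))).card : ℝ)
        ≤ C1 d D c ε * (Wr X π ℓ m d (j + 1 + 1) (dsum F) 1 k : ℝ)) ∧
      (∀ k, k < m →
        ((supp (X (k + 1)) j (u (k + 1) + HH X π m k F + pull π (u k))).card : ℝ)
          ≤ C2 d D c ε * (Wr X π ℓ m d (j + 1 + 1) (dsum F) 2 k : ℝ)) := by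
  obtain ⟨b, hb⟩ := stage1 hT hε hj F
  have hex0 : ∀ k, ∃ h : Finset ℕ → ZMod 2, k ≤ m →
      ∀ s ∈ faces (X k) (j + 1), b k s = dsum h s := by
    intro k
    by_cases hk : k ≤ m
    · obtain ⟨h, hh⟩ := (hb k hk).1
      refine ⟨h, fun _ s hs => ?_⟩
      rw [hh s hs]
      exact cobdry_eq_dsum (tw_cx hT hk) (mem_faces.mp hs).1 (mem_faces.mp hs).2 h
    · exact ⟨0, fun h => absurd h hk⟩
  choose u0 hu0 using hex0
  have he : ∀ k, k ≤ m →
      supp (X k) (j + 1) (F + dsum (u0 k)) = supp (X k) (j + 1) (F + b k) := by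
    intro k hk
    apply supp_congr
    intro s hs
    simp only [Pi.add_apply]
    rw [hu0 k hk s hs]
  obtain ⟨c', hc'⟩ : ∃ c' : ℕ → Finset ℕ → ZMod 2,
      ∀ k, c' k = u0 (k + 1) + HH X π m k F + pull π (u0 k) := ⟨_, fun _ => rfl⟩
  have hex1 : ∀ k, ∃ cc : Finset ℕ → ZMod 2, k < m → IsCocycle (X (k + 1)) j cc ∧
      ε * ((supp (X (k + 1)) j (c' k + cc)).card : ℝ)
        ≤ (D : ℝ) * (d + 1) * ((supp (X (k + 1)) (j + 1) (dsum (c' k))).card : ℝ) := by
    intro k
    by_cases hk : k < m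
    · obtain ⟨cc, hcc⟩ := nearest hT hε (by omega : j < d) (c' k) (by omega : k + 1 ≤ m)
      exact ⟨cc, fun _ => hcc⟩
    · exact ⟨0, fun h => absurd h hk⟩
  choose cc hcc using hex1
  have hζ := zeta_cocycle hT j cc (fun k hk => (hcc k hk).1)
  refine ⟨fun k => u0 k + zeta cc π k, ?_, ?_⟩
  · intro k hk
    have h1 : supp (X k) (j + 1) (F + dsum (u0 k + zeta cc π k))
        = supp (X k) (j + 1) (F + b k) := by
      rw [← he k hk]
      apply supp_congr
      intro s hs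
      rw [dsum_add]
      simp only [Pi.add_apply]
      rw [(isCocycle_iff (tw_cx hT hk)).mp (hζ k hk) s hs, add_zero]
    rw [h1]
    exact (hb k hk).2
  · intro k hk
    have key : ∀ a q p h u : ZMod 2, (a + (q + p)) + h + (u + p) = (a + h + u) + q := by
      decide
    have h1 : supp (X (k + 1)) j
        (u0 (k + 1) + zeta cc π (k + 1) + HH X π m k F + pull π (u0 k + zeta cc π k))
        = supp (X (k + 1)) j (c' k + cc k) := by
      apply supp_congr
      intro s _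
      rw [pull_add, hc' k]
      simp only [zeta, Pi.add_apply]
      exact key _ _ _ _ _
    rw [h1]
    have hcount := rel_count hT hε hj F hk (F + dsum (u0 k)) (F + dsum (u0 (k + 1)))
      (by rw [he k hk.le]; exact (hb k hk.le).2)
      (by rw [he (k + 1) (by omega)]; exact (hb (k + 1) (by omega)).2)
      (supp (X (k + 1)) (j + 1) (dsum (c' k))) (by
        intro ρ hρ
        rw [mem_supp] at hρ
        refine ⟨hρ.1, ?_⟩
        have hrel := level_rel hT hk F (mem_faces.mp hρ.1).1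
        have key2 : ∀ a b p q x y : ZMod 2, a + b = p + q →
            x + p + y = (a + x) + (b + y) + q := by decide
        have hval : dsum (c' k) ρ = (F + dsum (u0 (k + 1))) ρ + pull π (F + dsum (u0 k)) ρ
            + HH X π m k (dsum F) ρ := by
          rw [hc' k, dsum_add, dsum_add, dsum_pull, pull_add]
          simp only [Pi.add_apply]
          exact key2 _ _ _ _ _ _ hrel
        rw [← hval]
        exact hρ.2)
    have h2 := le_E0_mul hε ((hcc k hk).2.trans (mul_le_mul_of_nonneg_left hcount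
      (by positivity : (0 : ℝ) ≤ (D : ℝ) * (d + 1))))
    refine h2.trans (le_of_eq ?_)
    unfold C2
    ring

end tower

end Vale.Agent.Lib.P067
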