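import Vale.Agent.Lib.P067.TelGlue

namespace Vale.Agent.Lib.P067

open Finset

section tower

variable {d D c : ℕ} {ε : ℝ} {m : ℕ} {X : ℕ → Finset (Finset ℕ)} {π ℓ : ℕ → ℕ}

/-- The partial sums of the vertex numbers are dominated by the last term. -/
lemma growth_sum (hT : IsTower d D c ε m X π ℓ) :
    ∀ K, K ≤ m → ∑ j ∈ range (K + 1), (faces (X j) 0).card ≤ 2 * (faces (X K) 0).card := by
  intro K
  induction K with
  | zero =>
    intro _
    rw [sum_range_one]
    omega
  | succ K ih =>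
    intro hK
    rw [sum_range_succ]
    have h1 := ih (by omega)
    have h2 := hT.2.2.2.2.2.1 K (by omega)
    omega

/-- Every vertex of the telescope is a vertex of some level. -/
lemma tel_vertex (hT : IsTower d D c ε m X π ℓ) {s : Finset ℕ}
    (hs : s ∈ faces (tel X π ℓ m d) 0) : ∃ k, k ≤ m ∧ s ∈ faces (X k) 0 := by
  rw [mem_faces] at hs
  obtain ⟨k0, hk0, hcyl⟩ := (mem_tel hT).mp hs.1
  obtain ⟨v, rfl⟩ := card_eq_one.mp hs.2
  rcases hcyl.2.1 v (mem_singleton_self v) with h | h
  · refine ⟨k0, hk0.le, mem_faces.mpr ⟨hcyl.mem_bot ?_, hs.2⟩⟩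
    intro x hx
    rw [mem_singleton.mp hx]
    exact h
  · refine ⟨k0 + 1, by omega, mem_faces.mpr ⟨hcyl.mem_top hT hk0.le ?_, hs.2⟩⟩
    intro x hx
    rw [mem_singleton.mp hx]
    exact h

/-- The last level at which the constants change. -/
lemma last_jump (u : ℕ → ZMod 2) (m : ℕ) :
    (∀ k, k ≤ m → u k = u m) ∨
      ∃ ks, ks < m ∧ u ks ≠ u (ks + 1) ∧ ∀ k, ks < k → k ≤ m → u k = u m := by
  have key : ∀ t, t ≤ m → ((∀ k, m - t ≤ k → k ≤ m → u k = u m) ∨
      ∃ ks, m - t ≤ ks ∧ ks < m ∧ u ks ≠ u (ks + 1) ∧ ∀ k, ks < k → k ≤ m → u k = u m) := by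
    intro t
    induction t with
    | zero =>
      intro _
      left
      intro k hk1 hk2
      have : k = m := by omega
      rw [this]
    | succ t ih =>
      intro ht
      rcases ih (by omega) with h | ⟨ks, h1, h2, h3, h4⟩
      · by_cases hu : u (m - (t + 1)) = u m
        · left
          intro k hk1 hk2
          by_cases hk : k = m - (t + 1)
          · rw [hk, hu]
          · exact h k (by omega) hk2
        · right
          refine ⟨m - (t + 1), le_refl _, by omega, ?_, ?_⟩
          · have : m - (t + 1) + 1 = m - t := by omega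
            rw [this, h (m - t) (le_refl _) (by omega)]
            exact hu
          · intro k hk1 hk2
            exact h k (by omega) hk2
      · right
        exact ⟨ks, by omega, h2, h3, h4⟩
  rcases key m (le_refl m) with h | ⟨ks, -, h2, h3, h4⟩
  · left
    intro k hk
    exact h k (by omega) hk
  · right
    exact ⟨ks, h2, h3, h4⟩

/-- The constant of the degree zero case. -/
noncomputable def K0 (d D c : ℕ) (ε : ℝ) : ℝ :=
  6 * (2 * C1 d D c ε + mH d c * C1 d D c ε + mH d c)

lemma K0_nonneg (d D c : ℕ) {ε : ℝ} (hε : 0 < ε) : 0 ≤ K0 d D c ε := by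
  have := C1_nonneg d D c hε
  unfold K0
  positivity

/-- Counting form of coboundary expansion of the telescope in degree zero. -/
theorem expand_zero (hT : IsTower d D c ε m X π ℓ) (hε : 0 < ε) (hd : 0 < d)
    (F : Finset ℕ → ZMod 2) :
    ∃ cst : ZMod 2, ((supp (tel X π ℓ m d) 0 (F + fun _ => cst)).card : ℝ)
      ≤ K0 d D c ε * ((supp (tel X π ℓ m d) (0 + 1) (dsum F)).card : ℝ) := by
  obtain ⟨b, hb⟩ := stage1 hT hε hd F
  have hex : ∀ k, ∃ cst : ZMod 2, k ≤ m → ∀ s ∈ faces (X k) 0, b k s = cst := by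
    intro k
    by_cases hk : k ≤ m
    · obtain ⟨cst, hc⟩ := (hb k hk).1
      exact ⟨cst, fun _ => hc⟩
    · exact ⟨0, fun h => absurd h hk⟩
  choose u hu using hex
  have hC1 := C1_nonneg d D c hε
  have hmH : (0 : ℝ) ≤ (mH d c : ℝ) := Nat.cast_nonneg _
  set T := tel X π ℓ m d with hTdef
  set Wtot : ℝ := ((supp T (0 + 1) (dsum F)).card : ℝ) with hWtot
  have hWsum : ∑ k ∈ range (m + 1), (Wr X π ℓ m d (0 + 1) (dsum F) 2 k : ℝ) ≤ 6 * Wtot := by
    have := Wr_sum hT (0 + 1) (dsum F)
    rw [hWtot]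
    exact_mod_cast this
  have hWk : ∀ k, k ≤ m → (Wr X π ℓ m d (0 + 1) (dsum F) 2 k : ℝ) ≤ 6 * Wtot := by
    intro k hk
    refine le_trans ?_ hWsum
    exact single_le_sum (f := fun k => (Wr X π ℓ m d (0 + 1) (dsum F) 2 k : ℝ))
      (fun _ _ => Nat.cast_nonneg _) (mem_range.mpr (by omega))
  -- the sum of the level errors
  have hsum2 : ((∑ k ∈ range (m + 1), (supp (X k) 0 (F + b k)).card : ℕ) : ℝ)
      ≤ C1 d D c ε * (6 * Wtot) := by
    rw [Nat.cast_sum]
    calc ∑ k ∈ range (m + 1), ((supp (X k) 0 (F + b k)).card : ℝ)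
        ≤ ∑ k ∈ range (m + 1),
          C1 d D c ε * (Wr X π ℓ m d (0 + 1) (dsum F) 2 k : ℝ) := by
          apply sum_le_sum
          intro k hk
          have h1 := (hb k (by have := mem_range.mp hk; omega)).2
          have hw : Wr X π ℓ m d (0 + 1) (dsum F) 1 k
              ≤ Wr X π ℓ m d (0 + 1) (dsum F) 2 k :=
            Wr_shift (r := 1) (s := 1) (0 + 1) (dsum F) (by omega) (by omega)
          have hw' : (Wr X π ℓ m d (0 + 1) (dsum F) 1 k : ℝ)
              ≤ (Wr X π ℓ m d (0 + 1) (dsum F) 2 k : ℝ) := by exact_mod_cast hw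
          exact h1.trans (mul_le_mul_of_nonneg_left hw' hC1)
      _ = C1 d D c ε * ∑ k ∈ range (m + 1),
          (Wr X π ℓ m d (0 + 1) (dsum F) 2 k : ℝ) := by rw [mul_sum]
      _ ≤ C1 d D c ε * (6 * Wtot) := mul_le_mul_of_nonneg_left hWsum hC1
  -- a change of the constants is paid for by the errors
  have hjump : ∀ k, k < m → u k ≠ u (k + 1) →
      ((faces (X (k + 1)) 0).card : ℝ)
        ≤ (C1 d D c ε + mH d c * C1 d D c ε + mH d c)
          * (Wr X π ℓ m d (0 + 1) (dsum F) 2 k : ℝ) := by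
    intro k hk hne
    apply rel_count hT hε hd F hk (F + b k) (F + b (k + 1)) (hb k hk.le).2
      (hb (k + 1) (by omega)).2
    intro ρ hρ
    refine ⟨hρ, ?_⟩
    have hρ' := mem_faces.mp hρ
    obtain ⟨v, rfl⟩ := card_eq_one.mp hρ'.2
    have hrel := level_rel hT hk F hρ'.1
    have hd0 : dsum (HH X π m k F) {v} = 0 := by
      unfold dsum
      rw [sum_singleton, erase_singleton]
      exact HH_of_disjoint F (fun x hx => absurd hx (notMem_empty x))
    rw [hd0] at hrel
    have himg : ({v} : Finset ℕ).image π = {π v} := image_singleton π v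
    have hπv : ({π v} : Finset ℕ) ∈ faces (X k) 0 := by
      rw [mem_faces]
      refine ⟨?_, card_singleton _⟩
      rw [← himg]
      exact tw_simp hT hk hρ'.1
    have hpb : pull π (b k) {v} = u k := by
      unfold pull
      rw [himg, card_singleton, card_singleton, if_pos rfl]
      exact hu k hk.le _ hπv
    have hb1 : b (k + 1) {v} = u (k + 1) := hu (k + 1) (by omega) _ hρ
    rw [pull_add]
    simp only [Pi.add_apply]
    rw [hpb, hb1]
    have key : ∀ f pf h uk uk1 : ZMod 2, f + pf = 0 + h → uk ≠ uk1 →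
        (f + uk1) + (pf + uk) + h ≠ 0 := by decide
    exact key _ _ _ _ _ hrel hne
  refine ⟨u m, ?_⟩
  have hlevel : ∀ s ∈ supp T 0 (F + fun _ => u m), ∀ k, k ≤ m → s ∈ faces (X k) 0 →
      u k = u m → s ∈ supp (X k) 0 (F + b k) := by
    intro s hs k hk hsk huk
    rw [mem_supp] at hs ⊢
    refine ⟨hsk, ?_⟩
    have := hs.2
    simp only [Pi.add_apply] at this ⊢
    rw [hu k hk s hsk, huk]
    exact this
  rcases last_jump u m with hall | ⟨ks, hks, hne, hafter⟩
  · have hsub : supp T 0 (F + fun _ => u m)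
        ⊆ (range (m + 1)).biUnion (fun k => supp (X k) 0 (F + b k)) := by
      intro s hs
      obtain ⟨k, hk, hsk⟩ := tel_vertex hT (mem_supp.mp hs).1
      rw [mem_biUnion]
      exact ⟨k, mem_range.mpr (by omega), hlevel s hs k hk hsk (hall k hk)⟩
    have h1 : (supp T 0 (F + fun _ => u m)).card
        ≤ ∑ k ∈ range (m + 1), (supp (X k) 0 (F + b k)).card :=
      (card_le_card hsub).trans card_biUnion_le
    have h1' : ((supp T 0 (F + fun _ => u m)).card : ℝ)
        ≤ ((∑ k ∈ range (m + 1), (supp (X k) 0 (F + b k)).card : ℕ) : ℝ) := by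
      exact_mod_cast h1
    have hW0 : 0 ≤ Wtot := Nat.cast_nonneg _
    unfold K0
    nlinarith [mul_nonneg hC1 hW0, mul_nonneg (mul_nonneg hmH hC1) hW0, mul_nonneg hmH hW0]
  · have hsub : supp T 0 (F + fun _ => u m)
        ⊆ (range (ks + 1)).biUnion (fun k => faces (X k) 0)
          ∪ (range (m + 1)).biUnion (fun k => supp (X k) 0 (F + b k)) := by
      intro s hs
      obtain ⟨k, hk, hsk⟩ := tel_vertex hT (mem_supp.mp hs).1
      rw [mem_union, mem_biUnion, mem_biUnion]
      by_cases hkk : k ≤ ks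
      · exact Or.inl ⟨k, mem_range.mpr (by omega), hsk⟩
      · exact Or.inr ⟨k, mem_range.mpr (by omega),
          hlevel s hs k hk hsk (hafter k (by omega) hk)⟩
    have h1 : (supp T 0 (F + fun _ => u m)).card
        ≤ ∑ k ∈ range (ks + 1), (faces (X k) 0).card
          + ∑ k ∈ range (m + 1), (supp (X k) 0 (F + b k)).card :=
      (card_le_card hsub).trans ((card_union_le _ _).trans
        (Nat.add_le_add card_biUnion_le card_biUnion_le))
    have h2 := growth_sum hT ks hks.le
    have h3 := hT.2.2.2.2.2.1 ks hks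
    have h4 : (supp T 0 (F + fun _ => u m)).card
        ≤ (faces (X (ks + 1)) 0).card
          + ∑ k ∈ range (m + 1), (supp (X k) 0 (F + b k)).card := by omega
    have h4' : ((supp T 0 (F + fun _ => u m)).card : ℝ)
        ≤ ((faces (X (ks + 1)) 0).card : ℝ)
          + ((∑ k ∈ range (m + 1), (supp (X k) 0 (F + b k)).card : ℕ) : ℝ) := by
      exact_mod_cast h4
    have h5 := hjump ks hks hne
    have h6 := hWk ks hks.le
    have hW0 : 0 ≤ Wtot := Nat.cast_nonneg _
    have hcj : 0 ≤ C1 d D c ε + mH d c * C1 d D c ε + mH d c := by positivity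
    have h7 : ((faces (X (ks + 1)) 0).card : ℝ)
        ≤ (C1 d D c ε + mH d c * C1 d D c ε + mH d c) * (6 * Wtot) :=
      h5.trans (mul_le_mul_of_nonneg_left h6 hcj)
    unfold K0
    nlinarith

end tower

end Vale.Agent.Lib.P067
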