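import Vale.Agent.Lib.P067.TopCycles

/-!
The top cohomology of a bounded-degree coboundary expander has linear dimension.

If `X` is a pure `d`-dimensional `ε`-coboundary expander of degree at most `D`, there is a
set `T` of `d`-faces with `|X(0)| ≤ N + C * |T|` such that no nonempty subset of `T` has
its indicator cochain among the coboundaries: the classes of the members of `T` are
linearly independent in the top cohomology.

Proof: start from the faces whose indicator is not a coboundary (`top_noncobdry`), take a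
maximal subfamily with pairwise disjoint neighbourhoods of a fixed radius, and show that a
small cofilling of a sum of far-apart faces would have to grow in every neighbourhood.
-/

namespace Vale.Agent.Lib.P067

open Finset

section topbetti

variable {V : Type*} [DecidableEq V]

/-- The indicator cochain of a set of faces. -/
def indS (S : Finset (Finset V)) : Finset V → ZMod 2 := fun s => if s ∈ S then 1 else 0

/-- The set `W` together with the vertices of the `d`-faces meeting `W`. -/
def Nb (X : Finset (Finset V)) (d : ℕ) (W : Finset V) : Finset V :=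
  W ∪ ((faces X d).filter (fun t => (t ∩ W).Nonempty)).biUnion id

/-- Iterated neighbourhoods of a vertex set. -/
def Wn (X : Finset (Finset V)) (d : ℕ) : ℕ → Finset V → Finset V
  | 0, t => t
  | (r + 1), t => Nb X d (Wn X d r t)

lemma subset_Nb (X : Finset (Finset V)) (d : ℕ) (W : Finset V) : W ⊆ Nb X d W :=
  subset_union_left

lemma Wn_zero (X : Finset (Finset V)) (d : ℕ) (t : Finset V) : Wn X d 0 t = t := rfl

lemma Wn_succ (X : Finset (Finset V)) (d r : ℕ) (t : Finset V) :
    Wn X d (r + 1) t = Nb X d (Wn X d r t) := rfl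

lemma Wn_mono (X : Finset (Finset V)) (d : ℕ) (t : Finset V) {r r' : ℕ} (h : r ≤ r') :
    Wn X d r t ⊆ Wn X d r' t := by
  induction r' with
  | zero =>
    have : r = 0 := by omega
    rw [this]
  | succ n ih =>
    rcases Nat.eq_or_lt_of_le h with heq | hlt
    · rw [heq]
    · exact (ih (by omega)).trans (subset_Nb X d _)

lemma face_subset_Nb {X : Finset (Finset V)} {d : ℕ} {W s : Finset V} (hs : s ∈ faces X d)
    {w : V} (hws : w ∈ s) (hwW : w ∈ W) : s ⊆ Nb X d W := by
  intro v hv
  unfold Nb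
  rw [mem_union]
  right
  rw [mem_biUnion]
  exact ⟨s, mem_filter.mpr ⟨hs, ⟨w, mem_inter.mpr ⟨hws, hwW⟩⟩⟩, hv⟩

lemma card_Nb_le {X : Finset (Finset V)} {d D : ℕ} (hD : ∀ v, updeg X d {v} ≤ D)
    (W : Finset V) : (Nb X d W).card ≤ (1 + D * (d + 1)) * W.card := by
  have hsub : Nb X d W ⊆ W ∪ W.biUnion
      (fun w => ((faces X d).filter (fun t => {w} ⊆ t)).biUnion id) := by
    intro v hv
    unfold Nb at hv
    rw [mem_union] at hv ⊢
    rcases hv with hv | hv
    · exact Or.inl hv
    · right
      rw [mem_biUnion] at hv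
      obtain ⟨t, ht, hvt⟩ := hv
      rw [mem_filter] at ht
      obtain ⟨w, hw⟩ := ht.2
      rw [mem_inter] at hw
      rw [mem_biUnion]
      refine ⟨w, hw.2, ?_⟩
      rw [mem_biUnion]
      exact ⟨t, mem_filter.mpr ⟨ht.1, singleton_subset_iff.mpr hw.1⟩, hvt⟩
  have hin : ∀ w ∈ W, (((faces X d).filter (fun t => {w} ⊆ t)).biUnion id).card
      ≤ D * (d + 1) := by
    intro w _
    calc (((faces X d).filter (fun t => {w} ⊆ t)).biUnion id).card
        ≤ ((faces X d).filter (fun t => {w} ⊆ t)).card * (d + 1) := by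
          apply card_biUnion_le_card_mul
          intro t ht
          exact le_of_eq (mem_faces.mp (mem_filter.mp ht).1).2
      _ ≤ D * (d + 1) := Nat.mul_le_mul_right _ (hD w)
  calc (Nb X d W).card
      ≤ (W ∪ W.biUnion (fun w => ((faces X d).filter (fun t => {w} ⊆ t)).biUnion id)).card :=
        card_le_card hsub
    _ ≤ W.card + (W.biUnion
          (fun w => ((faces X d).filter (fun t => {w} ⊆ t)).biUnion id)).card :=
        card_union_le _ _
    _ ≤ W.card + W.card * (D * (d + 1)) :=
        Nat.add_le_add_left (card_biUnion_le_card_mul _ _ _ hin) _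
    _ = (1 + D * (d + 1)) * W.card := by ring

lemma card_Wn_le {X : Finset (Finset V)} {d D : ℕ} (hD : ∀ v, updeg X d {v} ≤ D)
    (t : Finset V) (r : ℕ) : (Wn X d r t).card ≤ (1 + D * (d + 1)) ^ r * t.card := by
  induction r with
  | zero => simp [Wn_zero]
  | succ n ih =>
    rw [Wn_succ]
    calc (Nb X d (Wn X d n t)).card ≤ (1 + D * (d + 1)) * (Wn X d n t).card :=
          card_Nb_le hD _
      _ ≤ (1 + D * (d + 1)) * ((1 + D * (d + 1)) ^ n * t.card) :=
          Nat.mul_le_mul_left _ ih
      _ = (1 + D * (d + 1)) ^ (n + 1) * t.card := by ring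

/-- The number of `d`-faces whose `r`-neighbourhood contains a given vertex. -/
lemma card_dual_le {X : Finset (Finset V)} {d D : ℕ} (hD : ∀ v, updeg X d {v} ≤ D)
    (r : ℕ) : ∀ v : V, ((faces X d).filter (fun t => v ∈ Wn X d r t)).card
      ≤ D * (1 + D * (d + 1)) ^ r := by
  induction r with
  | zero =>
    intro v
    have h : (faces X d).filter (fun t => v ∈ Wn X d 0 t)
        = (faces X d).filter (fun t => {v} ⊆ t) := by
      apply filter_congr
      intro t _
      rw [Wn_zero, singleton_subset_iff]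
    rw [h, pow_zero, mul_one]
    exact hD v
  | succ n ih =>
    intro v
    have hsub : (faces X d).filter (fun t => v ∈ Wn X d (n + 1) t)
        ⊆ (faces X d).filter (fun t => v ∈ Wn X d n t) ∪
          ((faces X d).filter (fun t' => {v} ⊆ t')).biUnion
            (fun t' => t'.biUnion (fun u => (faces X d).filter (fun t => u ∈ Wn X d n t))) := by
      intro t ht
      rw [mem_filter, Wn_succ] at ht
      obtain ⟨htf, hv⟩ := ht
      unfold Nb at hv
      rw [mem_union] at hv ⊢
      rcases hv with hv | hv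
      · exact Or.inl (mem_filter.mpr ⟨htf, hv⟩)
      · right
        rw [mem_biUnion] at hv
        obtain ⟨t', ht', hvt'⟩ := hv
        rw [mem_filter] at ht'
        obtain ⟨u, hu⟩ := ht'.2
        rw [mem_inter] at hu
        rw [mem_biUnion]
        refine ⟨t', mem_filter.mpr ⟨ht'.1, singleton_subset_iff.mpr hvt'⟩, ?_⟩
        rw [mem_biUnion]
        exact ⟨u, hu.1, mem_filter.mpr ⟨htf, hu.2⟩⟩
    have hin : ∀ t' ∈ (faces X d).filter (fun t' => {v} ⊆ t'),
        (t'.biUnion (fun u => (faces X d).filter (fun t => u ∈ Wn X d n t))).card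
          ≤ (d + 1) * (D * (1 + D * (d + 1)) ^ n) := by
      intro t' ht'
      have h1 := card_biUnion_le_card_mul t'
        (fun u => (faces X d).filter (fun t => u ∈ Wn X d n t))
        (D * (1 + D * (d + 1)) ^ n) (fun u _ => ih u)
      rw [(mem_faces.mp (mem_filter.mp ht').1).2] at h1
      exact h1
    calc ((faces X d).filter (fun t => v ∈ Wn X d (n + 1) t)).card
        ≤ ((faces X d).filter (fun t => v ∈ Wn X d n t)).card +
          (((faces X d).filter (fun t' => {v} ⊆ t')).biUnion
            (fun t' => t'.biUnion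
              (fun u => (faces X d).filter (fun t => u ∈ Wn X d n t)))).card :=
          (card_le_card hsub).trans (card_union_le _ _)
      _ ≤ D * (1 + D * (d + 1)) ^ n +
          ((faces X d).filter (fun t' => {v} ⊆ t')).card
            * ((d + 1) * (D * (1 + D * (d + 1)) ^ n)) :=
          Nat.add_le_add (ih v) (card_biUnion_le_card_mul _ _ _ hin)
      _ ≤ D * (1 + D * (d + 1)) ^ n + D * ((d + 1) * (D * (1 + D * (d + 1)) ^ n)) :=
          Nat.add_le_add_left (Nat.mul_le_mul_right _ (hD v)) _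
      _ = D * (1 + D * (d + 1)) ^ (n + 1) := by ring

/-- Inside a family of far-apart faces whose indicators are not coboundaries, a cofilling of
the sum grows in every neighbourhood. -/
lemma growth {X : Finset (Finset V)} {e : ℕ} (hP : IsPureComplex X (e + 1))
    (c : Finset V → ZMod 2) (S : Finset (Finset V)) (R : ℕ) (hS : S ⊆ faces X (e + 1))
    (hδ : ∀ s ∈ faces X (e + 1), cobdry X e c s = indS S s)
    (hfar : ∀ t ∈ S, ∀ t' ∈ S, t ≠ t' →
      Disjoint (Wn X (e + 1) R t) (Wn X (e + 1) R t'))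
    (hT : ∀ t ∈ S, ¬ IsCobdry X (e + 1) (ind t)) {t : Finset V} (ht : t ∈ S) :
    ∀ r, r ≤ R →
      r + 1 ≤ ((supp X e c).filter (fun σ => σ ⊆ Wn X (e + 1) r t)).card := by
  have hX := hP.2.1
  have htf := hS ht
  -- a facet of `t`
  obtain ⟨u0, hu0⟩ : t.Nonempty := (hX t (mem_faces.mp htf).1).1
  have htc := (mem_faces.mp htf).2
  have hfac : t.erase u0 ∈ faces X e := by
    rw [mem_faces]
    refine ⟨(hX t (mem_faces.mp htf).1).2 _ (erase_subset u0 t) ?_, ?_⟩
    · rw [← card_pos, card_erase_of_mem hu0]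
      omega
    · rw [card_erase_of_mem hu0]
      omega
  intro r
  induction r with
  | zero =>
    intro _
    have h1 : cobdry X e c t = 1 := by
      rw [hδ t htf]
      exact if_pos ht
    have hne : cobdry X e c t ≠ 0 := by
      rw [h1]
      exact one_ne_zero
    unfold cobdry at hne
    obtain ⟨σ, hσ, hcσ⟩ := exists_ne_zero_of_sum_ne_zero hne
    rw [mem_filter] at hσ
    have hmem : σ ∈ (supp X e c).filter (fun σ => σ ⊆ Wn X (e + 1) 0 t) :=
      mem_filter.mpr ⟨mem_supp.mpr ⟨hσ.1, hcσ⟩, hσ.2⟩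
    exact Nat.succ_le_of_lt (card_pos.mpr ⟨σ, hmem⟩)
  | succ r ih =>
    intro hr
    have ih' := ih (by omega)
    have hsub : (supp X e c).filter (fun σ => σ ⊆ Wn X (e + 1) r t)
        ⊆ (supp X e c).filter (fun σ => σ ⊆ Wn X (e + 1) (r + 1) t) := by
      intro σ hσ
      rw [mem_filter] at hσ ⊢
      exact ⟨hσ.1, hσ.2.trans (subset_Nb X (e + 1) _)⟩
    by_contra hlt
    have hle : ((supp X e c).filter (fun σ => σ ⊆ Wn X (e + 1) (r + 1) t)).card
        ≤ ((supp X e c).filter (fun σ => σ ⊆ Wn X (e + 1) r t)).card := by omega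
    have heq := eq_of_subset_of_card_le hsub hle
    apply hT t ht
    refine ⟨fun σ => if σ ⊆ Wn X (e + 1) r t then c σ else 0, ?_⟩
    intro s hs
    by_cases hcase : ∃ σ ∈ faces X e, σ ⊆ s ∧ σ ⊆ Wn X (e + 1) r t
    · obtain ⟨σ, hσf, hσs, hσW⟩ := hcase
      obtain ⟨w, hw⟩ : σ.Nonempty := (hX σ (mem_faces.mp hσf).1).1
      have hsW : s ⊆ Wn X (e + 1) (r + 1) t := face_subset_Nb hs (hσs hw) (hσW hw)
      have hcc : cobdry X e (fun σ => if σ ⊆ Wn X (e + 1) r t then c σ else 0) s
          = cobdry X e c s := by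
        unfold cobdry
        apply sum_congr rfl
        intro σ' hσ'
        rw [mem_filter] at hσ'
        show (if σ' ⊆ Wn X (e + 1) r t then c σ' else 0) = c σ'
        by_cases h1 : σ' ⊆ Wn X (e + 1) r t
        · exact if_pos h1
        · rw [if_neg h1]
          by_contra hne
          have hmem : σ' ∈ (supp X e c).filter (fun σ => σ ⊆ Wn X (e + 1) (r + 1) t) :=
            mem_filter.mpr ⟨mem_supp.mpr ⟨hσ'.1, fun h => hne h.symm⟩, hσ'.2.trans hsW⟩
          rw [← heq, mem_filter] at hmem
          exact h1 hmem.2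
      rw [hcc, hδ s hs]
      unfold ind indS
      by_cases hst : s = t
      · rw [if_pos hst, if_pos (hst ▸ ht)]
      · rw [if_neg hst, if_neg]
        intro hsS
        have hd := hfar s hsS t ht hst
        have hw1 : w ∈ Wn X (e + 1) R s := Wn_mono X (e + 1) s (Nat.zero_le R) (hσs hw)
        have hw2 : w ∈ Wn X (e + 1) R t := Wn_mono X (e + 1) t (by omega) (hσW hw)
        exact (disjoint_left.mp hd hw1) hw2
    · have hzero : cobdry X e (fun σ => if σ ⊆ Wn X (e + 1) r t then c σ else 0) s = 0 := by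
        unfold cobdry
        apply sum_eq_zero
        intro σ' hσ'
        rw [mem_filter] at hσ'
        show (if σ' ⊆ Wn X (e + 1) r t then c σ' else 0) = 0
        rw [if_neg]
        intro h1
        exact hcase ⟨σ', hσ'.1, hσ'.2, h1⟩
      rw [hzero]
      unfold ind
      rw [if_neg]
      intro hst
      apply hcase
      refine ⟨t.erase u0, hfac, ?_, ?_⟩
      · rw [hst]
        exact erase_subset u0 t
      · exact (erase_subset u0 t).trans (Wn_mono X (e + 1) t (Nat.zero_le r))

lemma growth_count {X : Finset (Finset V)} {e : ℕ} (hP : IsPureComplex X (e + 1))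
    (c : Finset V → ZMod 2) (S : Finset (Finset V)) (R : ℕ) (hS : S ⊆ faces X (e + 1))
    (hδ : ∀ s ∈ faces X (e + 1), cobdry X e c s = indS S s)
    (hfar : ∀ t ∈ S, ∀ t' ∈ S, t ≠ t' →
      Disjoint (Wn X (e + 1) R t) (Wn X (e + 1) R t'))
    (hT : ∀ t ∈ S, ¬ IsCobdry X (e + 1) (ind t)) :
    (R + 1) * S.card ≤ (supp X e c).card := by
  classical
  have hdisj : ∀ t ∈ S, ∀ t' ∈ S, t ≠ t' →
      Disjoint ((supp X e c).filter (fun σ => σ ⊆ Wn X (e + 1) R t))
        ((supp X e c).filter (fun σ => σ ⊆ Wn X (e + 1) R t')) := by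
    intro t ht t' ht' hne
    rw [disjoint_left]
    intro σ h1 h2
    rw [mem_filter] at h1 h2
    obtain ⟨w, hw⟩ : σ.Nonempty :=
      (hP.2.1 σ (mem_faces.mp (mem_supp.mp h1.1).1).1).1
    exact disjoint_left.mp (hfar t ht t' ht' hne) (h1.2 hw) (h2.2 hw)
  calc (R + 1) * S.card = ∑ _t ∈ S, (R + 1) := by
        rw [sum_const, smul_eq_mul, Nat.mul_comm]
    _ ≤ ∑ t ∈ S, ((supp X e c).filter (fun σ => σ ⊆ Wn X (e + 1) R t)).card :=
        sum_le_sum (fun t ht => growth hP c S R hS hδ hfar hT ht R le_rfl)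
    _ = (S.biUnion (fun t => (supp X e c).filter (fun σ => σ ⊆ Wn X (e + 1) R t))).card :=
        (card_biUnion hdisj).symm
    _ ≤ (supp X e c).card :=
        card_le_card (biUnion_subset.mpr (fun t _ => filter_subset _ _))

/-- Far-apart faces whose indicators are not coboundaries are independent modulo the
coboundaries. -/
lemma indep_of_far {X : Finset (Finset V)} {e D : ℕ} {ε : ℝ}
    (hP : IsPureComplex X (e + 1)) (hD : ∀ v, updeg X (e + 1) {v} ≤ D) (hε : 0 < ε)
    (hE : IsCobExp X (e + 1) ε) (S : Finset (Finset V)) (R : ℕ)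
    (hR : (D : ℝ) * (((e + 1 : ℕ) : ℝ) + 1) < ε * ((R : ℝ) + 1))
    (hS : S ⊆ faces X (e + 1)) (hne : S.Nonempty)
    (hfar : ∀ t ∈ S, ∀ t' ∈ S, t ≠ t' →
      Disjoint (Wn X (e + 1) R t) (Wn X (e + 1) R t'))
    (hT : ∀ t ∈ S, ¬ IsCobdry X (e + 1) (ind t)) :
    ¬ IsCobdry X (e + 1) (indS S) := by
  intro hcob
  obtain ⟨c, hc1, hc2⟩ := cofill hP hD hε hE (i := e) (by omega) hcob
  have hcount := growth_count hP c S R hS hc1 hfar hT
  have hsupp : supp X (e + 1) (indS S) = S := by
    ext s
    rw [mem_supp]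
    unfold indS
    constructor
    · rintro ⟨_, h⟩
      by_contra hn
      rw [if_neg hn] at h
      exact h rfl
    · intro h
      refine ⟨hS h, ?_⟩
      rw [if_pos h]
      exact one_ne_zero
  rw [hsupp] at hc2
  have h1 : ((R : ℝ) + 1) * (S.card : ℝ) ≤ ((supp X e c).card : ℝ) := by
    exact_mod_cast hcount
  have hSpos : (0 : ℝ) < (S.card : ℝ) := by exact_mod_cast card_pos.mpr hne
  have h2 : ε * (((R : ℝ) + 1) * (S.card : ℝ)) ≤ ε * ((supp X e c).card : ℝ) :=
    mul_le_mul_of_nonneg_left h1 hε.le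
  have h3 : (D : ℝ) * (((e + 1 : ℕ) : ℝ) + 1) * (S.card : ℝ)
      < ε * ((R : ℝ) + 1) * (S.card : ℝ) := mul_lt_mul_of_pos_right hR hSpos
  linarith

/-- A maximal subfamily without conflicts. -/
lemma exists_maximal_far {α : Type*} [DecidableEq α] (conf : α → α → Prop)
    (hsymm : ∀ a b, conf a b → conf b a) (hrefl : ∀ a, conf a a) (T : Finset α) :
    ∃ T' : Finset α, T' ⊆ T ∧ (∀ a ∈ T', ∀ b ∈ T', a ≠ b → ¬ conf a b) ∧
      ∀ a ∈ T, ∃ b ∈ T', conf a b := by
  classical
  induction T using Finset.induction_on with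
  | empty =>
    exact ⟨∅, Subset.refl _, fun a ha => absurd ha (notMem_empty a),
      fun a ha => absurd ha (notMem_empty a)⟩
  | insert a T0 _ ih =>
    obtain ⟨T', h1, h2, h3⟩ := ih
    by_cases hc : ∃ b ∈ T', conf a b
    · refine ⟨T', h1.trans (subset_insert _ _), h2, ?_⟩
      intro x hx
      rw [mem_insert] at hx
      rcases hx with rfl | hx
      · exact hc
      · exact h3 x hx
    · refine ⟨insert a T', insert_subset_insert _ h1, ?_, ?_⟩
      · intro x hx y hy hxy
        rw [mem_insert] at hx hy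
        rcases hx with rfl | hx <;> rcases hy with rfl | hy
        · exact absurd rfl hxy
        · exact fun h => hc ⟨y, hy, h⟩
        · exact fun h => hc ⟨x, hx, hsymm _ _ h⟩
        · exact h2 x hx y hy hxy
      · intro x hx
        rw [mem_insert] at hx
        rcases hx with rfl | hx
        · exact ⟨x, mem_insert_self _ _, hrefl x⟩
        · obtain ⟨b, hb, hxb⟩ := h3 x hx
          exact ⟨b, mem_insert_of_mem hb, hxb⟩

/-- In a bounded-degree coboundary expander of dimension `d ≥ 1` there is a family of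
`d`-faces, linear in the number of vertices, that is independent modulo coboundaries. -/
theorem top_indep {X : Finset (Finset V)} {d D : ℕ} {ε : ℝ} (hd : 1 ≤ d)
    (hP : IsPureComplex X d) (hD : ∀ v, updeg X d {v} ≤ D) (hε : 0 < ε)
    (hE : IsCobExp X d ε) :
    ∃ T : Finset (Finset V), T ⊆ faces X d ∧
      (∀ S : Finset (Finset V), S ⊆ T → S.Nonempty → ¬ IsCobdry X d (indS S)) ∧
      (faces X 0).card ≤ (1 + D * 2 ^ (d + 1) * rr d D ε d)
        + ((d + 1) * (1 + D * 2 ^ (d + 1) * rr d D ε d))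
          * (((1 + D * (d + 1)) ^ ⌈(D : ℝ) * ((d : ℝ) + 1) / ε⌉₊ * (d + 1))
            * (D * (1 + D * (d + 1)) ^ ⌈(D : ℝ) * ((d : ℝ) + 1) / ε⌉₊)) * T.card := by
  classical
  obtain ⟨e, rfl⟩ : ∃ e, d = e + 1 := ⟨d - 1, by omega⟩
  obtain ⟨TA, hTA, hTAnc, hcard⟩ := top_noncobdry hd hP hD hε hE
  set R := ⌈(D : ℝ) * (((e + 1 : ℕ) : ℝ) + 1) / ε⌉₊ with hRdef
  have hR : (D : ℝ) * (((e + 1 : ℕ) : ℝ) + 1) < ε * ((R : ℝ) + 1) := by
    have h1 : (D : ℝ) * (((e + 1 : ℕ) : ℝ) + 1) / ε ≤ (R : ℝ) := Nat.le_ceil _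
    rw [div_le_iff₀ hε] at h1
    nlinarith
  have hX := hP.2.1
  obtain ⟨T', h1, h2, h3⟩ := exists_maximal_far
    (fun a b : Finset V => a = b ∨ ¬ Disjoint (Wn X (e + 1) R a) (Wn X (e + 1) R b))
    (by
      rintro a b (hab | hab)
      · exact Or.inl hab.symm
      · exact Or.inr (fun h => hab h.symm))
    (fun a => Or.inl rfl) TA
  refine ⟨T', h1.trans hTA, ?_, ?_⟩
  · intro S hS hne
    apply indep_of_far hP hD hε hE S R hR (hS.trans (h1.trans hTA)) hne
    · intro t ht t' ht' hne'
      by_contra hnd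
      exact h2 t (hS ht) t' (hS ht') hne' (Or.inr hnd)
    · intro t ht
      exact hTAnc t (h1 (hS ht))
  · have hcov : TA.card ≤ (((1 + D * (e + 1 + 1)) ^ R * (e + 1 + 1))
        * (D * (1 + D * (e + 1 + 1)) ^ R)) * T'.card := by
      refine card_le_mul_of_cover
        (fun t' => (faces X (e + 1)).filter
          (fun t => ¬ Disjoint (Wn X (e + 1) R t) (Wn X (e + 1) R t'))) _ ?_ ?_
      · intro t' ht'
        have ht'f := hTA (h1 ht')
        have hsub : (faces X (e + 1)).filter
            (fun t => ¬ Disjoint (Wn X (e + 1) R t) (Wn X (e + 1) R t'))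
            ⊆ (Wn X (e + 1) R t').biUnion
              (fun v => (faces X (e + 1)).filter (fun t => v ∈ Wn X (e + 1) R t)) := by
          intro t ht
          rw [mem_filter, not_disjoint_iff] at ht
          obtain ⟨htf, v, hv1, hv2⟩ := ht
          rw [mem_biUnion]
          exact ⟨v, hv2, mem_filter.mpr ⟨htf, hv1⟩⟩
        calc ((faces X (e + 1)).filter
              (fun t => ¬ Disjoint (Wn X (e + 1) R t) (Wn X (e + 1) R t'))).card
            ≤ ((Wn X (e + 1) R t').biUnion
              (fun v => (faces X (e + 1)).filter (fun t => v ∈ Wn X (e + 1) R t))).card :=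
              card_le_card hsub
          _ ≤ (Wn X (e + 1) R t').card * (D * (1 + D * (e + 1 + 1)) ^ R) :=
              card_biUnion_le_card_mul _ _ _ (fun v _ => card_dual_le hD R v)
          _ ≤ ((1 + D * (e + 1 + 1)) ^ R * (e + 1 + 1)) * (D * (1 + D * (e + 1 + 1)) ^ R) := by
              apply Nat.mul_le_mul_right
              have h := card_Wn_le hD t' R
              rw [(mem_faces.mp ht'f).2] at h
              exact h
      · intro t ht
        obtain ⟨b, hb, hconf⟩ := h3 t ht
        refine ⟨b, hb, mem_filter.mpr ⟨hTA ht, ?_⟩⟩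
        rcases hconf with hab | hab
        · rw [← hab, not_disjoint_iff]
          obtain ⟨w, hw⟩ : t.Nonempty := (hX t (mem_faces.mp (hTA ht)).1).1
          have hwR : w ∈ Wn X (e + 1) R t := Wn_mono X (e + 1) t (Nat.zero_le R) hw
          exact ⟨w, hwR, hwR⟩
        · exact hab
    calc (faces X 0).card
        ≤ (1 + D * 2 ^ (e + 1 + 1) * rr (e + 1) D ε (e + 1))
          + ((e + 1 + 1) * (1 + D * 2 ^ (e + 1 + 1) * rr (e + 1) D ε (e + 1))) * TA.card :=
          hcard
      _ ≤ (1 + D * 2 ^ (e + 1 + 1) * rr (e + 1) D ε (e + 1))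
          + ((e + 1 + 1) * (1 + D * 2 ^ (e + 1 + 1) * rr (e + 1) D ε (e + 1)))
            * ((((1 + D * (e + 1 + 1)) ^ R * (e + 1 + 1))
              * (D * (1 + D * (e + 1 + 1)) ^ R)) * T'.card) :=
          Nat.add_le_add_left (Nat.mul_le_mul_left _ hcov) _
      _ = (1 + D * 2 ^ (e + 1 + 1) * rr (e + 1) D ε (e + 1))
          + ((e + 1 + 1) * (1 + D * 2 ^ (e + 1 + 1) * rr (e + 1) D ε (e + 1)))
            * (((1 + D * (e + 1 + 1)) ^ R * (e + 1 + 1))
              * (D * (1 + D * (e + 1 + 1)) ^ R)) * T'.card := by ring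

end topbetti

end Vale.Agent.Lib.P067
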