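import Vale.Agent.Lib.P067.TelLevel

/-!
Bounded-degree coboundary expanders have many top faces that are not coboundaries.

If `X` is a pure `d`-dimensional `ε`-coboundary expander of degree at most `D`, then the set
`T` of `d`-faces `t` whose indicator cochain is not a coboundary satisfies
`|X(0)| ≤ N + C * |T|` with `N`, `C` depending only on `d`, `D`, `ε`.

Proof: away from `T` the expansion inequalities give a cochain contraction `k` with
uniformly bounded supports (built from the top dimension downwards); at the bottom the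
contraction identity `1_v = k (δ 1_v)` for the good vertices is summed over all good
vertices, and the result is supported near the bad ones.
-/

namespace Vale.Agent.Lib.P067

open Finset

section topcycles

variable {V : Type*} [DecidableEq V]

/-- The indicator cochain of a face. -/
def ind (t : Finset V) : Finset V → ZMod 2 := fun s => if s = t then 1 else 0

/-- Linear extension of a family of cochains `kj ρ`, `ρ` a `j`-face. -/
def Hext (X : Finset (Finset V)) (kj : Finset V → Finset V → ZMod 2) (j : ℕ)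
    (g : Finset V → ZMod 2) : Finset V → ZMod 2 :=
  fun s => ∑ ρ ∈ faces X j, g ρ * kj ρ s

lemma cobdry_sub (X : Finset (Finset V)) (i : ℕ) (f g : Finset V → ZMod 2) (t : Finset V) :
    cobdry X i (f - g) t = cobdry X i f t - cobdry X i g t := by
  unfold cobdry
  simp only [Pi.sub_apply]
  exact sum_sub_distrib _ _

lemma isCobdry_congr {X : Finset (Finset V)} {i : ℕ} {f g : Finset V → ZMod 2}
    (h : ∀ s ∈ faces X i, f s = g s) (hg : IsCobdry X i g) : IsCobdry X i f := by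
  cases i with
  | zero =>
    obtain ⟨c, hc⟩ := hg
    exact ⟨c, fun s hs => by rw [h s hs, hc s hs]⟩
  | succ j =>
    obtain ⟨u, hu⟩ := hg
    exact ⟨u, fun s hs => by rw [h s hs, hu s hs]⟩

lemma isCocycle_of_isCobdry {X : Finset (Finset V)}
    (hX : ∀ s ∈ X, s.Nonempty ∧ ∀ t, t ⊆ s → t.Nonempty → t ∈ X) {i : ℕ}
    {b : Finset V → ZMod 2} (hb : IsCobdry X i b) : IsCocycle X i b := by
  rw [isCocycle_iff hX]
  intro t ht
  have htX := (mem_faces.mp ht).1
  have htc := (mem_faces.mp ht).2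
  have hmem : ∀ u ∈ t, t.erase u ∈ faces X i := by
    intro u hu
    rw [mem_faces]
    refine ⟨(hX t htX).2 _ (erase_subset u t) ?_, ?_⟩
    · rw [← card_pos, card_erase_of_mem hu]
      omega
    · rw [card_erase_of_mem hu]
      omega
  cases i with
  | zero =>
    obtain ⟨c, hc⟩ := hb
    unfold dsum
    rw [sum_congr rfl (fun u hu => hc _ (hmem u hu)), sum_const, htc]
    show (2 : ℕ) • c = 0
    rw [two_nsmul]
    exact CharTwo.add_self_eq_zero c
  | succ j =>
    obtain ⟨h, hh⟩ := hb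
    have h2 : ∀ u ∈ t, b (t.erase u) = dsum h (t.erase u) := by
      intro u hu
      have hm := hmem u hu
      rw [hh _ hm, cobdry_eq_dsum hX (mem_faces.mp hm).1 (mem_faces.mp hm).2]
    have h3 : dsum b t = dsum (dsum h) t := by
      show ∑ u ∈ t, b (t.erase u) = ∑ u ∈ t, dsum h (t.erase u)
      exact sum_congr rfl h2
    rw [h3, dsum_dsum]
    rfl

lemma cobdry_cobdry {X : Finset (Finset V)}
    (hX : ∀ s ∈ X, s.Nonempty ∧ ∀ t, t ⊆ s → t.Nonempty → t ∈ X) (i : ℕ)
    (f : Finset V → ZMod 2) : ∀ t ∈ faces X (i + 2), cobdry X (i + 1) (cobdry X i f) t = 0 :=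
  isCocycle_of_isCobdry hX (i := i + 1) ⟨f, fun _ _ => rfl⟩

lemma cobdry_ind (X : Finset (Finset V)) (j : ℕ) {ρ : Finset V} (hρ : ρ ∈ faces X j)
    (π : Finset V) : cobdry X j (ind ρ) π = if ρ ⊆ π then 1 else 0 := by
  unfold cobdry ind
  rw [sum_ite_eq']
  simp [hρ]

lemma cobdry_Hext (X : Finset (Finset V)) (kj : Finset V → Finset V → ZMod 2) (j i : ℕ)
    (g : Finset V → ZMod 2) (s : Finset V) :
    cobdry X i (Hext X kj j g) s = ∑ ρ ∈ faces X j, g ρ * cobdry X i (kj ρ) s := by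
  unfold cobdry Hext
  rw [sum_comm]
  apply sum_congr rfl
  intro ρ _
  rw [mul_sum]

/-- The contraction identity extends linearly to cochains vanishing on the bad faces. -/
lemma Hext_step (X : Finset (Finset V)) (T : Finset (Finset V))
    (k1 k2 : Finset V → Finset V → ZMod 2) (j : ℕ)
    (hk : ∀ ρ ∈ faces X (j + 1), (¬ ∃ t ∈ T, ρ ⊆ t) →
      ∀ s ∈ faces X (j + 1), cobdry X j (k1 ρ) s
        = ind ρ s + Hext X k2 (j + 2) (cobdry X (j + 1) (ind ρ)) s)
    (g : Finset V → ZMod 2) (hg : ∀ ρ ∈ faces X (j + 1), (∃ t ∈ T, ρ ⊆ t) → g ρ = 0) :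
    ∀ s ∈ faces X (j + 1), cobdry X j (Hext X k1 (j + 1) g) s
      = g s + Hext X k2 (j + 2) (cobdry X (j + 1) g) s := by
  intro s hs
  rw [cobdry_Hext]
  have h1 : ∀ ρ ∈ faces X (j + 1), g ρ * cobdry X j (k1 ρ) s
      = g ρ * ind ρ s + g ρ * Hext X k2 (j + 2) (cobdry X (j + 1) (ind ρ)) s := by
    intro ρ hρ
    by_cases hb : ∃ t ∈ T, ρ ⊆ t
    · rw [hg ρ hρ hb]
      simp
    · rw [hk ρ hρ hb s hs, mul_add]
  rw [sum_congr rfl h1, sum_add_distrib]
  congr 1
  · rw [sum_eq_single s]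
    · simp [ind]
    · intro ρ _ hne
      have : ind ρ s = 0 := by
        unfold ind
        rw [if_neg (fun h => hne h.symm)]
      rw [this, mul_zero]
    · intro h
      exact absurd hs h
  · unfold Hext
    simp_rw [mul_sum]
    rw [sum_comm]
    apply sum_congr rfl
    intro π _
    have h2 : ∀ ρ ∈ faces X (j + 1), g ρ * (cobdry X (j + 1) (ind ρ) π * k2 π s)
        = (if ρ ⊆ π then g ρ else 0) * k2 π s := by
      intro ρ hρ
      rw [cobdry_ind X (j + 1) hρ]
      split_ifs <;> simp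
    rw [sum_congr rfl h2, ← sum_mul]
    congr 1
    unfold cobdry
    rw [sum_filter]

/-- A cocycle below the top dimension of a coboundary expander is a coboundary. -/
lemma isCobdry_of_isCocycle {X : Finset (Finset V)} {d : ℕ} {ε : ℝ} (hP : IsPureComplex X d)
    (hε : 0 < ε) (hE : IsCobExp X d ε) {j : ℕ} (hj : j < d) {y : Finset V → ZMod 2}
    (hy : IsCocycle X j y) : IsCobdry X j y := by
  obtain ⟨g, hg, hle⟩ := hE j hj y
  have h0 : norm X d (j + 1) (cobdry X j y) = 0 := by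
    unfold norm
    apply sum_eq_zero
    intro s hs
    rw [mem_filter] at hs
    exact absurd (hy s hs.1) hs.2
  rw [h0] at hle
  have hn := norm_nonneg X d j (y - g)
  have hn0 : norm X d j (y - g) = 0 := by nlinarith
  have hc := card_supp_le hP (le_of_lt hj) (y - g)
  rw [hn0, mul_zero] at hc
  have hemp : supp X j (y - g) = ∅ := by
    rw [← card_eq_zero]
    have : ((supp X j (y - g)).card : ℝ) = 0 := le_antisymm hc (by positivity)
    exact_mod_cast this
  refine isCobdry_congr (fun s hs => ?_) hg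
  by_contra hne
  have hmem : s ∈ supp X j (y - g) :=
    mem_supp.mpr ⟨hs, fun h => hne (sub_eq_zero.mp h)⟩
  rw [hemp] at hmem
  exact absurd hmem (notMem_empty _)

/-- A coboundary has a cofilling whose support is controlled by its own support. -/
lemma cofill {X : Finset (Finset V)} {d D : ℕ} {ε : ℝ} (hP : IsPureComplex X d)
    (hD : ∀ v, updeg X d {v} ≤ D) (hε : 0 < ε) (hE : IsCobExp X d ε) {i : ℕ} (hi : i < d)
    {y : Finset V → ZMod 2} (hy : IsCobdry X (i + 1) y) :
    ∃ c : Finset V → ZMod 2, (∀ s ∈ faces X (i + 1), cobdry X i c s = y s) ∧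
      ε * ((supp X i c).card : ℝ) ≤ (D : ℝ) * (d + 1) * ((supp X (i + 1) y).card : ℝ) := by
  obtain ⟨u, hu⟩ := hy
  obtain ⟨b, hb, hle⟩ := hE i hi u
  refine ⟨u - b, ?_, ?_⟩
  · intro s hs
    rw [cobdry_sub, isCocycle_of_isCobdry hP.2.1 hb s hs, sub_zero, hu s hs]
  · have h := count_of_expand hP hD hε hi (u - b) (cobdry X i u) hle
    rwa [supp_congr (fun s hs => (hu s hs).symm)] at h

/-- The support bounds of the contraction, level by level from the top dimension. -/
noncomputable def rr (d D : ℕ) (ε : ℝ) : ℕ → ℕ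
  | 0 => 0
  | (m + 1) => ⌈((D : ℝ) * (d + 1)) / ε * (1 + (D : ℝ) * 2 ^ (d + 1) * (rr d D ε m : ℝ))⌉₊

/-- The contraction data on the faces with `i + 2` vertices: zero on the faces inside a
member of `T`, and on the other faces the contraction identity and the support bound. -/
def LevelOK (X T : Finset (Finset V)) (k : ℕ → Finset V → Finset V → ZMod 2) (R : ℕ → ℕ)
    (d i : ℕ) : Prop :=
  ∀ σ ∈ faces X (i + 1),
    ((∃ t ∈ T, σ ⊆ t) → k (i + 1) σ = 0) ∧
    ((¬ ∃ t ∈ T, σ ⊆ t) →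
      (∀ s ∈ faces X (i + 1), cobdry X i (k (i + 1) σ) s
          = ind σ s + Hext X (k (i + 2)) (i + 2) (cobdry X (i + 1) (ind σ)) s) ∧
      (supp X i (k (i + 1) σ)).card ≤ R (d - i))

lemma supp_y_le {X : Finset (Finset V)} {d D : ℕ} (hP : IsPureComplex X d)
    (hD : ∀ v, updeg X d {v} ≤ D) (T : Finset (Finset V))
    (k1 : Finset V → Finset V → ZMod 2) (j R : ℕ) {σ : Finset V} (hσ : σ ∈ faces X j)
    (hk0 : ∀ ρ ∈ faces X (j + 1), (∃ t ∈ T, ρ ⊆ t) → k1 ρ = 0)
    (hkR : ∀ ρ ∈ faces X (j + 1), (¬ ∃ t ∈ T, ρ ⊆ t) → (supp X j (k1 ρ)).card ≤ R) :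
    (supp X j (ind σ + Hext X k1 (j + 1) (cobdry X j (ind σ)))).card
      ≤ 1 + D * 2 ^ (d + 1) * R := by
  classical
  obtain ⟨y0, hy0⟩ : σ.Nonempty := (hP.2.1 σ (mem_faces.mp hσ).1).1
  set S' := (X.filter (fun ρ => y0 ∈ ρ)).filter
    (fun ρ => ρ ∈ faces X (j + 1) ∧ ¬ ∃ t ∈ T, ρ ⊆ t) with hS'
  have hsub : supp X j (ind σ + Hext X k1 (j + 1) (cobdry X j (ind σ)))
      ⊆ insert σ (S'.biUnion (fun ρ => supp X j (k1 ρ))) := by
    intro s hs
    rw [mem_supp] at hs
    rw [mem_insert]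
    by_cases hsσ : s = σ
    · exact Or.inl hsσ
    · right
      have h1 : ind σ s = 0 := by
        unfold ind
        rw [if_neg hsσ]
      have h2 : Hext X k1 (j + 1) (cobdry X j (ind σ)) s ≠ 0 := by
        intro h0
        apply hs.2
        simp only [Pi.add_apply]
        rw [h1, h0, add_zero]
      unfold Hext at h2
      obtain ⟨ρ, hρ, hne⟩ := exists_ne_zero_of_sum_ne_zero h2
      have hg : cobdry X j (ind σ) ρ ≠ 0 := fun h => hne (by rw [h, zero_mul])
      have hkρ : k1 ρ s ≠ 0 := fun h => hne (by rw [h, mul_zero])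
      rw [cobdry_ind X j hσ] at hg
      have hσρ : σ ⊆ ρ := by
        by_contra hn
        rw [if_neg hn] at hg
        exact hg rfl
      have hgood : ¬ ∃ t ∈ T, ρ ⊆ t := by
        intro hb
        rw [hk0 ρ hρ hb] at hkρ
        exact hkρ rfl
      rw [mem_biUnion]
      refine ⟨ρ, ?_, mem_supp.mpr ⟨hs.1, hkρ⟩⟩
      rw [hS', mem_filter, mem_filter]
      exact ⟨⟨(mem_faces.mp hρ).1, hσρ hy0⟩, hρ, hgood⟩
  have hS'card : S'.card ≤ D * 2 ^ (d + 1) :=
    (card_le_card (filter_subset _ _)).trans (card_star_le hP hD y0)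
  calc (supp X j (ind σ + Hext X k1 (j + 1) (cobdry X j (ind σ)))).card
      ≤ (insert σ (S'.biUnion (fun ρ => supp X j (k1 ρ)))).card := card_le_card hsub
    _ ≤ (S'.biUnion (fun ρ => supp X j (k1 ρ))).card + 1 := card_insert_le _ _
    _ ≤ S'.card * R + 1 := by
        apply Nat.add_le_add_right
        apply card_biUnion_le_card_mul
        intro ρ hρ
        rw [hS', mem_filter] at hρ
        exact hkR ρ hρ.2.1 hρ.2.2
    _ ≤ D * 2 ^ (d + 1) * R + 1 := by
        apply Nat.add_le_add_right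
        exact Nat.mul_le_mul_right _ hS'card
    _ = 1 + D * 2 ^ (d + 1) * R := Nat.add_comm _ _

lemma cocycle_y {X : Finset (Finset V)}
    (hX : ∀ s ∈ X, s.Nonempty ∧ ∀ t, t ⊆ s → t.Nonempty → t ∈ X) (T : Finset (Finset V))
    (k : ℕ → Finset V → Finset V → ZMod 2) (R : ℕ → ℕ) (d j : ℕ)
    (hL : LevelOK X T k R d j) {σ : Finset V} (hσ : σ ∈ faces X j)
    (hg : ¬ ∃ t ∈ T, σ ⊆ t) :
    IsCocycle X j (ind σ + Hext X (k (j + 1)) (j + 1) (cobdry X j (ind σ))) := by
  intro t ht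
  rw [cobdry_add]
  have hgz : ∀ ρ ∈ faces X (j + 1), (∃ t ∈ T, ρ ⊆ t) → cobdry X j (ind σ) ρ = 0 := by
    rintro ρ _ ⟨t', ht', hρt⟩
    rw [cobdry_ind X j hσ, if_neg]
    intro hσρ
    exact hg ⟨t', ht', hσρ.trans hρt⟩
  rw [Hext_step X T (k (j + 1)) (k (j + 2)) j (fun ρ hρ hb => ((hL ρ hρ).2 hb).1) _ hgz t ht]
  have h0 : Hext X (k (j + 2)) (j + 2) (cobdry X (j + 1) (cobdry X j (ind σ))) t = 0 := by
    unfold Hext
    apply sum_eq_zero
    intro π hπ
    rw [cobdry_cobdry hX j (ind σ) π hπ, zero_mul]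
  rw [h0, add_zero]
  exact CharTwo.add_self_eq_zero _

lemma level_step {X : Finset (Finset V)} {d D : ℕ} {ε : ℝ} (hP : IsPureComplex X d)
    (hD : ∀ v, updeg X d {v} ≤ D) (hε : 0 < ε) (hE : IsCobExp X d ε) (T : Finset (Finset V))
    (hT : ∀ t ∈ faces X d, t ∉ T → IsCobdry X d (ind t)) {i : ℕ} (hi : i < d)
    (h : ∃ k : ℕ → Finset V → Finset V → ZMod 2,
      ∀ i', i + 1 ≤ i' → i' < d → LevelOK X T k (rr d D ε) d i') :
    ∃ k : ℕ → Finset V → Finset V → ZMod 2,
      ∀ i', i ≤ i' → i' < d → LevelOK X T k (rr d D ε) d i' := by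
  classical
  obtain ⟨k, hk⟩ := h
  have hX := hP.2.1
  have hk0 : ∀ ρ ∈ faces X (i + 2), (∃ t ∈ T, ρ ⊆ t) → k (i + 2) ρ = 0 := by
    intro ρ hρ hb
    rcases Nat.lt_or_ge (i + 1) d with hlt | hge
    · exact ((hk (i + 1) le_rfl hlt) ρ hρ).1 hb
    · exfalso
      have h1 := card_le_of_pure hP (mem_faces.mp hρ).1
      have h2 := (mem_faces.mp hρ).2
      omega
  have hkR : ∀ ρ ∈ faces X (i + 2), (¬ ∃ t ∈ T, ρ ⊆ t) →
      (supp X (i + 1) (k (i + 2) ρ)).card ≤ rr d D ε (d - (i + 1)) := by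
    intro ρ hρ hb
    rcases Nat.lt_or_ge (i + 1) d with hlt | hge
    · exact (((hk (i + 1) le_rfl hlt) ρ hρ).2 hb).2
    · exfalso
      have h1 := card_le_of_pure hP (mem_faces.mp hρ).1
      have h2 := (mem_faces.mp hρ).2
      omega
  have hex : ∀ σ : Finset V, ∃ c : Finset V → ZMod 2, σ ∈ faces X (i + 1) →
      (¬ ∃ t ∈ T, σ ⊆ t) →
      (∀ s ∈ faces X (i + 1), cobdry X i c s
          = ind σ s + Hext X (k (i + 2)) (i + 2) (cobdry X (i + 1) (ind σ)) s) ∧
      (supp X i c).card ≤ rr d D ε (d - i) := by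
    intro σ
    by_cases hσ : σ ∈ faces X (i + 1) ∧ ¬ ∃ t ∈ T, σ ⊆ t
    swap
    · exact ⟨0, fun h1 h2 => absurd ⟨h1, h2⟩ hσ⟩
    obtain ⟨hσf, hσg⟩ := hσ
    have hyB : IsCobdry X (i + 1)
        (ind σ + Hext X (k (i + 2)) (i + 2) (cobdry X (i + 1) (ind σ))) := by
      rcases Nat.lt_or_ge (i + 1) d with hlt | hge
      · exact isCobdry_of_isCocycle hP hε hE hlt
          (cocycle_y hX T k (rr d D ε) d (i + 1) (hk (i + 1) le_rfl hlt) hσf hσg)
      · have hid : i + 1 = d := by omega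
        have hemp : faces X (i + 2) = ∅ := by
          rw [eq_empty_iff_forall_notMem]
          intro ρ hρ
          have h1 := card_le_of_pure hP (mem_faces.mp hρ).1
          have h2 := (mem_faces.mp hρ).2
          omega
        have hy_eq : ind σ + Hext X (k (i + 2)) (i + 2) (cobdry X (i + 1) (ind σ))
            = ind σ := by
          funext s
          simp [Hext, hemp]
        rw [hy_eq, hid]
        apply hT σ (hid ▸ hσf)
        intro hσT
        exact hσg ⟨σ, hσT, Subset.refl σ⟩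
    obtain ⟨c, hc1, hc2⟩ := cofill hP hD hε hE hi hyB
    refine ⟨c, fun _ _ => ⟨fun s hs => hc1 s hs, ?_⟩⟩
    have hs := supp_y_le hP hD T (k (i + 2)) (i + 1) (rr d D ε (d - (i + 1))) hσf hk0 hkR
    have hs' : ((supp X (i + 1)
        (ind σ + Hext X (k (i + 2)) (i + 2) (cobdry X (i + 1) (ind σ)))).card : ℝ)
        ≤ 1 + (D : ℝ) * 2 ^ (d + 1) * (rr d D ε (d - (i + 1)) : ℝ) := by exact_mod_cast hs
    have hrr : rr d D ε (d - i) = ⌈((D : ℝ) * (d + 1)) / ε
        * (1 + (D : ℝ) * 2 ^ (d + 1) * (rr d D ε (d - (i + 1)) : ℝ))⌉₊ := by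
      have hdi : d - i = (d - (i + 1)) + 1 := by omega
      rw [hdi]
      rfl
    rw [hrr]
    have hreal : ((supp X i c).card : ℝ) ≤ ((D : ℝ) * (d + 1)) / ε
        * (1 + (D : ℝ) * 2 ^ (d + 1) * (rr d D ε (d - (i + 1)) : ℝ)) := by
      rw [div_mul_eq_mul_div, le_div_iff₀ hε]
      calc ((supp X i c).card : ℝ) * ε = ε * ((supp X i c).card : ℝ) := mul_comm _ _
        _ ≤ (D : ℝ) * (d + 1) * ((supp X (i + 1)
            (ind σ + Hext X (k (i + 2)) (i + 2) (cobdry X (i + 1) (ind σ)))).card : ℝ) := hc2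
        _ ≤ (D : ℝ) * (d + 1)
            * (1 + (D : ℝ) * 2 ^ (d + 1) * (rr d D ε (d - (i + 1)) : ℝ)) := by
            gcongr
    exact Nat.cast_le.mp (hreal.trans (Nat.le_ceil _))
  choose c hc using hex
  set k' := Function.update k (i + 1) (fun σ => if (∃ t ∈ T, σ ⊆ t) then 0 else c σ)
    with hk'
  refine ⟨k', ?_⟩
  intro i' hi' hi'd
  rcases Nat.eq_or_lt_of_le hi' with heq | hlt
  · subst heq
    have hu1 : k' (i + 1) = (fun σ => if (∃ t ∈ T, σ ⊆ t) then 0 else c σ) := by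
      rw [hk']
      exact Function.update_self _ _ _
    have hu2 : k' (i + 2) = k (i + 2) := by
      rw [hk']
      exact Function.update_of_ne (by omega) _ _
    unfold LevelOK
    intro σ hσ
    rw [hu1, hu2]
    refine ⟨fun hb => if_pos hb, fun hg => ?_⟩
    have hcσ : (fun σ => if (∃ t ∈ T, σ ⊆ t) then (0 : Finset V → ZMod 2) else c σ) σ = c σ :=
      if_neg hg
    rw [hcσ]
    exact hc σ hσ hg
  · have hL := hk i' hlt hi'd
    have hu1 : k' (i' + 1) = k (i' + 1) := by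
      rw [hk']
      exact Function.update_of_ne (by omega) _ _
    have hu2 : k' (i' + 2) = k (i' + 2) := by
      rw [hk']
      exact Function.update_of_ne (by omega) _ _
    unfold LevelOK
    intro σ hσ
    rw [hu1, hu2]
    exact hL σ hσ

lemma levels_exist {X : Finset (Finset V)} {d D : ℕ} {ε : ℝ} (hP : IsPureComplex X d)
    (hD : ∀ v, updeg X d {v} ≤ D) (hε : 0 < ε) (hE : IsCobExp X d ε) (T : Finset (Finset V))
    (hT : ∀ t ∈ faces X d, t ∉ T → IsCobdry X d (ind t)) :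
    ∀ m, m ≤ d → ∃ k : ℕ → Finset V → Finset V → ZMod 2,
      ∀ i', d - m ≤ i' → i' < d → LevelOK X T k (rr d D ε) d i' := by
  intro m
  induction m with
  | zero =>
    intro _
    exact ⟨fun _ _ _ => 0, fun i' h1 h2 => by omega⟩
  | succ m ih =>
    intro hm
    obtain ⟨k, hk⟩ := ih (by omega)
    exact level_step hP hD hε hE T hT (i := d - (m + 1)) (by omega)
      ⟨k, fun i' h1 h2 => hk i' (by omega) h2⟩

/-- The bottom contraction identity extends linearly to cochains vanishing on the bad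
vertices. -/
lemma Hext_bottom (X : Finset (Finset V)) (T : Finset (Finset V))
    (k1 : Finset V → Finset V → ZMod 2)
    (hk : ∀ σ ∈ faces X 0, (¬ ∃ t ∈ T, σ ⊆ t) →
      ∀ s ∈ faces X 0, ind σ s = Hext X k1 1 (cobdry X 0 (ind σ)) s)
    (g : Finset V → ZMod 2) (hg : ∀ σ ∈ faces X 0, (∃ t ∈ T, σ ⊆ t) → g σ = 0) :
    ∀ s ∈ faces X 0, g s = Hext X k1 1 (cobdry X 0 g) s := by
  intro s hs
  have h0 : g s = ∑ σ ∈ faces X 0, g σ * ind σ s := by
    rw [sum_eq_single s]
    · simp [ind]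
    · intro σ _ hne
      have : ind σ s = 0 := by
        unfold ind
        rw [if_neg (fun h => hne h.symm)]
      rw [this, mul_zero]
    · intro h
      exact absurd hs h
  have h1 : ∀ σ ∈ faces X 0, g σ * ind σ s
      = g σ * Hext X k1 1 (cobdry X 0 (ind σ)) s := by
    intro σ hσ
    by_cases hb : ∃ t ∈ T, σ ⊆ t
    · rw [hg σ hσ hb]
      simp
    · rw [hk σ hσ hb s hs]
  rw [h0, sum_congr rfl h1]
  unfold Hext
  simp_rw [mul_sum]
  rw [sum_comm]
  apply sum_congr rfl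
  intro π _
  have h2 : ∀ σ ∈ faces X 0, g σ * (cobdry X 0 (ind σ) π * k1 π s)
      = (if σ ⊆ π then g σ else 0) * k1 π s := by
    intro σ hσ
    rw [cobdry_ind X 0 hσ]
    split_ifs <;> simp
  rw [sum_congr rfl h2, ← sum_mul]
  congr 1
  unfold cobdry
  rw [sum_filter]

/-- In a bounded-degree coboundary expander of dimension `d ≥ 1`, the `d`-faces whose
indicator is not a coboundary are at least a fixed fraction of the vertices (up to an
additive constant). -/
theorem top_noncobdry {X : Finset (Finset V)} {d D : ℕ} {ε : ℝ} (hd : 1 ≤ d)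
    (hP : IsPureComplex X d) (hD : ∀ v, updeg X d {v} ≤ D) (hε : 0 < ε)
    (hE : IsCobExp X d ε) :
    ∃ T : Finset (Finset V), T ⊆ faces X d ∧ (∀ t ∈ T, ¬ IsCobdry X d (ind t)) ∧
      (faces X 0).card ≤ (1 + D * 2 ^ (d + 1) * rr d D ε d)
        + ((d + 1) * (1 + D * 2 ^ (d + 1) * rr d D ε d)) * T.card := by
  classical
  set T := (faces X d).filter (fun t => ¬ IsCobdry X d (ind t)) with hTdef
  refine ⟨T, filter_subset _ _, fun t ht => (mem_filter.mp ht).2, ?_⟩
  have hT : ∀ t ∈ faces X d, t ∉ T → IsCobdry X d (ind t) := by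
    intro t ht hn
    by_contra hc
    exact hn (mem_filter.mpr ⟨ht, hc⟩)
  have hTcard : ∀ t ∈ T, t.card = d + 1 :=
    fun t ht => (mem_faces.mp (mem_filter.mp ht).1).2
  obtain ⟨k, hk⟩ := levels_exist hP hD hε hE T hT d le_rfl
  have hL0 : LevelOK X T k (rr d D ε) d 0 := hk 0 (by omega) (by omega)
  have hX := hP.2.1
  set Rd := rr d D ε d with hRd
  rcases Nat.lt_or_ge (1 + D * 2 ^ (d + 1) * Rd) (faces X 0).card with hbig | hsmall
  swap
  · exact hsmall.trans (Nat.le_add_right _ _)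
  have hk0 : ∀ ρ ∈ faces X (0 + 1), (∃ t ∈ T, ρ ⊆ t) → k 1 ρ = 0 :=
    fun ρ hρ hb => (hL0 ρ hρ).1 hb
  have hkR : ∀ ρ ∈ faces X (0 + 1), (¬ ∃ t ∈ T, ρ ⊆ t) →
      (supp X 0 (k 1 ρ)).card ≤ Rd := by
    intro ρ hρ hg
    have h := ((hL0 ρ hρ).2 hg).2
    simpa using h
  -- the contraction identity at the bottom
  have hbot : ∀ σ ∈ faces X 0, (¬ ∃ t ∈ T, σ ⊆ t) →
      ∀ s ∈ faces X 0, ind σ s = Hext X (k 1) 1 (cobdry X 0 (ind σ)) s := by
    intro σ hσ hg
    have hcy := cocycle_y hX T k (rr d D ε) d 0 hL0 hσ hg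
    obtain ⟨c, hc⟩ := isCobdry_of_isCocycle hP hε hE (j := 0) (by omega) hcy
    have hsupp := supp_y_le hP hD T (k 1) 0 Rd hσ hk0 hkR
    have hc0 : c = 0 := by
      by_contra hne
      have hall : faces X 0
          ⊆ supp X 0 (ind σ + Hext X (k (0 + 1)) (0 + 1) (cobdry X 0 (ind σ))) := by
        intro s hs
        exact mem_supp.mpr ⟨hs, by rw [hc s hs]; exact hne⟩
      have h := card_le_card hall
      exact absurd (lt_of_lt_of_le hbig (h.trans hsupp)) (lt_irrefl _)
    intro s hs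
    have h := hc s hs
    rw [hc0] at h
    simp only [Pi.add_apply] at h
    exact CharTwo.add_eq_zero.mp h
  -- good and bad vertices
  set Bd := (faces X 0).filter (fun σ => ∃ t ∈ T, σ ⊆ t) with hBd
  set Gd := (faces X 0).filter (fun σ => ¬ ∃ t ∈ T, σ ⊆ t) with hGd
  have hsplit : Bd.card + Gd.card = (faces X 0).card :=
    card_filter_add_card_filter_not _
  have hB : Bd.card ≤ (d + 1) * T.card := by
    refine card_le_mul_of_cover (fun t => t.image (fun v => ({v} : Finset V))) (d + 1) ?_ ?_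
    · intro t ht
      exact card_image_le.trans (le_of_eq (hTcard t ht))
    · intro σ hσ
      rw [hBd, mem_filter] at hσ
      obtain ⟨hσf, t, ht, hσt⟩ := hσ
      obtain ⟨v, hv⟩ := card_eq_one.mp (mem_faces.mp hσf).2
      refine ⟨t, ht, mem_image.mpr ⟨v, ?_, hv.symm⟩⟩
      apply hσt
      rw [hv]
      exact mem_singleton_self v
  have hG : Gd.card ≤ ((d + 1) * (D * 2 ^ (d + 1) * Rd)) * T.card := by
    refine card_le_mul_of_cover
      (fun t => t.biUnion (fun w => ((X.filter (fun ρ => w ∈ ρ)).filter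
        (fun ρ => ρ ∈ faces X 1 ∧ ¬ ∃ t ∈ T, ρ ⊆ t)).biUnion
          (fun ρ => supp X 0 (k 1 ρ)))) ((d + 1) * (D * 2 ^ (d + 1) * Rd)) ?_ ?_
    · intro t ht
      have hmul := card_biUnion_le_card_mul t (fun w => ((X.filter (fun ρ => w ∈ ρ)).filter
        (fun ρ => ρ ∈ faces X 1 ∧ ¬ ∃ t ∈ T, ρ ⊆ t)).biUnion
          (fun ρ => supp X 0 (k 1 ρ))) (D * 2 ^ (d + 1) * Rd) ?_
      · rw [hTcard t ht] at hmul
        exact hmul
      intro w _
      calc (((X.filter (fun ρ => w ∈ ρ)).filter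
            (fun ρ => ρ ∈ faces X 1 ∧ ¬ ∃ t ∈ T, ρ ⊆ t)).biUnion
              (fun ρ => supp X 0 (k 1 ρ))).card
          ≤ ((X.filter (fun ρ => w ∈ ρ)).filter
            (fun ρ => ρ ∈ faces X 1 ∧ ¬ ∃ t ∈ T, ρ ⊆ t)).card * Rd := by
            apply card_biUnion_le_card_mul
            intro ρ hρ
            rw [mem_filter] at hρ
            exact hkR ρ hρ.2.1 hρ.2.2
        _ ≤ (D * 2 ^ (d + 1)) * Rd := by
            apply Nat.mul_le_mul_right
            exact (card_le_card (filter_subset _ _)).trans (card_star_le hP hD w)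
    · intro s hs
      rw [hGd, mem_filter] at hs
      obtain ⟨hsf, hsg⟩ := hs
      set g : Finset V → ZMod 2 := fun σ => if (∃ t ∈ T, σ ⊆ t) then 0 else 1 with hgdef
      have hgs : g s = 1 := if_neg hsg
      have hid := Hext_bottom X T (k 1) hbot g (fun σ _ hb => if_pos hb) s hsf
      rw [hgs] at hid
      have hne : Hext X (k 1) 1 (cobdry X 0 g) s ≠ 0 := by
        rw [← hid]
        exact one_ne_zero
      unfold Hext at hne
      obtain ⟨ρ, hρ, hρne⟩ := exists_ne_zero_of_sum_ne_zero hne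
      have hcg : cobdry X 0 g ρ ≠ 0 := fun h => hρne (by rw [h, zero_mul])
      have hkρ : k 1 ρ s ≠ 0 := fun h => hρne (by rw [h, mul_zero])
      have hρgood : ¬ ∃ t ∈ T, ρ ⊆ t := by
        intro hb
        rw [hk0 ρ hρ hb] at hkρ
        exact hkρ rfl
      have hρX := (mem_faces.mp hρ).1
      have hρc := (mem_faces.mp hρ).2
      rw [cobdry_eq_dsum hX hρX hρc g] at hcg
      have hexu : ∃ u ∈ ρ, ∃ t ∈ T, ρ.erase u ⊆ t := by
        by_contra hno
        apply hcg
        have hall : ∀ u ∈ ρ, g (ρ.erase u) = 1 := by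
          intro u hu
          exact if_neg (fun hb => hno ⟨u, hu, hb⟩)
        unfold dsum
        rw [sum_congr rfl hall, sum_const, hρc]
        show (2 : ℕ) • (1 : ZMod 2) = 0
        rw [two_nsmul]
        exact CharTwo.add_self_eq_zero _
      obtain ⟨u, hu, t, ht, hut⟩ := hexu
      have hne' : (ρ.erase u).Nonempty := by
        rw [← card_pos, card_erase_of_mem hu]
        omega
      obtain ⟨w, hw⟩ := hne'
      refine ⟨t, ht, ?_⟩
      rw [mem_biUnion]
      refine ⟨w, hut hw, ?_⟩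
      rw [mem_biUnion]
      refine ⟨ρ, ?_, mem_supp.mpr ⟨hsf, hkρ⟩⟩
      rw [mem_filter, mem_filter]
      exact ⟨⟨hρX, mem_of_mem_erase hw⟩, hρ, hρgood⟩
  calc (faces X 0).card = Bd.card + Gd.card := hsplit.symm
    _ ≤ (d + 1) * T.card + ((d + 1) * (D * 2 ^ (d + 1) * Rd)) * T.card :=
        Nat.add_le_add hB hG
    _ = ((d + 1) * (1 + D * 2 ^ (d + 1) * Rd)) * T.card := by ring
    _ ≤ (1 + D * 2 ^ (d + 1) * Rd) + ((d + 1) * (1 + D * 2 ^ (d + 1) * Rd)) * T.card :=
        Nat.le_add_left _ _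

end topcycles

end Vale.Agent.Lib.P067
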