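import Vale.Agent.Lib.P067.TelDefs

namespace Vale.Agent.Lib.P067

open Finset

variable {V : Type*} [DecidableEq V]

/-- The universal coboundary: sum of the values on the facets of `ρ`. -/
def dsum (F : Finset V → ZMod 2) (ρ : Finset V) : ZMod 2 := ∑ u ∈ ρ, F (ρ.erase u)

lemma dsum_add (F G : Finset V → ZMod 2) : dsum (F + G) = dsum F + dsum G := by
  funext ρ
  simp [dsum, sum_add_distrib]

omit [DecidableEq V] in
lemma pull_add [DecidableEq V] (φ : V → V) (F G : Finset V → ZMod 2) :
    pull φ (F + G) = pull φ F + pull φ G := by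
  funext ρ
  simp only [pull, Pi.add_apply]
  split_ifs <;> simp

lemma image_erase_of_injOn {φ : V → V} {ρ : Finset V} (h : Set.InjOn φ ρ) {u : V}
    (hu : u ∈ ρ) : (ρ.erase u).image φ = (ρ.image φ).erase (φ u) := by
  ext y
  simp only [mem_image, mem_erase]
  constructor
  · rintro ⟨x, ⟨hxu, hx⟩, rfl⟩
    exact ⟨fun h' => hxu (h hx hu h'), x, hx, rfl⟩
  · rintro ⟨hy, x, hx, rfl⟩
    exact ⟨x, ⟨fun h' => hy (h' ▸ rfl), hx⟩, rfl⟩

/-- Pull-back commutes with the universal coboundary. -/
theorem dsum_pull (φ : V → V) (F : Finset V → ZMod 2) :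
    dsum (pull φ F) = pull φ (dsum F) := by
  funext ρ
  by_cases h : (ρ.image φ).card = ρ.card
  · have hinj : Set.InjOn φ ρ := card_image_iff.mp h
    have hR : pull φ (dsum F) ρ = ∑ u ∈ ρ, F ((ρ.image φ).erase (φ u)) := by
      unfold pull
      rw [if_pos h]
      unfold dsum
      rw [sum_image hinj]
    rw [hR]
    unfold dsum
    apply sum_congr rfl
    intro u hu
    have hinj' : Set.InjOn φ (ρ.erase u) := hinj.mono (by
      intro x hx
      exact mem_of_mem_erase hx)
    unfold pull
    rw [if_pos (card_image_iff.mpr hinj'), image_erase_of_injOn hinj hu]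
  · have hR : pull φ (dsum F) ρ = 0 := by
      unfold pull
      rw [if_neg h]
    rw [hR]
    have hninj : ¬ Set.InjOn φ ρ := fun hi => h (card_image_iff.mpr hi)
    simp only [Set.InjOn, not_forall] at hninj
    obtain ⟨x, hx, y, hy, hxy, hne⟩ := hninj
    have hx' : x ∈ ρ := hx
    have hy' : y ∈ ρ := hy
    have hyx : y ∈ ρ.erase x := mem_erase.mpr ⟨fun h' => hne h'.symm, hy'⟩
    have himx : (ρ.erase x).image φ = ρ.image φ := by
      apply Subset.antisymm (image_subset_image (erase_subset x ρ))
      intro w hw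
      obtain ⟨a, ha, rfl⟩ := mem_image.mp hw
      by_cases hax : a = x
      · subst hax
        exact mem_image.mpr ⟨y, hyx, hxy.symm⟩
      · exact mem_image.mpr ⟨a, mem_erase.mpr ⟨hax, ha⟩, rfl⟩
    have himy : (ρ.erase y).image φ = ρ.image φ := by
      apply Subset.antisymm (image_subset_image (erase_subset y ρ))
      intro w hw
      obtain ⟨a, ha, rfl⟩ := mem_image.mp hw
      by_cases hay : a = y
      · subst hay
        exact mem_image.mpr ⟨x, mem_erase.mpr ⟨hne, hx'⟩, hxy⟩
      · exact mem_image.mpr ⟨a, mem_erase.mpr ⟨hay, ha⟩, rfl⟩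
    have h1 : pull φ F (ρ.erase x) = pull φ F (ρ.erase y) := by
      unfold pull
      rw [himx, himy, card_erase_of_mem hx', card_erase_of_mem hy']
    have h2 : ∀ u ∈ (ρ.erase x).erase y, pull φ F (ρ.erase u) = 0 := by
      intro u hu
      have huy : u ≠ y := (mem_erase.mp hu).1
      have hux : u ≠ x := (mem_erase.mp (mem_erase.mp hu).2).1
      unfold pull
      rw [if_neg]
      intro hc
      have hi : Set.InjOn φ (ρ.erase u) := card_image_iff.mp hc
      exact hne (hi (mem_coe.mpr (mem_erase.mpr ⟨fun h' => hux h'.symm, hx'⟩))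
        (mem_coe.mpr (mem_erase.mpr ⟨fun h' => huy h'.symm, hy'⟩)) hxy)
    unfold dsum
    rw [← add_sum_erase ρ _ hx', ← add_sum_erase (ρ.erase x) _ hyx, sum_eq_zero h2, h1,
      add_zero]
    exact CharTwo.add_self_eq_zero _

/-- Moving the vertex `v` to `b`. -/
def mv (v b : V) : V → V := fun x => if x = v then b else x

/-- The elementary homotopy of the move `v ↦ b`. -/
def hmove (v b : V) (F : Finset V → ZMod 2) (ρ : Finset V) : ZMod 2 :=
  if v ∈ ρ ∧ b ∉ ρ then F (insert b ρ) else 0

lemma image_mv_of_notMem {v b : V} {ρ : Finset V} (hv : v ∉ ρ) :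
    ρ.image (mv v b) = ρ := by
  ext y
  simp only [mem_image, mv]
  constructor
  · rintro ⟨x, hx, rfl⟩
    have hxv : x ≠ v := fun h => hv (h ▸ hx)
    rw [if_neg hxv]
    exact hx
  · intro hy
    have hyv : y ≠ v := fun h => hv (h ▸ hy)
    exact ⟨y, hy, by rw [if_neg hyv]⟩

lemma image_mv_of_mem {v b : V} {ρ : Finset V} (hv : v ∈ ρ) :
    ρ.image (mv v b) = insert b (ρ.erase v) := by
  ext y
  simp only [mem_image, mem_insert, mem_erase, mv]
  constructor
  · rintro ⟨x, hx, rfl⟩
    by_cases hxv : x = v
    · left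
      rw [if_pos hxv]
    · right
      rw [if_neg hxv]
      exact ⟨hxv, hx⟩
  · rintro (rfl | ⟨hyv, hy⟩)
    · exact ⟨v, hv, by rw [if_pos rfl]⟩
    · exact ⟨y, hy, by rw [if_neg hyv]⟩

/-- The homotopy identity of an elementary move. -/
theorem move_identity {v b : V} (hvb : v ≠ b) (F : Finset V → ZMod 2) :
    F + pull (mv v b) F = dsum (hmove v b F) + hmove v b (dsum F) := by
  funext ρ
  simp only [Pi.add_apply]
  by_cases hv : v ∈ ρ
  · by_cases hb : b ∈ ρ
    · have himg : ρ.image (mv v b) = ρ.erase v := by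
        rw [image_mv_of_mem hv, insert_eq_of_mem (mem_erase.mpr ⟨hvb.symm, hb⟩)]
      have hp : pull (mv v b) F ρ = 0 := by
        unfold pull
        rw [himg, card_erase_of_mem hv]
        have := card_pos.mpr ⟨v, hv⟩
        rw [if_neg (by omega)]
      have hh : hmove v b (dsum F) ρ = 0 := by
        unfold hmove
        rw [if_neg (fun h => h.2 hb)]
      have hd : dsum (hmove v b F) ρ = F ρ := by
        unfold dsum
        rw [sum_eq_single_of_mem b hb]
        · unfold hmove
          rw [if_pos ⟨mem_erase.mpr ⟨hvb, hv⟩, notMem_erase b ρ⟩, insert_erase hb]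
        · intro u _ hub
          unfold hmove
          rw [if_neg (fun h => h.2 (mem_erase.mpr ⟨fun h' => hub h'.symm, hb⟩))]
      rw [hp, hh, hd]
    · have himg := image_mv_of_mem (b := b) hv
      have hcard : (insert b (ρ.erase v)).card = ρ.card := by
        rw [card_insert_of_notMem (fun h => hb (mem_of_mem_erase h)), card_erase_of_mem hv]
        have := card_pos.mpr ⟨v, hv⟩
        omega
      have hp : pull (mv v b) F ρ = F (insert b (ρ.erase v)) := by
        unfold pull
        rw [himg, if_pos hcard]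
      have hd : dsum (hmove v b F) ρ = ∑ u ∈ ρ.erase v, F (insert b (ρ.erase u)) := by
        unfold dsum
        rw [← add_sum_erase ρ _ hv]
        have h0 : hmove v b F (ρ.erase v) = 0 := by
          unfold hmove
          rw [if_neg (fun h => notMem_erase v ρ h.1)]
        rw [h0, zero_add]
        apply sum_congr rfl
        intro u hu
        have huv : u ≠ v := (mem_erase.mp hu).1
        unfold hmove
        rw [if_pos ⟨mem_erase.mpr ⟨fun h' => huv h'.symm, hv⟩,
          fun h => hb (mem_of_mem_erase h)⟩]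
      have e1 : ∀ u ∈ ρ, (insert b ρ).erase u = insert b (ρ.erase u) := fun u hu =>
        erase_insert_of_ne (fun h => hb (h ▸ hu))
      have hh : hmove v b (dsum F) ρ = F ρ + (F (insert b (ρ.erase v)) +
          ∑ u ∈ ρ.erase v, F (insert b (ρ.erase u))) := by
        unfold hmove
        rw [if_pos ⟨hv, hb⟩]
        unfold dsum
        rw [sum_insert hb, erase_insert hb, ← add_sum_erase ρ _ hv, e1 v hv]
        congr 2
        apply sum_congr rfl
        intro u hu
        rw [e1 u (mem_of_mem_erase hu)]
      rw [hp, hd, hh]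
      have h2 := CharTwo.add_self_eq_zero (∑ u ∈ ρ.erase v, F (insert b (ρ.erase u)))
      linear_combination (-1 : ZMod 2) * h2
  · have hp : pull (mv v b) F ρ = F ρ := by
      unfold pull
      rw [image_mv_of_notMem hv, if_pos rfl]
    have hd : dsum (hmove v b F) ρ = 0 := by
      unfold dsum
      apply sum_eq_zero
      intro u _
      unfold hmove
      rw [if_neg (fun h => hv (mem_of_mem_erase h.1))]
    have hh : hmove v b (dsum F) ρ = 0 := by
      unfold hmove
      rw [if_neg (fun h => hv h.1)]
    rw [hp, hd, hh, CharTwo.add_self_eq_zero]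
    ring



/-- Composition of the pull-backs along the moves `v ↦ π v`, `v` in the list. -/
def Pm (π : V → V) : List V → (Finset V → ZMod 2) → (Finset V → ZMod 2)
  | [], F => F
  | v :: L, F => pull (mv v (π v)) (Pm π L F)

/-- The homotopy of the composition of the moves `v ↦ π v`, `v` in the list. -/
def Hm (π : V → V) : List V → (Finset V → ZMod 2) → (Finset V → ZMod 2)
  | [], _ => 0
  | v :: L, F => hmove v (π v) F + pull (mv v (π v)) (Hm π L F)

theorem list_identity (π : V → V) (L : List V) (hL : ∀ v ∈ L, v ≠ π v)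
    (F : Finset V → ZMod 2) :
    F + Pm π L F = dsum (Hm π L F) + Hm π L (dsum F) := by
  induction L with
  | nil =>
    funext ρ
    simp [Pm, Hm, dsum, CharTwo.add_self_eq_zero]
  | cons v L ih =>
    have ih' := ih (fun w hw => hL w (List.mem_cons_of_mem v hw))
    have hv : v ≠ π v := hL v List.mem_cons_self
    have e1 := move_identity hv F
    have e2 : F + pull (mv v (π v)) (Pm π L F)
        = (F + pull (mv v (π v)) F) + pull (mv v (π v)) (F + Pm π L F) := by
      rw [pull_add]
      funext ρ
      simp only [Pi.add_apply]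
      have h2 := CharTwo.add_self_eq_zero (pull (mv v (π v)) F ρ)
      linear_combination (-1 : ZMod 2) * h2
    show F + pull (mv v (π v)) (Pm π L F)
      = dsum (hmove v (π v) F + pull (mv v (π v)) (Hm π L F))
        + (hmove v (π v) (dsum F) + pull (mv v (π v)) (Hm π L (dsum F)))
    rw [e2, e1, ih', pull_add, ← dsum_pull, dsum_add]
    abel

lemma pull_pull (f g : V → V) (F : Finset V → ZMod 2) :
    pull f (pull g F) = pull (g ∘ f) F := by
  funext ρ
  unfold pull
  rw [image_image]
  by_cases h1 : (ρ.image f).card = ρ.card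
  · rw [if_pos h1, h1]
  · rw [if_neg h1, if_neg]
    intro h2
    have h3 := card_image_le (s := ρ.image f) (f := g)
    rw [image_image] at h3
    have h4 := card_image_le (s := ρ) (f := f)
    omega

/-- Moving all vertices of the list. -/
def mvAll (π : V → V) (L : List V) : V → V := fun x => if x ∈ L then π x else x

lemma Pm_eq_pull (π : V → V) (L : List V) (hL : ∀ v ∈ L, π v ∉ L)
    (F : Finset V → ZMod 2) : Pm π L F = pull (mvAll π L) F := by
  induction L with
  | nil =>
    funext ρ
    have h0 : mvAll π [] = id := by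
      funext x
      simp [mvAll]
    show F ρ = pull (mvAll π []) F ρ
    unfold pull
    rw [h0, image_id, if_pos rfl]
  | cons v L ih =>
    have ih' := ih (fun w hw h => hL w (List.mem_cons_of_mem v hw) (List.mem_cons_of_mem v h))
    show pull (mv v (π v)) (Pm π L F) = _
    rw [ih', pull_pull]
    congr 1
    funext x
    simp only [Function.comp, mv, mvAll]
    by_cases hx : x = v
    · subst hx
      have h1 : π x ∉ L := fun h => hL x List.mem_cons_self (List.mem_cons_of_mem x h)
      simp [h1]
    · simp [hx]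

lemma Hm_eq_zero (π : V → V) (L : List V) (F : Finset V → ZMod 2) (ρ : Finset V)
    (h : ∀ v ∈ L, v ∉ ρ) : Hm π L F ρ = 0 := by
  induction L with
  | nil => rfl
  | cons v L ih =>
    have hv : v ∉ ρ := h v List.mem_cons_self
    show hmove v (π v) F ρ + pull (mv v (π v)) (Hm π L F) ρ = 0
    unfold hmove pull
    rw [if_neg (fun h' => hv h'.1), image_mv_of_notMem hv, if_pos rfl,
      ih (fun w hw => h w (List.mem_cons_of_mem v hw)), add_zero]

/-- Locality of the homotopy: a nonzero value at `ρ` is witnessed by a nonzero value of the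
argument at a face one larger inside `ρ ∪ π(ρ)`. -/
lemma Hm_local (π : V → V) (d : ℕ) (M : Finset V → Prop) (P : V → Prop) [DecidablePred P]
    (hsub : ∀ ρ, M ρ → ∀ s, s ⊆ ρ → s.Nonempty → M s)
    (L : List V) (hP : ∀ v ∈ L, P v ∧ ¬ P (π v))
    (hdom : ∀ ρ, M ρ → ∀ v ∈ L, v ∈ ρ → ρ.card ≤ d → M (insert (π v) ρ))
    (E : Finset V → ZMod 2) :
    ∀ ρ, M ρ → ρ.card ≤ d → Hm π L E ρ ≠ 0 →
      ∃ ρ', M ρ' ∧ ρ'.card = ρ.card + 1 ∧ E ρ' ≠ 0 ∧ ρ' ⊆ ρ ∪ (ρ.filter P).image π := by
  induction L with
  | nil =>
    intro ρ _ _ h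
    exact absurd rfl h
  | cons v L ih =>
    have ih' := ih (fun w hw => hP w (List.mem_cons_of_mem v hw))
      (fun ρ hρ w hw => hdom ρ hρ w (List.mem_cons_of_mem v hw))
    have hPv := hP v List.mem_cons_self
    intro ρ hρ hcard h
    have h' : hmove v (π v) E ρ + pull (mv v (π v)) (Hm π L E) ρ ≠ 0 := h
    by_cases h1 : hmove v (π v) E ρ = 0
    · rw [h1, zero_add] at h'
      unfold pull at h'
      by_cases hc : (ρ.image (mv v (π v))).card = ρ.card
      · rw [if_pos hc] at h'
        by_cases hv : v ∈ ρ
        · have himg := image_mv_of_mem (b := π v) hv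
          have hM1 : M (insert (π v) ρ) := hdom ρ hρ v List.mem_cons_self hv hcard
          have hM2 : M (ρ.image (mv v (π v))) := by
            rw [himg]
            exact hsub _ hM1 _ (insert_subset_insert _ (erase_subset v ρ)) (insert_nonempty _ _)
          obtain ⟨ρ', hM', hc', hE', hsub'⟩ := ih' _ hM2 (by rw [hc]; exact hcard) h'
          refine ⟨ρ', hM', by rw [hc', hc], hE', ?_⟩
          intro x hx
          have hx' := hsub' hx
          rw [mem_union] at hx' ⊢
          rcases hx' with hx' | hx'
          · rw [himg, mem_insert] at hx'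
            rcases hx' with rfl | hx'
            · right
              exact mem_image.mpr ⟨v, mem_filter.mpr ⟨hv, hPv.1⟩, rfl⟩
            · left
              exact mem_of_mem_erase hx'
          · right
            obtain ⟨y, hy, rfl⟩ := mem_image.mp hx'
            rw [mem_filter, himg, mem_insert] at hy
            rcases hy.1 with rfl | hy'
            · exact absurd hy.2 hPv.2
            · exact mem_image.mpr ⟨y, mem_filter.mpr ⟨mem_of_mem_erase hy', hy.2⟩, rfl⟩
        · have himg := image_mv_of_notMem (b := π v) hv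
          rw [himg] at h'
          exact ih' ρ hρ hcard h'
      · rw [if_neg hc] at h'
        exact absurd rfl h'
    · unfold hmove at h1
      by_cases hc : v ∈ ρ ∧ π v ∉ ρ
      · rw [if_pos hc] at h1
        refine ⟨insert (π v) ρ, hdom ρ hρ v List.mem_cons_self hc.1 hcard,
          card_insert_of_notMem hc.2, h1, ?_⟩
        intro x hx
        rw [mem_insert] at hx
        rw [mem_union]
        rcases hx with rfl | hx
        · right
          exact mem_image.mpr ⟨v, mem_filter.mpr ⟨hc.1, hPv.1⟩, rfl⟩
        · left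
          exact hx
      · rw [if_neg hc] at h1
        exact absurd rfl h1

/-- The homotopy only looks at the values of its argument on faces of `M` one larger. -/
lemma Hm_congr (π : V → V) (d : ℕ) (M : Finset V → Prop)
    (hsub : ∀ ρ, M ρ → ∀ s, s ⊆ ρ → s.Nonempty → M s)
    (L : List V)
    (hdom : ∀ ρ, M ρ → ∀ v ∈ L, v ∈ ρ → ρ.card ≤ d → M (insert (π v) ρ))
    (E E' : Finset V → ZMod 2) (n : ℕ) (hn : n ≤ d)
    (hE : ∀ ρ', M ρ' → ρ'.card = n + 1 → E ρ' = E' ρ') :
    ∀ ρ, M ρ → ρ.card = n → Hm π L E ρ = Hm π L E' ρ := by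
  induction L with
  | nil =>
    intro ρ _ _
    rfl
  | cons v L ih =>
    have ih' := ih (fun ρ hρ w hw => hdom ρ hρ w (List.mem_cons_of_mem v hw))
    intro ρ hρ hcard
    show hmove v (π v) E ρ + pull (mv v (π v)) (Hm π L E) ρ
      = hmove v (π v) E' ρ + pull (mv v (π v)) (Hm π L E') ρ
    have h1 : hmove v (π v) E ρ = hmove v (π v) E' ρ := by
      unfold hmove
      by_cases hc : v ∈ ρ ∧ π v ∉ ρ
      · rw [if_pos hc, if_pos hc]
        exact hE _ (hdom ρ hρ v List.mem_cons_self hc.1 (by omega))
          (by rw [card_insert_of_notMem hc.2, hcard])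
      · rw [if_neg hc, if_neg hc]
    have h2 : pull (mv v (π v)) (Hm π L E) ρ = pull (mv v (π v)) (Hm π L E') ρ := by
      unfold pull
      by_cases hc : (ρ.image (mv v (π v))).card = ρ.card
      · rw [if_pos hc, if_pos hc]
        by_cases hv : v ∈ ρ
        · have himg := image_mv_of_mem (b := π v) hv
          have hM1 : M (insert (π v) ρ) := hdom ρ hρ v List.mem_cons_self hv (by omega)
          have hM2 : M (ρ.image (mv v (π v))) := by
            rw [himg]
            exact hsub _ hM1 _ (insert_subset_insert _ (erase_subset v ρ)) (insert_nonempty _ _)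
          exact ih' _ hM2 (by rw [hc, hcard])
        · rw [image_mv_of_notMem hv]
          exact ih' ρ hρ hcard
      · rw [if_neg hc, if_neg hc]
    rw [h1, h2]

end Vale.Agent.Lib.P067
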